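import Mathlib

/-! Symmetric positive forms: powers of contractions and approximate square roots. -/

namespace Vale.Agent.P078.Tracial.CovForm

variable {V : Type*} [AddCommGroup V] [Module ℝ V]

/-- A symmetric positive semidefinite form. -/
structure IsSemi (ip : V →ₗ[ℝ] V →ₗ[ℝ] ℝ) : Prop where
  symm : ∀ u v, ip u v = ip v u
  nonneg : ∀ v, 0 ≤ ip v v

/-- A positive contraction for the form. -/
structure IsPosContr (ip : V →ₗ[ℝ] V →ₗ[ℝ] ℝ) (x : Module.End ℝ V) : Prop where
  symm : ∀ u v, ip (x u) v = ip u (x v)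
  nonneg : ∀ v, 0 ≤ ip v (x v)
  le_one : ∀ v, ip v (x v) ≤ ip v v

/-- The seminorm of the form. -/
noncomputable def nrm (ip : V →ₗ[ℝ] V →ₗ[ℝ] ℝ) (v : V) : ℝ := Real.sqrt (ip v v)

variable {ip : V →ₗ[ℝ] V →ₗ[ℝ] ℝ}

lemma cs (h : IsSemi ip) (u v : V) : ip u v ^ 2 ≤ ip u u * ip v v := by
  have hd : discrim (ip v v) (2 * ip u v) (ip u u) ≤ 0 := by
    refine discrim_le_zero fun t => ?_
    have := h.nonneg (u + t • v)
    simp only [map_add, map_smul, LinearMap.add_apply, LinearMap.smul_apply, smul_eq_mul,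
      h.symm v u] at this
    linarith
  rw [discrim] at hd
  linarith

lemma nrm_nonneg (v : V) : 0 ≤ nrm ip v := Real.sqrt_nonneg _

lemma nrm_sq (h : IsSemi ip) (v : V) : nrm ip v ^ 2 = ip v v := Real.sq_sqrt (h.nonneg v)

lemma abs_le_nrm (h : IsSemi ip) (u v : V) : |ip u v| ≤ nrm ip u * nrm ip v := by
  rw [nrm, nrm, ← Real.sqrt_mul (h.nonneg u), ← Real.sqrt_sq_eq_abs]
  exact Real.sqrt_le_sqrt (cs h u v)

lemma nrm_add_le (h : IsSemi ip) (u v : V) : nrm ip (u + v) ≤ nrm ip u + nrm ip v := by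
  refine (Real.sqrt_le_left (add_nonneg (nrm_nonneg u) (nrm_nonneg v))).2 ?_
  simp only [map_add, LinearMap.add_apply, h.symm v u]
  rw [add_sq, nrm_sq h, nrm_sq h]
  linarith [le_of_abs_le (abs_le_nrm h u v)]

lemma nrm_smul {a : ℝ} (ha : 0 ≤ a) (v : V) :
    nrm ip (a • v) = a * nrm ip v := by
  simp only [nrm, map_smul, LinearMap.smul_apply, smul_eq_mul]
  rw [← mul_assoc, Real.sqrt_mul (mul_self_nonneg a), Real.sqrt_mul_self ha]

lemma nrm_zero : nrm ip 0 = 0 := by simp [nrm]

variable {x : Module.End ℝ V}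

lemma IsPosContr.sq_le (hi : IsSemi ip) (hx : IsPosContr ip x) (v : V) :
    ip (x v) (x v) ≤ ip v (x v) := by
  set q : V →ₗ[ℝ] V →ₗ[ℝ] ℝ := ip.compl₂ x with hq
  have hqs : IsSemi q := ⟨fun u w => by
      simp only [hq, LinearMap.compl₂_apply]; rw [← hx.symm, hi.symm], fun u => by
      simpa [hq] using hx.nonneg u⟩
  have h1 := cs hqs v (x v)
  simp only [hq, LinearMap.compl₂_apply] at h1
  have h2 := hx.le_one (x v)
  have h3 := hi.nonneg (x v)
  have h4 := hx.nonneg v
  rw [← hx.symm v (x v)] at h1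
  rcases h3.eq_or_lt with h0 | h0
  · linarith
  · have h5 : ip (x v) (x v) * ip (x v) (x v) ≤ ip v (x v) * ip (x v) (x v) := by
      nlinarith [mul_le_mul_of_nonneg_left h2 h4]
    exact le_of_mul_le_mul_right h5 h0

lemma IsPosContr.nrm_le (hi : IsSemi ip) (hx : IsPosContr ip x) (v : V) :
    nrm ip (x v) ≤ nrm ip v :=
  Real.sqrt_le_sqrt ((hx.sq_le hi v).trans (hx.le_one v))

lemma IsPosContr.compl (hx : IsPosContr ip x) : IsPosContr ip (1 - x) := by
  refine ⟨fun u v => ?_, fun v => ?_, fun v => ?_⟩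
  · simp [hx.symm]
  · simpa using hx.le_one v
  · simpa using hx.nonneg v

lemma symm_pow (hs : ∀ u v, ip (x u) v = ip u (x v)) (n : ℕ) (u v : V) :
    ip ((x ^ n) u) v = ip u ((x ^ n) v) := by
  induction n generalizing u with
  | zero => simp
  | succ n ih =>
    rw [pow_succ, Module.End.mul_apply, ih (x u), hs, ← Module.End.mul_apply, ← pow_succ', pow_succ,
      Module.End.mul_apply]

lemma IsPosContr.nrm_pow_le (hi : IsSemi ip) (hx : IsPosContr ip x) (n : ℕ) (v : V) :
    nrm ip ((x ^ n) v) ≤ nrm ip v := by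
  induction n generalizing v with
  | zero => simp
  | succ n ih =>
    rw [pow_succ, Module.End.mul_apply]
    exact (ih (x v)).trans (hx.nrm_le hi v)

/-- `x (1 - x) ^ (2 n)` is small. -/
lemma IsPosContr.small (hi : IsSemi ip) (hx : IsPosContr ip x) (n : ℕ) (v : V) :
    ((n : ℝ) + 1) * ip (((1 - x) ^ n) v) (x (((1 - x) ^ n) v)) ≤ ip v v := by
  set z := 1 - x with hz
  set f : ℕ → ℝ := fun i => ip ((z ^ i) v) (x ((z ^ i) v)) with hf
  set g : ℕ → ℝ := fun i => ip ((z ^ i) v) ((z ^ i) v) with hg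
  have hg0 : g 0 = ip v v := by simp [hg]
  have hf1 : ∀ i, f (i + 1) ≤ f i := by
    intro i
    simp only [hf, pow_succ', Module.End.mul_apply]
    set w := (z ^ i) v
    have h1 := hx.le_one (x w)
    have h2 := hi.nonneg (x w)
    simp only [hz, LinearMap.sub_apply, Module.End.one_apply, map_sub, LinearMap.sub_apply]
    rw [← hx.symm w (x w)]
    linarith
  have hfg : ∀ i, f i ≤ g i - g (i + 1) := by
    intro i
    simp only [hf, hg, pow_succ', Module.End.mul_apply]
    set w := (z ^ i) v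
    have h1 := hx.sq_le hi w
    simp only [hz, LinearMap.sub_apply, Module.End.one_apply, map_sub, LinearMap.sub_apply]
    rw [hi.symm (x w) w]
    linarith
  have hanti : Antitone f := antitone_nat_of_succ_le hf1
  have key : ∀ m, ∑ i ∈ Finset.range m, f i ≤ g 0 - g m := by
    intro m
    induction m with
    | zero => simp
    | succ m ih => rw [Finset.sum_range_succ]; linarith [hfg m]
  have h1 := key (n + 1)
  have h2 : ∑ _i ∈ Finset.range (n + 1), f n ≤ ∑ i ∈ Finset.range (n + 1), f i :=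
    Finset.sum_le_sum fun i hi' => hanti (Nat.lt_succ_iff.1 (Finset.mem_range.1 hi'))
  have h3 : 0 ≤ g (n + 1) := hi.nonneg _
  simp only [Finset.sum_const, Finset.card_range, nsmul_eq_mul, Nat.cast_add, Nat.cast_one] at h2
  linarith

section Root

variable (A : Module.End ℝ V)

/-- The iteration for `1 - √(1 - A)`. -/
noncomputable def rootSeq : ℕ → Module.End ℝ V
  | 0 => 0
  | k + 1 => (1 / 2 : ℝ) • (A + rootSeq k * rootSeq k)

/-- The scalar majorant. -/
noncomputable def rootMaj : ℕ → ℝ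
  | 0 => 0
  | k + 1 => 1 / 2 * (1 + rootMaj k ^ 2)

lemma rootMaj_mem (k : ℕ) : 0 ≤ rootMaj k ∧ rootMaj k ≤ 1 := by
  induction k with
  | zero => simp [rootMaj]
  | succ k ih =>
    simp only [rootMaj]
    constructor <;> nlinarith

lemma exists_small_step {δ : ℝ} (hδ : 0 < δ) : ∃ k, rootMaj (k + 1) - rootMaj k < δ := by
  by_contra hc
  push Not at hc
  obtain ⟨k, hk⟩ := exists_nat_gt (1 / δ)
  have : ∀ k : ℕ, (k : ℝ) * δ ≤ rootMaj k := by
    intro k
    induction k with
    | zero => simp [rootMaj]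
    | succ k ih => push_cast; linarith [hc k]
  have h1 := this k
  have h2 := (rootMaj_mem k).2
  rw [div_lt_iff₀ hδ] at hk
  linarith

lemma commute_rootSeq : ∀ k, Commute A (rootSeq A k)
  | 0 => Commute.zero_right _
  | k + 1 => ((Commute.refl A).add_right
      ((commute_rootSeq k).mul_right (commute_rootSeq k))).smul_right _

lemma commute_rootSeq_succ : ∀ k, Commute (rootSeq A (k + 1)) (rootSeq A k) := fun k =>
  ((commute_rootSeq A k).add_left ((Commute.refl _).mul_left (Commute.refl _))).smul_left _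

lemma rootSeq_square (k : ℕ) :
    (1 - rootSeq A k) * (1 - rootSeq A k) =
      (1 - A) + (2 : ℝ) • (rootSeq A (k + 1) - rootSeq A k) := by
  simp only [rootSeq, mul_sub, sub_mul, one_mul, mul_one]
  module

variable {A}

lemma nrm_rootSeq_le (hi : IsSemi ip) (hA : ∀ v, nrm ip (A v) ≤ nrm ip v) (k : ℕ) (v : V) :
    nrm ip (rootSeq A k v) ≤ rootMaj k * nrm ip v := by
  induction k generalizing v with
  | zero => simp [rootSeq, rootMaj, nrm_zero]
  | succ k ih =>
    simp only [rootSeq, rootMaj, LinearMap.smul_apply, LinearMap.add_apply, Module.End.mul_apply]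
    rw [nrm_smul (by norm_num), mul_assoc]
    refine mul_le_mul_of_nonneg_left ((nrm_add_le hi _ _).trans ?_) (by norm_num)
    have := mul_le_mul_of_nonneg_left (ih v) (rootMaj_mem k).1
    nlinarith [ih (rootSeq A k v), hA v]

lemma nrm_step_le (hi : IsSemi ip) (hA : ∀ v, nrm ip (A v) ≤ nrm ip v) (k : ℕ) (v : V) :
    nrm ip ((rootSeq A (k + 1) - rootSeq A k) v) ≤ (rootMaj (k + 1) - rootMaj k) * nrm ip v := by
  induction k generalizing v with
  | zero =>
    simp only [rootSeq, rootMaj, mul_zero, add_zero, sub_zero, LinearMap.smul_apply]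
    rw [nrm_smul (by norm_num)]
    have := hA v
    norm_num
    linarith
  | succ k ih =>
    have e : rootSeq A (k + 1 + 1) - rootSeq A (k + 1) =
        (1 / 2 : ℝ) • ((rootSeq A (k + 1) + rootSeq A k) * (rootSeq A (k + 1) - rootSeq A k)) := by
      rw [← (commute_rootSeq_succ A k).mul_self_sub_mul_self_eq]
      conv_lhs => rw [rootSeq]
      conv_lhs => enter [2]; rw [rootSeq]
      module
    rw [e, LinearMap.smul_apply, Module.End.mul_apply, nrm_smul (by norm_num),
      LinearMap.add_apply]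
    set w := (rootSeq A (k + 1) - rootSeq A k) v
    have h1 := nrm_rootSeq_le hi hA (k + 1) w
    have h2 := nrm_rootSeq_le hi hA k w
    have h3 := nrm_add_le hi (rootSeq A (k + 1) w) (rootSeq A k w)
    have h4 := mul_le_mul_of_nonneg_left (ih v)
      (add_nonneg (rootMaj_mem (k + 1)).1 (rootMaj_mem k).1)
    have e2 : rootMaj (k + 1 + 1) - rootMaj (k + 1) =
        1 / 2 * ((rootMaj (k + 1) + rootMaj k) * (rootMaj (k + 1) - rootMaj k)) := by
      simp only [rootMaj]; ring
    rw [e2]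
    linarith

lemma rootSeq_symm (hA : ∀ u v, ip (A u) v = ip u (A v)) (k : ℕ) (u v : V) :
    ip (rootSeq A k u) v = ip u (rootSeq A k v) := by
  induction k generalizing u v with
  | zero => simp [rootSeq]
  | succ k ih => simp [rootSeq, hA, ih]

end Root

end Vale.Agent.P078.Tracial.CovForm
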