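import Vale.Agent.P078.Basic

/-! Operator lemmas for the passage from a von Neumann algebra to the abstract core: weak cluster
points, projections of kernels, spectral projections and the vectors of a trace. -/

namespace Vale.Agent.P078.Tracial

open scoped InnerProductSpace
open Filter Topology

variable {H : Type*} [NormedAddCommGroup H] [InnerProductSpace ℂ H] [CompleteSpace H]


lemma exists_weakLimit {ι : Type*} (U : Ultrafilter ι) (T : ι → (H →L[ℂ] H)) {C : ℝ}
    (hC : ∀ i, ‖T i‖ ≤ C) :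
    ∃ E : (H →L[ℂ] H), ‖E‖ ≤ C ∧ ∀ u v, Tendsto (fun i => ⟪T i u, v⟫_ℂ) U (𝓝 ⟪E u, v⟫_ℂ) := by
  classical
  have hne : Nonempty ι := Filter.nonempty_of_neBot (U : Filter ι)
  have hC0 : 0 ≤ C := (norm_nonneg _).trans (hC (Classical.arbitrary ι))
  have bd : ∀ (u v : H) (i : ι), ‖⟪T i u, v⟫_ℂ‖ ≤ C * ‖u‖ * ‖v‖ := fun u v i =>
    (norm_inner_le_norm _ _).trans (mul_le_mul_of_nonneg_right
      ((ContinuousLinearMap.le_opNorm _ _).trans
        (mul_le_mul_of_nonneg_right (hC i) (norm_nonneg _))) (norm_nonneg _))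
  have ex : ∀ u v : H, ∃ l : ℂ, ‖l‖ ≤ C * ‖u‖ * ‖v‖ ∧
      Tendsto (fun i => ⟪T i u, v⟫_ℂ) U (𝓝 l) := by
    intro u v
    obtain ⟨l, hl, hlim⟩ := (isCompact_closedBall (0:ℂ) (C * ‖u‖ * ‖v‖)).ultrafilter_le_nhds
      (U.map fun i => ⟪T i u, v⟫_ℂ) (by
        rw [Ultrafilter.coe_map, le_principal_iff, mem_map]
        exact Eventually.of_forall fun i => mem_closedBall_zero_iff.2 (bd u v i))
    exact ⟨l, mem_closedBall_zero_iff.1 hl, hlim⟩
  choose l hlb hlt using ex
  let L : H →ₗ⋆[ℂ] H →ₗ[ℂ] ℂ := LinearMap.mk₂'ₛₗ (starRingEnd ℂ) (RingHom.id ℂ) l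
    (fun u u' v => tendsto_nhds_unique (hlt _ _) (by
      simpa [inner_add_left] using (hlt u v).add (hlt u' v)))
    (fun c u v => tendsto_nhds_unique (hlt _ _) (by
      simpa [inner_smul_left, mul_comm] using (hlt u v).const_mul (starRingEnd ℂ c)))
    (fun u v v' => tendsto_nhds_unique (hlt _ _) (by
      simpa [inner_add_right] using (hlt u v).add (hlt u v')))
    (fun c u v => tendsto_nhds_unique (hlt _ _) (by
      simpa [inner_smul_right] using (hlt u v).const_mul c))
  let Bf : H →L⋆[ℂ] H →L[ℂ] ℂ := LinearMap.mkContinuous₂ L C fun u v => hlb u v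
  let E := InnerProductSpace.continuousLinearMapOfBilin Bf
  have hE : ∀ u v, ⟪E u, v⟫_ℂ = l u v := fun u v => by
    rw [InnerProductSpace.continuousLinearMapOfBilin_apply]; rfl
  refine ⟨E, ContinuousLinearMap.opNorm_le_bound _ hC0 fun u => ?_,
    fun u v => by rw [hE]; exact hlt u v⟩
  rcases eq_or_ne (E u) 0 with h0 | h0
  · rw [h0, norm_zero]; positivity
  · have h1 : ‖⟪E u, E u⟫_ℂ‖ ≤ C * ‖u‖ * ‖E u‖ := hE u (E u) ▸ hlb u (E u)
    rw [inner_self_eq_norm_sq_to_K] at h1
    simp [sq] at h1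
    exact le_of_mul_le_mul_right h1 (norm_pos_iff.2 h0)

lemma comm_of_weakLimit {ι : Type*} {U : Filter ι} [U.NeBot] {T : ι → (H →L[ℂ] H)} {E b : (H →L[ℂ] H)}
    (h : ∀ u v, Tendsto (fun i => ⟪T i u, v⟫_ℂ) U (𝓝 ⟪E u, v⟫_ℂ))
    (hb : ∀ᶠ i in U, b * T i = T i * b) : b * E = E * b := by
  ext u
  refine ext_inner_right ℂ fun v => ?_
  simp only [op_mul_apply]
  rw [← ContinuousLinearMap.adjoint_inner_right]
  refine tendsto_nhds_unique (h u (ContinuousLinearMap.adjoint b v)) ((h (b u) v).congr' ?_)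
  filter_upwards [hb] with i hi
  rw [ContinuousLinearMap.adjoint_inner_right, ← op_mul_apply, ← hi, op_mul_apply]

lemma vn_mem_iff {M : VonNeumannAlgebra H} {a : (H →L[ℂ] H)} :
    a ∈ M ↔ ∀ b ∈ M.commutant, b * a = a * b := by
  conv_lhs => rw [← M.commutant_commutant]
  exact VonNeumannAlgebra.mem_commutant_iff

lemma vn_mem_of_weakLimit {M : VonNeumannAlgebra H} {ι : Type*} {U : Filter ι} [U.NeBot]
    {T : ι → (H →L[ℂ] H)} {E : (H →L[ℂ] H)}
    (h : ∀ u v, Tendsto (fun i => ⟪T i u, v⟫_ℂ) U (𝓝 ⟪E u, v⟫_ℂ))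
    (hT : ∀ i, T i ∈ M) : E ∈ M :=
  vn_mem_iff.2 fun b hb => comm_of_weakLimit h
    (Eventually.of_forall fun i => vn_mem_iff.1 (hT i) b hb)

lemma vn_isClosed (M : VonNeumannAlgebra H) : IsClosed (M.toStarSubalgebra : Set (H →L[ℂ] H)) := by
  rw [VonNeumannAlgebra.coe_toStarSubalgebra, ← M.centralizer_centralizer]
  exact Set.isClosed_centralizer _

/-- The projection onto the kernel of `g` commutes with whatever commutes with `g`. -/
lemma exists_kerProj_op {M : VonNeumannAlgebra H} {g : (H →L[ℂ] H)} (hg : g ∈ M) :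
    ∃ e : (H →L[ℂ] H), e ∈ M ∧ IsStarProjection e ∧ (∀ v, g (e v) = 0) ∧ (∀ v, g v = 0 → e v = v) ∧
      ∀ b : (H →L[ℂ] H), b * g = g * b → star b * g = g * star b → b * e = e * b := by
  set K : Submodule ℂ H := LinearMap.ker g.toLinearMap
  have hmem : ∀ v, v ∈ K ↔ g v = 0 := fun v => LinearMap.mem_ker
  have : CompleteSpace K := (ContinuousLinearMap.isClosed_ker g).completeSpace_coe
  have inv : ∀ b : (H →L[ℂ] H), b * g = g * b → ∀ v ∈ K, b v ∈ K := fun b hb v hv => by
    rw [hmem, ← op_mul_apply, ← hb, op_mul_apply, (hmem v).1 hv, map_zero]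
  have key : ∀ b : (H →L[ℂ] H), b * g = g * b → star b * g = g * star b →
      b * K.starProjection = K.starProjection * b := by
    intro b hb hb'
    ext v
    show b (K.starProjection v) = K.starProjection (b v)
    refine (Submodule.eq_starProjection_of_mem_of_inner_eq_zero
      (inv b hb _ (K.starProjection_apply_mem v)) fun w hw => ?_).symm
    rw [← map_sub, ← ContinuousLinearMap.adjoint_inner_right]
    refine Submodule.starProjection_inner_eq_zero v _ ?_
    rw [← ContinuousLinearMap.star_eq_adjoint]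
    exact inv _ hb' w hw
  refine ⟨K.starProjection, vn_mem_iff.2 fun b hb => ?_, isStarProjection_starProjection,
    fun v => (hmem _).1 (K.starProjection_apply_mem v),
    fun v hv => Submodule.starProjection_eq_self_iff.2 ((hmem v).2 hv), key⟩
  exact key b (vn_mem_iff.1 hg b hb) (vn_mem_iff.1 hg _ (star_mem hb))

lemma vn_cfc_mem {M : VonNeumannAlgebra H} {z : (H →L[ℂ] H)} (hz : z ∈ M) (f : ℝ → ℝ) : cfc f z ∈ M := by
  refine vn_mem_iff.2 fun b hb => ?_
  have h : Commute z b := (vn_mem_iff.1 hz b hb).symm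
  exact (h.cfc_real f).eq.symm

/-- A spectral projection of a selfadjoint element. -/
lemma exists_smallProj {M : VonNeumannAlgebra H} {z : (H →L[ℂ] H)} (hz : z ∈ M) (hzs : IsSelfAdjoint z)
    {c : ℝ} (hc : 0 < c) :
    ∃ q : (H →L[ℂ] H), q ∈ M ∧ IsStarProjection q ∧ ‖z * q‖ ≤ c ∧ (∀ v, c * ‖v - q v‖ ≤ ‖z v‖) ∧
      (∀ b, b * z = z * b → star b * z = z * star b → b * q = q * b) ∧
      ∀ v, z v = 0 → q v = v := by
  set g := cfc (fun t : ℝ => max (|t| - c) 0) z with hg
  obtain ⟨q, hqM, hq, hq1, hq2, hqc⟩ := exists_kerProj_op (vn_cfc_mem hz (fun t : ℝ => max (|t| - c) 0))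
  have hzg : z * g = g * z := ((Commute.refl z).cfc_real _).eq.symm
  have hzq : z * q = q * z := hqc z hzg (by rw [hzs.star_eq]; exact hzg)
  refine ⟨q, hqM, hq, ContinuousLinearMap.opNorm_le_bound _ hc.le fun v => ?_, fun v => ?_,
    fun b hb hb' => hqc b ((Commute.symm hb).cfc_real _).symm.eq ((Commute.symm hb').cfc_real _).symm.eq,
    fun v hv => hq2 v ?_⟩
  · set h := cfc (fun t : ℝ => max (-c) (min t c)) z
    set k := cfc (fun t : ℝ => t - max (-c) (min t c)) z
    have e1 : z = h + k := by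
      rw [← cfc_add z _ _]
      conv_lhs => rw [← cfc_id' ℝ z]
      exact cfc_congr fun t _ => by ring
    have e2 : k * k = g * g := by
      rw [hg, ← cfc_mul _ _ z, ← cfc_mul _ _ z]
      refine cfc_congr fun t _ => ?_
      rcases le_total t c with h1 | h1
      · rcases le_total (-c) t with h2 | h2
        · rw [min_eq_left h1, max_eq_right h2, max_eq_right (by
            have := abs_le.2 ⟨h2, h1⟩; linarith)]
          ring
        · rw [min_eq_left h1, max_eq_left h2, abs_of_nonpos (by linarith),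
            max_eq_left (by linarith)]
          ring
      · rw [min_eq_right h1, max_eq_right (by linarith : -c ≤ c), abs_of_nonneg (by linarith),
          max_eq_left (by linarith)]
    have ks : IsSelfAdjoint k := cfc_predicate (R := ℝ) _ z
    have hk : k (q v) = 0 := by
      rw [← inner_self_eq_zero (𝕜 := ℂ), sa_inner ks, ← op_mul_apply k k, e2, op_mul_apply g g,
        hq1, map_zero, inner_zero_right]
    have hn : ‖h‖ ≤ c := norm_cfc_le hc.le fun t _ => by
      rw [Real.norm_eq_abs, abs_le]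
      exact ⟨le_max_left _ _, max_le (by linarith) (min_le_right _ _)⟩
    rw [op_mul_apply, e1, _root_.add_apply, hk, add_zero]
    exact (h.le_opNorm _).trans (mul_le_mul hn (proj_norm_apply_le hq v) (norm_nonneg _) hc.le)
  · set m := cfc (fun t : ℝ => max (c - |t|) 0) z
    set d := cfc (fun t : ℝ => t / (max |t| c) ^ 2) z
    set e := cfc (fun t : ℝ => (c + min |t| c) / c ^ 2) z
    have hpos : ∀ t : ℝ, (max |t| c) ^ 2 ≠ 0 := fun t =>
      pow_ne_zero 2 (ne_of_gt (lt_of_lt_of_le hc (le_max_right _ _)))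
    have hd : Continuous fun t : ℝ => t / (max |t| c) ^ 2 :=
      continuous_id.div (by fun_prop) hpos
    have e1 : d * z + e * m = 1 := by
      rw [← cfc_one ℝ z]
      conv_lhs => enter [1, 2]; rw [← cfc_id' ℝ z]
      rw [← cfc_mul _ _ z hd.continuousOn (by fun_prop),
        ← cfc_mul _ _ z (by fun_prop) (by fun_prop),
        ← cfc_add z (fun t : ℝ => t / max |t| c ^ 2 * t)
          (fun t : ℝ => (c + min |t| c) / c ^ 2 * max (c - |t|) 0)
          ((hd.mul continuous_id').continuousOn) (by fun_prop)]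
      refine cfc_congr fun t _ => ?_
      show t / max |t| c ^ 2 * t + (c + min |t| c) / c ^ 2 * max (c - |t|) 0 = 1
      rcases le_total |t| c with h1 | h1
      · rw [max_eq_right h1, min_eq_left h1, max_eq_left (by linarith)]
        field_simp
        nlinarith [sq_abs t]
      · rw [max_eq_left h1, min_eq_right h1, max_eq_right (by linarith : c - |t| ≤ 0)]
        have : |t| ≠ 0 := ne_of_gt (lt_of_lt_of_le hc h1)
        field_simp
        nlinarith [sq_abs t]
    have hgm : g * m = 0 := by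
      rw [hg, ← cfc_mul _ _ z, ← cfc_zero ℝ z]
      refine cfc_congr fun t _ => ?_
      rcases le_total |t| c with h1 | h1
      · rw [max_eq_right (by linarith : |t| - c ≤ 0)]; simp
      · rw [max_eq_right (by linarith : c - |t| ≤ 0)]; simp
    have ms : IsSelfAdjoint m := cfc_predicate (R := ℝ) _ z
    have hm : m (v - q v) = 0 := by
      rw [← inner_self_eq_zero (𝕜 := ℂ), sa_inner ms, inner_sub_left]
      have h0 : q (m (m (v - q v))) = m (m (v - q v)) :=
        hq2 _ (by rw [← op_mul_apply g m, hgm]; rfl)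
      rw [sa_inner hq.isSelfAdjoint, h0, sub_self]
    have hn : ‖d‖ ≤ 1 / c := norm_cfc_le (by positivity) fun t _ => by
      rw [Real.norm_eq_abs, abs_div, abs_of_nonneg (sq_nonneg (max |t| c)),
        div_le_div_iff₀ (by positivity) hc, one_mul, sq]
      exact mul_le_mul (le_max_left _ _) (le_max_right _ _) hc.le
        (le_trans hc.le (le_max_right _ _))
    have hz' : ‖z (v - q v)‖ ≤ ‖z v‖ := by
      have : z (v - q v) = (1 - q) (z v) := by
        rw [map_sub, ← op_mul_apply z q, hzq]; rfl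
      rw [this]
      exact proj_norm_apply_le hq.one_sub _
    have h2 : ‖v - q v‖ ≤ 1 / c * ‖z v‖ := by
      calc ‖v - q v‖ = ‖d (z (v - q v))‖ := by
            have := congrArg (fun T : (H →L[ℂ] H) => T (v - q v)) e1
            simp only [_root_.add_apply, op_mul_apply, hm, map_zero, add_zero] at this
            rw [this]; rfl
        _ ≤ ‖d‖ * ‖z (v - q v)‖ := d.le_opNorm _
        _ ≤ 1 / c * ‖z v‖ := mul_le_mul hn hz' (norm_nonneg _) (by positivity)
    rw [div_mul_eq_mul_div, one_mul, le_div_iff₀ hc] at h2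
    linarith

  · have hc2 : Continuous fun t : ℝ => max (|t| - c) 0 * t / (max |t| c) ^ 2 :=
      (by fun_prop : Continuous fun t : ℝ => max (|t| - c) 0 * t).div (by fun_prop) fun t =>
        pow_ne_zero 2 (ne_of_gt (lt_of_lt_of_le hc (le_max_right _ _)))
    have e : g = cfc (fun t : ℝ => max (|t| - c) 0 * t / (max |t| c) ^ 2) z * z := by
      rw [hg]
      conv_rhs => enter [2]; rw [← cfc_id' ℝ z]
      rw [← cfc_mul _ _ z hc2.continuousOn (by fun_prop)]
      refine cfc_congr fun t _ => ?_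
      rcases le_total |t| c with h1 | h1
      · show max (|t| - c) 0 = _
        rw [max_eq_right (by linarith : |t| - c ≤ 0)]; simp
      · show max (|t| - c) 0 = _
        rw [max_eq_left h1]
        have : |t| ≠ 0 := ne_of_gt (lt_of_lt_of_le hc h1)
        field_simp
        rw [sq_abs]; ring
    show g v = 0
    rw [e, op_mul_apply, hv, map_zero]

section Vectors

variable (ξ : ℕ → H) (hs : Summable fun n => ‖ξ n‖ ^ 2)

omit [CompleteSpace H] in
include hs in
lemma memℓp_vec (a : (H →L[ℂ] H)) : Memℓp (fun n => a (ξ n)) 2 := by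
  refine memℓp_gen ?_
  simp only [ENNReal.toReal_ofNat, Real.rpow_two]
  refine Summable.of_nonneg_of_le (fun n => sq_nonneg _) (fun n => ?_) (hs.mul_left (‖a‖ ^ 2))
  rw [← mul_pow]
  exact pow_le_pow_left₀ (norm_nonneg _) (a.le_opNorm _) 2

/-- The vector of an operator in the Hilbert sum of countably many copies of the space. -/
noncomputable def vec (a : (H →L[ℂ] H)) : lp (fun _ : ℕ => H) 2 := ⟨fun n => a (ξ n), memℓp_vec ξ hs a⟩

lemma vec_apply (a : (H →L[ℂ] H)) (n : ℕ) : vec ξ hs a n = a (ξ n) := rfl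

lemma vec_add (a b : (H →L[ℂ] H)) : vec ξ hs (a + b) = vec ξ hs a + vec ξ hs b := by
  apply lp.ext; funext n; simp [vec_apply, _root_.add_apply]

lemma vec_sub (a b : (H →L[ℂ] H)) : vec ξ hs (a - b) = vec ξ hs a - vec ξ hs b := by
  apply lp.ext; funext n; simp [vec_apply, _root_.sub_apply]

lemma vec_smul (c : ℂ) (a : (H →L[ℂ] H)) : vec ξ hs (c • a) = c • vec ξ hs a := by
  apply lp.ext; funext n; simp [lp.coeFn_smul, vec_apply, _root_.smul_apply]

lemma inner_vec (a b : (H →L[ℂ] H)) : ⟪vec ξ hs a, vec ξ hs b⟫_ℂ =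
    ∑' n, ⟪ξ n, (star a * b) (ξ n)⟫_ℂ := by
  rw [lp.inner_eq_tsum]
  refine tsum_congr fun n => ?_
  rw [vec_apply, vec_apply, op_mul_apply, ContinuousLinearMap.star_eq_adjoint,
    ContinuousLinearMap.adjoint_inner_right]

lemma norm_vec_sq (a : (H →L[ℂ] H)) : ‖vec ξ hs a‖ ^ 2 = ∑' n, ‖a (ξ n)‖ ^ 2 := by
  have := lp.norm_rpow_eq_tsum (p := 2) (by norm_num) (vec ξ hs a)
  simpa [vec_apply] using this

lemma norm_vec_le (a : (H →L[ℂ] H)) (h1 : ∑' n, ‖ξ n‖ ^ 2 = 1) : ‖vec ξ hs a‖ ≤ ‖a‖ := by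
  refine (pow_le_pow_iff_left₀ (norm_nonneg _) (norm_nonneg _) two_ne_zero).1 ?_
  rw [norm_vec_sq]
  have hle : ∀ n, ‖a (ξ n)‖ ^ 2 ≤ ‖a‖ ^ 2 * ‖ξ n‖ ^ 2 := fun n => by
    rw [← mul_pow]; exact pow_le_pow_left₀ (norm_nonneg _) (a.le_opNorm _) 2
  have hsum : Summable fun n => ‖a (ξ n)‖ ^ 2 :=
    Summable.of_nonneg_of_le (fun n => sq_nonneg _) hle (hs.mul_left _)
  refine (hsum.tsum_le_tsum hle (hs.mul_left _)).trans ?_
  rw [tsum_mul_left, h1, mul_one]

end Vectors

/-- Projections of small trace are small on every vector. -/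
lemma exists_small_trace {M : VonNeumannAlgebra H} (ξ : ℕ → H)
    (hs : Summable fun n => ‖ξ n‖ ^ 2)
    (hfaith : ∀ x ∈ M, (∀ n, x (ξ n) = 0) → x = 0) (F : Finset H) {δ : ℝ} (hδ : 0 < δ) :
    ∃ η > 0, ∀ s : (H →L[ℂ] H), s ∈ M → IsStarProjection s → ∑' n, ‖s (ξ n)‖ ^ 2 ≤ η →
      ∀ v ∈ F, ‖s v‖ < δ := by
  classical
  have one : ∀ v : H, ∃ η > 0, ∀ s : (H →L[ℂ] H), s ∈ M → IsStarProjection s →
      ∑' n, ‖s (ξ n)‖ ^ 2 ≤ η → ‖s v‖ < δ := by
    intro v
    by_contra hcon
    push Not at hcon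
    choose s hsM hsp hsm hsv using fun n : ℕ => hcon (1 / (n + 1)) (by positivity)
    let U : Ultrafilter ℕ := Ultrafilter.of atTop
    have hU : (U : Filter ℕ) ≤ atTop := Ultrafilter.of_le _
    obtain ⟨E, -, hE⟩ := exists_weakLimit U s (C := 1) (fun n => (hsp n).norm_le)
    have hEM : E ∈ M := vn_mem_of_weakLimit hE hsM
    have h0 : ∀ m, E (ξ m) = 0 := fun m => by
      refine ext_inner_right ℂ fun w => ?_
      rw [inner_zero_left]
      refine tendsto_nhds_unique (hE (ξ m) w) (Tendsto.mono_left ?_ hU)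
      have hsq : Tendsto (fun n => ‖s n (ξ m)‖ ^ 2) atTop (𝓝 0) := by
        refine squeeze_zero (fun n => sq_nonneg _) (fun n => ?_)
          tendsto_one_div_add_atTop_nhds_zero_nat
        refine le_trans ?_ (hsm n)
        have := (memℓp_vec ξ hs (s n)).summable (by norm_num)
        simp only [ENNReal.toReal_ofNat, Real.rpow_two] at this
        exact this.le_tsum m fun j _ => sq_nonneg _
      have hn : Tendsto (fun n => s n (ξ m)) atTop (𝓝 0) := by
        rw [tendsto_zero_iff_norm_tendsto_zero]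
        have := (Real.continuous_sqrt.tendsto 0).comp hsq
        simpa [Function.comp_def] using this
      have := hn.inner (tendsto_const_nhds (x := w)) (𝕜 := ℂ)
      simpa using this
    have hE0 := hfaith E hEM h0
    have h1 := (Complex.continuous_re.tendsto _).comp (hE v v)
    rw [hE0] at h1
    simp only [Function.comp_def, zero_apply, inner_zero_left, Complex.zero_re] at h1
    have h2 : δ ^ 2 ≤ 0 := by
      refine ge_of_tendsto h1 (Eventually.of_forall fun n => ?_)
      have : ⟪s n v, v⟫_ℂ = ⟪s n v, s n v⟫_ℂ := by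
        rw [sa_inner (hsp n).isSelfAdjoint, sa_inner (hsp n).isSelfAdjoint,
          proj_apply_apply (hsp n)]
      rw [this, inner_self_eq_norm_sq_to_K]
      refine le_trans (pow_le_pow_left₀ hδ.le (hsv n) 2) (le_of_eq ?_)
      simp [← Complex.ofReal_pow]
    nlinarith
  choose η hη0 hη using one
  induction F using Finset.induction with
  | empty => exact ⟨1, one_pos, fun s _ _ _ v hv => absurd hv (Finset.notMem_empty v)⟩
  | insert w F _ ih =>
    obtain ⟨a, ha, ha'⟩ := ih
    refine ⟨min a (η w), lt_min ha (hη0 w), fun s h1 h2 h3 v hv => ?_⟩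
    rcases Finset.mem_insert.1 hv with rfl | hv
    · exact hη v s h1 h2 (h3.trans (min_le_right _ _))
    · exact ha' s h1 h2 (h3.trans (min_le_left _ _)) v hv

end Vale.Agent.P078.Tracial
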