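import Vale.Agent.P078.Tracial.Basic
import Vale.Agent.P078.Tracial.FromVNAux

/-! From a tracial von Neumann algebra with a MASA to the abstract core, and back to
strong-operator paving. -/

namespace Vale.Agent.P078.Tracial

open Filter Topology ComplexOrder

/-- The problem's so-pavability, relative to a von Neumann algebra. -/
def SoPavableIn {H : Type} [NormedAddCommGroup H] [InnerProductSpace ℂ H] [CompleteSpace H]
    (M : VonNeumannAlgebra H) (A : StarSubalgebra ℂ (H →L[ℂ] H))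
    (x : H →L[ℂ] H) (ε : ℝ) (r : ℕ) : Prop :=
  ∀ (F : Finset H) (δ : ℝ), 0 < δ →
    ∃ (p : Fin r → H →L[ℂ] H) (a q : H →L[ℂ] H),
      (∀ i, p i ∈ A ∧ IsStarProjection (p i)) ∧
      (∀ i j, i ≠ j → p i * p j = 0) ∧ ∑ i, p i = 1 ∧
      a ∈ A ∧ IsSelfAdjoint a ∧ ‖a‖ ≤ ‖x‖ ∧
      q ∈ M ∧ IsStarProjection q ∧
      (∀ ξ ∈ F, ‖ξ - q ξ‖ < δ) ∧
      ‖q * ((∑ i, p i * x * p i) - a) * q‖ ≤ ε * ‖x‖

/-- A faithful normal tracial state, given by its vectors. -/
structure TraceVectors {H : Type} [NormedAddCommGroup H] [InnerProductSpace ℂ H]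
    [CompleteSpace H] (M : VonNeumannAlgebra H) (ξ : ℕ → H) : Prop where
  summable : Summable fun n => ‖ξ n‖ ^ 2
  total : ∑' n, ‖ξ n‖ ^ 2 = 1
  tracial : ∀ x ∈ M, ∀ y ∈ M,
    ∑' n, inner ℂ (ξ n) ((x * y) (ξ n)) = ∑' n, inner ℂ (ξ n) ((y * x) (ξ n))
  faithful : ∀ x ∈ M, (∀ n, x (ξ n) = 0) → x = 0

/-- What the abstract core proves. -/
def PavingConclusion.{u, v} (ε : ℝ) (N : ℕ) : Prop :=
  ∀ (M : Type u) (X : Type v) [CStarAlgebra M] [PartialOrder M] [StarOrderedRing M]
    [TopologicalSpace X] [CompactSpace X] [T2Space X] [TotallyDisconnectedSpace X]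
    (C : Core M X) (x : M), IsSelfAdjoint x → ‖x‖ ≤ 1 → ∀ δ > 0,
    ∃ (P : Fin N → C(X, ℝ)) (y : M),
      (∀ c t, P c t = 0 ∨ P c t = 1) ∧ ∑ c, P c = 1 ∧ IsSelfAdjoint y ∧ ‖y‖ ≤ ε ∧
      C.n2sq ((∑ c, C.r (P c) * x * C.r (P c)) - C.r (C.Er x) - y) ≤ δ


section Build

set_option linter.unusedSectionVars false

variable {H : Type} [NormedAddCommGroup H] [InnerProductSpace ℂ H] [CompleteSpace H]
variable {X : Type} [TopologicalSpace X] [CompactSpace X] [T2Space X]

open scoped InnerProductSpace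


/-- `j` identifies `C(X)` with a maximal abelian subalgebra of `M`. -/
structure MasaMap (M : VonNeumannAlgebra H) (j : C(X, ℂ) →⋆ₐ[ℂ] (H →L[ℂ] H)) : Prop where
  mem : ∀ f, j f ∈ M
  norm : ∀ f, ‖j f‖ = ‖f‖
  surj : ∀ x ∈ M, (∀ f, j f * x = x * j f) → ∃ f, j f = x

lemma MasaMap.injective {M : VonNeumannAlgebra H} {j : C(X, ℂ) →⋆ₐ[ℂ] (H →L[ℂ] H)} (hj : MasaMap M j) :
    Function.Injective j := by
  intro f g hfg
  rw [← sub_eq_zero, ← norm_eq_zero, ← hj.norm, map_sub, hfg, sub_self, norm_zero]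

lemma MasaMap.comm {j : C(X, ℂ) →⋆ₐ[ℂ] (H →L[ℂ] H)} (f g : C(X, ℂ)) : j f * j g = j g * j f := by
  rw [← map_mul, ← map_mul, mul_comm]

lemma MasaMap.totallyDisconnected {M : VonNeumannAlgebra H} {j : C(X, ℂ) →⋆ₐ[ℂ] (H →L[ℂ] H)}
    (hj : MasaMap M j) : TotallyDisconnectedSpace X := by
  suffices TotallySeparatedSpace X from inferInstance
  rw [totallySeparatedSpace_iff_exists_isClopen]
  intro x y hxy
  obtain ⟨f, hfx, hfy, -⟩ := exists_continuous_zero_one_of_isClosed (isClosed_singleton (x := x))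
    (isClosed_singleton (x := y)) (Set.disjoint_singleton.2 hxy)
  have hfx' : f x = 0 := hfx rfl
  have hfy' : f y = 1 := hfy rfl
  let p : C(X, ℂ) := toC ⟨fun t => max (f t - 1 / 2) 0, by fun_prop⟩
  let m : C(X, ℂ) := toC ⟨fun t => max (1 / 2 - f t) 0, by fun_prop⟩
  have hpm : p * m = 0 := by
    ext t
    simp only [p, m, toC, ContinuousMap.mul_apply, ContinuousMap.coe_mk, ContinuousMap.zero_apply]
    rw [← Complex.ofReal_mul, Complex.ofReal_eq_zero]
    rcases le_total (f t) (1 / 2) with h | h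
    · rw [max_eq_right (by linarith : f t - 1 / 2 ≤ 0), zero_mul]
    · rw [max_eq_right (by linarith : 1 / 2 - f t ≤ 0), mul_zero]
  obtain ⟨e, heM, he, he1, he2, hec⟩ := exists_kerProj_op (hj.mem p)
  obtain ⟨g, hg⟩ := hj.surj e heM fun h =>
    hec _ (MasaMap.comm h p) (by rw [← map_star]; exact MasaMap.comm (star h) p)
  have g1 : g * m = m := hj.injective <| by
    rw [map_mul, hg]
    ext v
    exact he2 _ (by show (j p * j m) v = 0; rw [← map_mul, hpm, map_zero]; rfl)
  have g2 : p * g = 0 := hj.injective <| by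
    rw [map_mul, hg, map_zero]
    ext v
    exact he1 v
  have g3 : g * g = g := hj.injective <| by rw [map_mul, hg, he.isIdempotentElem.eq]
  have gv : ∀ t, g t = 0 ∨ g t = 1 := fun t => by
    have h : g t * g t = g t := congrArg (fun k : C(X, ℂ) => k t) g3
    rcases eq_or_ne (g t) 0 with h0 | h0
    · exact Or.inl h0
    · exact Or.inr (mul_right_cancel₀ h0 (by rw [h, one_mul]))
  have hgx : g x = 1 := by
    have h : g x * m x = m x := congrArg (fun k : C(X, ℂ) => k x) g1
    refine mul_right_cancel₀ (b := m x) ?_ (h.trans (one_mul _).symm)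
    simp only [m, toC, ContinuousMap.coe_mk, hfx']
    norm_num
  have hgy : g y = 0 := by
    have h : p y * g y = 0 := congrArg (fun k : C(X, ℂ) => k y) g2
    refine (mul_eq_zero.1 h).resolve_left ?_
    simp only [p, toC, ContinuousMap.coe_mk, hfy']
    norm_num
  refine ⟨{t | g t = 1}, ⟨isClosed_eq (by fun_prop) continuous_const, ?_⟩, hgx, ?_⟩
  · have : {t | g t = 1} = {t | g t ≠ 0} := by
      ext t
      rcases gv t with h | h <;> simp [h]
    rw [this]
    exact isOpen_ne_fun (by fun_prop) continuous_const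
  · simp [hgy]

variable [TotallyDisconnectedSpace X] (j : C(X, ℂ) →⋆ₐ[ℂ] (H →L[ℂ] H))

lemma toC_cell_mul (π : DiscreteQuotient X) (i k : π) [Decidable (i = k)] :
    toC (cellFn π i) * toC (cellFn π k) = if i = k then toC (cellFn π i) else 0 := by
  split_ifs with h
  · subst h
    ext t
    by_cases h : π.proj t = i <;> simp [toC, cellFn, h]
  · ext t
    by_cases h' : π.proj t = i
    · have : π.proj t ≠ k := fun hk => h (h'.symm.trans hk)
      simp [toC, cellFn, this]
    · simp [toC, cellFn, h']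

open Classical in
lemma toC_cell_refine {π' π : DiscreteQuotient X} (h : π' ≤ π) (i : π') (k : π) :
    toC (cellFn π' i) * toC (cellFn π k) =
      if DiscreteQuotient.ofLE h i = k then toC (cellFn π' i) else 0 := by
  split_ifs with hik
  · ext t
    by_cases ht : π'.proj t = i
    · have : π.proj t = k := by rw [← DiscreteQuotient.ofLE_proj h, ht, hik]
      simp [toC, cellFn, ht, this]
    · simp [toC, cellFn, ht]
  · ext t
    by_cases ht : π'.proj t = i
    · have : π.proj t ≠ k := by rw [← DiscreteQuotient.ofLE_proj h, ht]; exact hik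
      simp [toC, cellFn, this]
    · simp [toC, cellFn, ht]

lemma sum_toC_cell (π : DiscreteQuotient X) : ∑ i : π, toC (cellFn π i) = 1 := by
  classical
  ext t
  simp [toC, cellFn, apply_ite]

/-- The pinching of an operator along a partition. -/
noncomputable def pinchOp (π : DiscreteQuotient X) (z : (H →L[ℂ] H)) : (H →L[ℂ] H) :=
  ∑ i : π, j (toC (cellFn π i)) * z * j (toC (cellFn π i))

lemma norm_pinchOp_le (π : DiscreteQuotient X) (z : (H →L[ℂ] H)) : ‖pinchOp j π z‖ ≤ ‖z‖ := by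
  classical
  refine Vale.Agent.P078.norm_pinch_le (A := (⊤ : StarSubalgebra ℂ (H →L[ℂ] H)))
    ⟨fun i => StarSubalgebra.mem_top, fun i => ⟨?_, ?_⟩, fun i k hik => ?_, ?_⟩ z
  · show _ * _ = _
    rw [← map_mul, toC_cell_mul, if_pos rfl]
  · rw [IsSelfAdjoint, ← map_star, star_toC]
  · rw [← map_mul, toC_cell_mul, if_neg hik, map_zero]
  · rw [← map_sum, sum_toC_cell, map_one]

lemma pinchOp_refine {π' π : DiscreteQuotient X} (h : π' ≤ π) (z : (H →L[ℂ] H)) :
    pinchOp j π' (pinchOp j π z) = pinchOp j π' z := by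
  classical
  refine Finset.sum_congr rfl fun i _ => ?_
  rw [pinchOp, Finset.mul_sum, Finset.sum_mul, Finset.sum_eq_single (DiscreteQuotient.ofLE h i)]
  · rw [← mul_assoc, ← mul_assoc, ← map_mul, toC_cell_refine h, if_pos rfl,
      mul_assoc (j (toC (cellFn π' i)) * z), ← map_mul, mul_comm (toC (cellFn π _)),
      toC_cell_refine h, if_pos rfl]
  · intro k _ hk
    rw [← mul_assoc, ← mul_assoc, ← map_mul, toC_cell_refine h, if_neg (Ne.symm hk), map_zero,
      zero_mul, zero_mul, zero_mul]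
  · intro hh; exact absurd (Finset.mem_univ _) hh

lemma pinchOp_mul (π : DiscreteQuotient X) (f g : C(X, ℂ)) (z : (H →L[ℂ] H)) :
    pinchOp j π (j f * z * j g) = j f * pinchOp j π z * j g := by
  rw [pinchOp, pinchOp, Finset.mul_sum, Finset.sum_mul]
  refine Finset.sum_congr rfl fun i _ => ?_
  simp only [← mul_assoc, MasaMap.comm (j := j) (toC (cellFn π i)) f]
  simp only [mul_assoc, MasaMap.comm (j := j) g (toC (cellFn π i))]

lemma pinchOp_one (π : DiscreteQuotient X) : pinchOp j π 1 = 1 := by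
  classical
  rw [pinchOp, ← map_one j]
  simp only [← map_mul, mul_one, toC_cell_mul, if_pos, ← map_sum, sum_toC_cell]

lemma star_pinchOp (π : DiscreteQuotient X) (z : (H →L[ℂ] H)) :
    star (pinchOp j π z) = pinchOp j π (star z) := by
  simp only [pinchOp, star_sum, star_mul, ← map_star, star_toC, mul_assoc]

lemma pinchOp_comm {π' π : DiscreteQuotient X} (h : π' ≤ π) (k : π) (z : (H →L[ℂ] H)) :
    j (toC (cellFn π k)) * pinchOp j π' z = pinchOp j π' z * j (toC (cellFn π k)) := by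
  classical
  rw [pinchOp, Finset.mul_sum, Finset.sum_mul]
  refine Finset.sum_congr rfl fun i _ => ?_
  rw [← mul_assoc, ← mul_assoc, MasaMap.comm (j := j) (toC (cellFn π k)), ← map_mul,
    mul_assoc (j (toC (cellFn π' i)) * z) _ (j (toC (cellFn π k))), ← map_mul, toC_cell_refine h]
  split_ifs <;> simp

lemma pinchOp_mem {M : VonNeumannAlgebra H} (hj : MasaMap M j) {z : (H →L[ℂ] H)} (hz : z ∈ M)
    (π : DiscreteQuotient X) : pinchOp j π z ∈ M :=
  sum_mem fun _ _ => mul_mem (mul_mem (hj.mem _) hz) (hj.mem _)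

lemma pinchOp_add (π : DiscreteQuotient X) (a b : (H →L[ℂ] H)) :
    pinchOp j π (a + b) = pinchOp j π a + pinchOp j π b := by
  simp [pinchOp, mul_add, add_mul, Finset.sum_add_distrib]

lemma pinchOp_smul (π : DiscreteQuotient X) (c : ℂ) (a : (H →L[ℂ] H)) :
    pinchOp j π (c • a) = c • pinchOp j π a := by
  simp [pinchOp, Finset.smul_sum]

/-- A weak limit of pinchings belongs to the MASA. -/
lemma exists_diag {M : VonNeumannAlgebra H} (hj : MasaMap M j)
    (U : Ultrafilter (DiscreteQuotient X)) (hU : (U : Filter (DiscreteQuotient X)) ≤ atBot)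
    {z : (H →L[ℂ] H)} (hz : z ∈ M) :
    ∃ f, ‖f‖ ≤ ‖z‖ ∧ ∀ u v,
      Tendsto (fun π => ⟪pinchOp j π z u, v⟫_ℂ) U (𝓝 ⟪j f u, v⟫_ℂ) := by
  obtain ⟨E, hEn, hE⟩ := exists_weakLimit U (fun π => pinchOp j π z)
    (fun π => norm_pinchOp_le j π _)
  have hcell : ∀ (π : DiscreteQuotient X) (k : π),
      j (toC (cellFn π k)) * E = E * j (toC (cellFn π k)) := fun π k => by
    refine comm_of_weakLimit hE (Eventually.filter_mono hU ?_)
    filter_upwards [eventually_le_atBot π] with π' hπ'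
    exact pinchOp_comm j hπ' k _
  let G : StarSubalgebra ℂ C(X, ℂ) :=
    (StarSubalgebra.centralizer ℂ ({E} : Set (H →L[ℂ] H))).comap j
  have hG : ∀ f, f ∈ G ↔ (E * j f = j f * E ∧ star E * j f = j f * star E) := fun f => by
    show j f ∈ StarSubalgebra.centralizer ℂ ({E} : Set (H →L[ℂ] H)) ↔ _
    simp [StarSubalgebra.mem_centralizer_iff]
  have hGc : IsClosed (G : Set C(X, ℂ)) := by
    have hjc : Continuous j :=
      (AddMonoidHomClass.isometry_of_norm (j : C(X, ℂ) →⋆ₐ[ℂ] (H →L[ℂ] H)) hj.norm).continuous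
    have : (G : Set C(X, ℂ)) =
        {f | E * j f = j f * E} ∩ {f | star E * j f = j f * star E} := Set.ext hG
    rw [this]
    exact (isClosed_eq (by fun_prop) (by fun_prop)).inter
      (isClosed_eq (by fun_prop) (by fun_prop))
  have hsep : G.SeparatesPoints := by
    intro x y hxy
    obtain ⟨π, hπ⟩ : ∃ π : DiscreteQuotient X, π.proj x ≠ π.proj y := by
      by_contra hh
      push Not at hh
      exact hxy (DiscreteQuotient.eq_of_forall_proj_eq hh)
    refine ⟨_, ⟨toC (cellFn π (π.proj x)), (hG _).2 ⟨(hcell π _).symm, ?_⟩, rfl⟩, ?_⟩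
    · have := congrArg star (hcell π (π.proj x))
      rwa [star_mul, star_mul, ← map_star, star_toC] at this
    · simp [toC, cellFn, Ne.symm hπ]
  have hall : ∀ f, f ∈ G := fun f => by
    have h1 := ContinuousMap.starSubalgebra_topologicalClosure_eq_top_of_separatesPoints G hsep
    have h2 : G.topologicalClosure ≤ G :=
      StarSubalgebra.topologicalClosure_minimal le_rfl hGc
    exact h2 (h1 ▸ StarSubalgebra.mem_top)
  obtain ⟨f, hf⟩ := hj.surj E
    (vn_mem_of_weakLimit hE fun π => pinchOp_mem j hj hz π) (fun f => ((hG f).1 (hall f)).1.symm)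
  exact ⟨f, by rw [← hj.norm, hf]; exact hEn, fun u v => by rw [hf]; exact hE u v⟩

lemma nonneg_of_diag {M : VonNeumannAlgebra H} (hj : MasaMap M j)
    (U : Ultrafilter (DiscreteQuotient X)) {a : (H →L[ℂ] H)} {f : C(X, ℂ)}
    (h : ∀ u v, Tendsto (fun π => ⟪pinchOp j π (star a * a) u, v⟫_ℂ) U (𝓝 ⟪j f u, v⟫_ℂ))
    (x : X) : 0 ≤ f x := by
  have hsa : ∀ k : C(X, ℝ), IsSelfAdjoint (j (toC k)) := fun k => by
    rw [IsSelfAdjoint, ← map_star, star_toC]
  have hfs : star f = f := by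
    refine hj.injective ?_
    ext u
    refine ext_inner_right ℂ fun v => tendsto_nhds_unique ?_ (h u v)
    have hz := (Complex.continuous_conj.tendsto _).comp (h v u)
    simp only [Function.comp_def, inner_conj_symm] at hz
    simp only [map_star, ContinuousLinearMap.star_eq_adjoint,
      ContinuousLinearMap.adjoint_inner_left]
    refine hz.congr fun π => ?_
    rw [← ContinuousLinearMap.adjoint_inner_left, ← ContinuousLinearMap.star_eq_adjoint,
      star_pinchOp, star_mul, star_star, ← ContinuousLinearMap.star_eq_adjoint]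
  have hre : ∀ t, f t = ((f t).re : ℂ) := fun t => by
    have := congrArg (fun k : C(X, ℂ) => k t) hfs
    exact (Complex.conj_eq_iff_re.1 this).symm
  have hnn : ∀ u, 0 ≤ (⟪j f u, u⟫_ℂ).re := fun u => by
    refine ge_of_tendsto ((Complex.continuous_re.tendsto _).comp (h u u))
      (Eventually.of_forall fun π => ?_)
    show 0 ≤ (⟪pinchOp j π (star a * a) u, u⟫_ℂ).re
    simp only [pinchOp, sum_apply, sum_inner, Complex.re_sum, op_mul_apply]
    refine Finset.sum_nonneg fun i _ => ?_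
    rw [sa_inner (hsa (cellFn π i)),
      ContinuousLinearMap.star_eq_adjoint, ContinuousLinearMap.adjoint_inner_left]
    exact inner_self_nonneg (𝕜 := ℂ)
  let s : C(X, ℝ) := ⟨fun t => max (-(f t).re) 0, by fun_prop⟩
  let g : C(X, ℝ) := ⟨fun t => s t * Real.sqrt (s t), by fun_prop⟩
  have hsfs : toC s * f * toC s = -(toC g * toC g) := by
    ext t
    simp only [toC, g, ContinuousMap.mul_apply, ContinuousMap.neg_apply,
      ContinuousMap.coe_mk]
    rw [hre t, ← Complex.ofReal_mul, ← Complex.ofReal_mul, ← Complex.ofReal_mul,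
      ← Complex.ofReal_neg, Complex.ofReal_inj]
    show max (-(f t).re) 0 * (f t).re * max (-(f t).re) 0 =
      -(max (-(f t).re) 0 * Real.sqrt (max (-(f t).re) 0) *
        (max (-(f t).re) 0 * Real.sqrt (max (-(f t).re) 0)))
    rcases le_total (f t).re 0 with h0 | h0
    · rw [max_eq_left (by linarith)]
      have := Real.mul_self_sqrt (by linarith : 0 ≤ -(f t).re)
      linear_combination (f t).re ^ 2 * this
    · rw [max_eq_right (by linarith)]; simp
  have hh : j (toC g) = 0 := by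
    ext u
    have h1 := hnn (j (toC s) u)
    rw [← sa_inner (hsa s), ← op_mul_apply, ← op_mul_apply, ← map_mul, ← map_mul,
      hsfs, map_neg, map_mul] at h1
    have h2 : (⟪(-(j (toC g) * j (toC g))) u, u⟫_ℂ).re = -‖j (toC g) u‖ ^ 2 := by
      rw [_root_.neg_apply, inner_neg_left, Complex.neg_re, op_mul_apply, sa_inner (hsa g)]
      congr 1
      exact inner_self_eq_norm_sq (𝕜 := ℂ) _
    rw [h2] at h1
    have h3 : ‖j (toC g) u‖ = 0 := by nlinarith [norm_nonneg (j (toC g) u)]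
    simpa using h3
  have hx : toC g x = 0 := by rw [hj.injective (hh.trans (map_zero j).symm)]; rfl
  simp only [toC, g, s, ContinuousMap.coe_mk, Complex.ofReal_eq_zero, mul_eq_zero] at hx
  rw [hre x]
  refine Complex.zero_le_real.2 ?_
  rcases hx with hx | hx
  · linarith [le_max_left (-(f x).re) 0]
  · rw [Real.sqrt_eq_zero (le_max_right _ _)] at hx
    linarith [le_max_left (-(f x).re) 0]

section Trace

variable {M : VonNeumannAlgebra H} {ξ : ℕ → H} (hξ : TraceVectors M ξ)


lemma trace_star_mul (a b : (H →L[ℂ] H)) : ⟪(vec ξ (TraceVectors.summable hξ)) 1, (vec ξ (TraceVectors.summable hξ)) (star a * b)⟫_ℂ = ⟪(vec ξ (TraceVectors.summable hξ)) a, (vec ξ (TraceVectors.summable hξ)) b⟫_ℂ := by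
  rw [inner_vec, inner_vec, star_one, one_mul]

lemma trace_comm {a b : (H →L[ℂ] H)} (ha : a ∈ M) (hb : b ∈ M) :
    ⟪(vec ξ (TraceVectors.summable hξ)) 1, (vec ξ (TraceVectors.summable hξ)) (a * b)⟫_ℂ = ⟪(vec ξ (TraceVectors.summable hξ)) 1, (vec ξ (TraceVectors.summable hξ)) (b * a)⟫_ℂ := by
  rw [inner_vec, inner_vec, star_one, one_mul, one_mul]
  exact hξ.tracial _ ha _ hb

lemma vec_sum {κ : Type*} (t : Finset κ) (a : κ → (H →L[ℂ] H)) :
    (vec ξ (TraceVectors.summable hξ)) (∑ i ∈ t, a i) = ∑ i ∈ t, (vec ξ (TraceVectors.summable hξ)) (a i) := by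
  classical
  induction t using Finset.induction with
  | empty =>
    simp only [Finset.sum_empty]
    apply lp.ext; funext n; simp [vec_apply]
  | insert c t hc ih => rw [Finset.sum_insert hc, Finset.sum_insert hc, vec_add, ih]

lemma trace_pinch_symm (hj : MasaMap M j) (π : DiscreteQuotient X) {w v : (H →L[ℂ] H)}
    (hw : w ∈ M) (hv : v ∈ M) :
    ⟪(vec ξ (TraceVectors.summable hξ)) 1, (vec ξ (TraceVectors.summable hξ)) (pinchOp j π w * v)⟫_ℂ = ⟪(vec ξ (TraceVectors.summable hξ)) 1, (vec ξ (TraceVectors.summable hξ)) (w * pinchOp j π v)⟫_ℂ := by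
  simp only [pinchOp, Finset.sum_mul, Finset.mul_sum, vec_sum hξ, inner_sum]
  refine Finset.sum_congr rfl fun i _ => ?_
  rw [mul_assoc (j _) w, mul_assoc (j _),
    trace_comm hξ (hj.mem _) (mul_mem (mul_mem hw (hj.mem _)) hv)]
  simp only [mul_assoc]

lemma inner_vec_pinch (hj : MasaMap M j) {π' π : DiscreteQuotient X} (h : π' ≤ π)
    {z : (H →L[ℂ] H)} (hz : z ∈ M) :
    ⟪(vec ξ (TraceVectors.summable hξ)) (pinchOp j π' z), (vec ξ (TraceVectors.summable hξ)) (pinchOp j π z)⟫_ℂ = ⟪(vec ξ (TraceVectors.summable hξ)) 1, (vec ξ (TraceVectors.summable hξ)) (star z * pinchOp j π' z)⟫_ℂ := by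
  rw [← trace_star_mul hξ, star_pinchOp,
    trace_pinch_symm j hξ hj π' (star_mem hz) (pinchOp_mem j hj hz π), pinchOp_refine j h]

lemma tendsto_vec_pinch (hj : MasaMap M j) (U : Ultrafilter (DiscreteQuotient X))
    (hU : (U : Filter (DiscreteQuotient X)) ≤ atBot) {z : (H →L[ℂ] H)} (hz : z ∈ M)
    {f : C(X, ℂ)} (hf : ∀ u v, Tendsto (fun π => ⟪pinchOp j π z u, v⟫_ℂ) U (𝓝 ⟪j f u, v⟫_ℂ)) :
    Tendsto (fun π => (vec ξ (TraceVectors.summable hξ)) (pinchOp j π z)) atBot (𝓝 ((vec ξ (TraceVectors.summable hξ)) (j f))) := by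
  obtain ⟨w, hw⟩ : ∃ w, Tendsto (fun π => (vec ξ (TraceVectors.summable hξ)) (pinchOp j π z)) atBot (𝓝 w) := by
    refine CompleteSpace.complete (Metric.cauchy_iff.2 ⟨inferInstance, fun e he => ?_⟩)
    set q : DiscreteQuotient X → ℝ := fun π => ‖(vec ξ (TraceVectors.summable hξ)) (pinchOp j π z)‖ ^ 2
    have hd : ∀ {π' π : DiscreteQuotient X}, π' ≤ π →
        ‖(vec ξ (TraceVectors.summable hξ)) (pinchOp j π z) - (vec ξ (TraceVectors.summable hξ)) (pinchOp j π' z)‖ ^ 2 = q π - q π' := fun {π' π} h => by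
      have h1 : RCLike.re ⟪(vec ξ (TraceVectors.summable hξ)) (pinchOp j π' z), (vec ξ (TraceVectors.summable hξ)) (pinchOp j π z)⟫_ℂ = q π' := by
        rw [inner_vec_pinch j hξ hj h hz, ← inner_vec_pinch j hξ hj le_rfl hz]
        exact inner_self_eq_norm_sq (𝕜 := ℂ) _
      rw [norm_sub_sq (𝕜 := ℂ), inner_re_symm, h1]
      ring
    have hb : BddBelow (Set.range q) := ⟨0, by rintro _ ⟨π, rfl⟩; positivity⟩
    obtain ⟨π0, h0⟩ := exists_lt_of_ciInf_lt (f := q)
      (lt_add_of_pos_right (⨅ π, q π) (by positivity : 0 < (e / 2) ^ 2))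
    refine ⟨_, image_mem_map (Iic_mem_atBot π0), ?_⟩
    have hb' : ∀ π ∈ Set.Iic π0, ‖(vec ξ (TraceVectors.summable hξ)) (pinchOp j π0 z) - (vec ξ (TraceVectors.summable hξ)) (pinchOp j π z)‖ < e / 2 := fun π hπ => by
      refine (pow_lt_pow_iff_left₀ (norm_nonneg _) (by positivity) two_ne_zero).1 ?_
      rw [hd hπ]
      linarith [ciInf_le hb π]
    rintro _ ⟨a, ha, rfl⟩ _ ⟨b, hb, rfl⟩
    refine (dist_triangle_left _ _ ((vec ξ (TraceVectors.summable hξ)) (pinchOp j π0 z))).trans_lt ?_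
    rw [dist_eq_norm, dist_eq_norm]
    linarith [hb' a ha, hb' b hb]
  suffices w = (vec ξ (TraceVectors.summable hξ)) (j f) from this ▸ hw
  apply lp.ext
  funext n
  refine ext_inner_right ℂ fun v => tendsto_nhds_unique ?_ (hf (ξ n) v)
  have hc : Tendsto (fun π => ((vec ξ (TraceVectors.summable hξ)) (pinchOp j π z)) n) atBot (𝓝 (w n)) := by
    rw [tendsto_iff_norm_sub_tendsto_zero] at hw ⊢
    refine squeeze_zero (fun π => norm_nonneg _) (fun π => ?_) hw
    have := lp.norm_apply_le_norm (two_ne_zero) ((vec ξ (TraceVectors.summable hξ)) (pinchOp j π z) - w) n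
    simpa using this
  have hc' : Tendsto (fun π => pinchOp j π z (ξ n)) atBot (𝓝 (w n : H)) := hc
  exact (Filter.Tendsto.inner (𝕜 := ℂ) hc' (tendsto_const_nhds (x := v))).mono_left hU

include hξ in
/-- The abstract core attached to a tracial von Neumann algebra and a MASA. -/
theorem exists_core [IsClosed (M.toStarSubalgebra : Set (H →L[ℂ] H))]
    [PartialOrder M.toStarSubalgebra] [StarOrderedRing M.toStarSubalgebra]
    (hj : MasaMap M j) :
    ∃ C : Core M.toStarSubalgebra X, (∀ f, (C.ι f : (H →L[ℂ] H)) = j f) ∧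
      (∀ z, ‖C.E z‖ ≤ ‖z‖) ∧
      ∀ z, C.n2sq z = ∑' n, ‖(z : (H →L[ℂ] H)) (ξ n)‖ ^ 2 := by
  classical
  let U : Ultrafilter (DiscreteQuotient X) := Ultrafilter.of atBot
  have hU : (U : Filter (DiscreteQuotient X)) ≤ atBot := Ultrafilter.of_le _
  choose Ef hEn hEl using fun z : M.toStarSubalgebra => exists_diag j hj U hU z.2
  have hEeq : ∀ (z : M.toStarSubalgebra) (f : C(X, ℂ)),
      (∀ u v, Tendsto (fun π => ⟪pinchOp j π z u, v⟫_ℂ) U (𝓝 ⟪j f u, v⟫_ℂ)) → Ef z = f := by
    intro z f h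
    refine hj.injective ?_
    ext u
    exact ext_inner_right ℂ fun v => tendsto_nhds_unique (hEl z u v) (h u v)
  let El : M.toStarSubalgebra →ₗ[ℂ] C(X, ℂ) :=
    { toFun := Ef
      map_add' := fun z w => hEeq _ _ fun u v => by
        simp only [AddMemClass.coe_add, map_add, pinchOp_add, _root_.add_apply, inner_add_left]
        exact (hEl z u v).add (hEl w u v)
      map_smul' := fun c z => hEeq _ _ fun u v => by
        simp only [SetLike.val_smul, map_smul, pinchOp_smul, _root_.smul_apply,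
          inner_smul_left, RingHom.id_apply]
        exact (hEl z u v).const_mul _ }
  let τl : M.toStarSubalgebra →ₗ[ℂ] ℂ :=
    { toFun := fun z => ⟪(vec ξ (TraceVectors.summable hξ)) 1, (vec ξ (TraceVectors.summable hξ)) z⟫_ℂ
      map_add' := fun z w => by simp [vec_add]
      map_smul' := fun c z => by simp [vec_smul] }
  have hV1 : ‖(vec ξ (TraceVectors.summable hξ)) 1‖ ≤ 1 :=
    (norm_vec_le ξ hξ.summable 1 hξ.total).trans ContinuousLinearMap.norm_id_le
  have hone : ⟪(vec ξ (TraceVectors.summable hξ)) 1, (vec ξ (TraceVectors.summable hξ)) 1⟫_ℂ = 1 := by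
    rw [inner_self_eq_norm_sq_to_K]
    show ((‖(vec ξ (TraceVectors.summable hξ)) 1‖ : ℝ) : ℂ) ^ 2 = 1
    rw [← Complex.ofReal_pow, norm_vec_sq]
    have : ∑' n, ‖(1 : (H →L[ℂ] H)) (ξ n)‖ ^ 2 = 1 := hξ.total
    rw [this, Complex.ofReal_one]
  let ι : C(X, ℂ) →⋆ₐ[ℂ] M.toStarSubalgebra :=
    StarAlgHom.codRestrict j M.toStarSubalgebra hj.mem
  have hP : ∀ (π : DiscreteQuotient X) (z : M.toStarSubalgebra),
      ((∑ i : π, ι (toC (cellFn π i)) * z * ι (toC (cellFn π i)) : M.toStarSubalgebra) :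
        (H →L[ℂ] H)) = pinchOp j π z := fun π z => by
    rw [AddSubmonoidClass.coe_finsetSum]; rfl
  have hE_ι : ∀ f, Ef (ι f) = f := fun f => hEeq _ _ fun u v => by
    refine tendsto_const_nhds.congr fun π => ?_
    show _ = ⟪pinchOp j π (j f) u, v⟫_ℂ
    have h := pinchOp_mul j π f 1 1
    rw [map_one, mul_one, mul_one, pinchOp_one, mul_one] at h
    rw [h, mul_one]
  have hE_bimod : ∀ f g z, Ef (ι f * z * ι g) = f * Ef z * g := fun f g z =>
    hEeq _ _ fun u v => by
      have hz := hEl z (j g u) (ContinuousLinearMap.adjoint (j f) v)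
      simp only [ContinuousLinearMap.adjoint_inner_right] at hz
      show Tendsto (fun π => ⟪pinchOp j π (j f * (z : (H →L[ℂ] H)) * j g) u, v⟫_ℂ) U
        (𝓝 ⟪j (f * Ef z * g) u, v⟫_ℂ)
      simp only [pinchOp_mul, map_mul, op_mul_apply]
      exact hz
  have hE_star : ∀ z, Ef (star z) = star (Ef z) := fun z => hEeq _ _ fun u v => by
    have hz := (Complex.continuous_conj.tendsto _).comp (hEl z v u)
    simp only [Function.comp_def, inner_conj_symm] at hz
    show Tendsto (fun π => ⟪pinchOp j π (star (z : (H →L[ℂ] H))) u, v⟫_ℂ) U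
      (𝓝 ⟪j (star (Ef z)) u, v⟫_ℂ)
    rw [map_star]
    simp only [fun π => (star_pinchOp j π (z : (H →L[ℂ] H))).symm]
    simp only [ContinuousLinearMap.star_eq_adjoint,
      ContinuousLinearMap.adjoint_inner_left]
    exact hz
  have hτ_E : ∀ z : M.toStarSubalgebra, ⟪(vec ξ (TraceVectors.summable hξ)) 1, (vec ξ (TraceVectors.summable hξ)) (j (Ef z))⟫_ℂ = ⟪(vec ξ (TraceVectors.summable hξ)) 1, (vec ξ (TraceVectors.summable hξ)) z⟫_ℂ := fun z => by
    refine tendsto_nhds_unique (Tendsto.inner tendsto_const_nhds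
      (tendsto_vec_pinch j hξ hj U hU z.2 (hEl z))) ?_
    refine tendsto_const_nhds.congr fun π => ?_
    rw [← mul_one (pinchOp j π _), trace_pinch_symm j hξ hj π z.2 (one_mem M), pinchOp_one,
      mul_one]
  have hpinch : ∀ z : M.toStarSubalgebra, Tendsto (fun π : DiscreteQuotient X =>
      (⟪(vec ξ (TraceVectors.summable hξ)) (pinchOp j π z - j (Ef z)), (vec ξ (TraceVectors.summable hξ)) (pinchOp j π z - j (Ef z))⟫_ℂ).re) atBot (𝓝 0) :=
    fun z => by
      have h := ((tendsto_iff_norm_sub_tendsto_zero.1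
        (tendsto_vec_pinch j hξ hj U hU z.2 (hEl z))).pow 2)
      rw [zero_pow two_ne_zero] at h
      refine h.congr fun π => ?_
      rw [← vec_sub]
      exact (inner_self_eq_norm_sq (𝕜 := ℂ) _).symm
  have hE_pos : ∀ (a : M.toStarSubalgebra) x, 0 ≤ Ef (star a * a) x := fun a x => by
    have h := hEl (star a * a)
    simp only [MulMemClass.coe_mul, StarMemClass.coe_star] at h
    exact nonneg_of_diag j hj U h x
  let C : Core M.toStarSubalgebra X :=
    { τ := τl.mkContinuous 1 fun z => (norm_inner_le_norm _ _).trans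
        (mul_le_mul hV1 (norm_vec_le ξ hξ.summable _ hξ.total) (norm_nonneg _) zero_le_one)
      ι := ι
      E := El.mkContinuous 1 fun z => by rw [one_mul]; exact hEn z
      τ_one := hone
      τ_comm := fun a b => trace_comm hξ a.2 b.2
      τ_pos := fun a => by
        show 0 ≤ ⟪(vec ξ (TraceVectors.summable hξ)) 1, (vec ξ (TraceVectors.summable hξ)) (star (a : (H →L[ℂ] H)) * (a : (H →L[ℂ] H)))⟫_ℂ
        rw [trace_star_mul hξ]
        exact Complex.nonneg_iff.2 ⟨inner_self_nonneg (𝕜 := ℂ), (inner_self_im (𝕜 := ℂ) _).symm⟩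
      E_ι := hE_ι
      E_bimod := hE_bimod
      E_star := hE_star
      E_pos := hE_pos
      τ_E := hτ_E
      pinch_tendsto := fun z => by
        refine (hpinch z).congr fun π => congrArg Complex.re ?_
        rw [← trace_star_mul hξ, ← hP]
        rfl }
  refine ⟨C, fun f => rfl, hEn, fun z => ?_⟩
  show (⟪(vec ξ (TraceVectors.summable hξ)) 1, (vec ξ (TraceVectors.summable hξ)) (star (z : (H →L[ℂ] H)) * (z : (H →L[ℂ] H)))⟫_ℂ).re = _
  rw [trace_star_mul hξ, ← norm_vec_sq ξ hξ.summable]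
  exact inner_self_eq_norm_sq (𝕜 := ℂ) _

end Trace

/-- Back from the abstract core to strong-operator paving. -/
theorem soPavableIn_of_core {M : VonNeumannAlgebra H} {A : StarSubalgebra ℂ (H →L[ℂ] H)}
    [IsClosed (M.toStarSubalgebra : Set (H →L[ℂ] H))]
    [PartialOrder M.toStarSubalgebra] [StarOrderedRing M.toStarSubalgebra]
    (hj : MasaMap M j) (hjA : ∀ f, j f ∈ A) {ξ : ℕ → H} (hξ : TraceVectors M ξ)
    {ε : ℝ} (hε : 0 < ε) {N : ℕ} (hpav : PavingConclusion.{0, 0} (ε / 2) N)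
    {x : H →L[ℂ] H} (hx : x ∈ M) (hxs : IsSelfAdjoint x) : SoPavableIn M A x ε N := by
  classical
  intro F δ hδ
  obtain ⟨C, hι, hEn, hn2⟩ := exists_core j hξ hj
  obtain ⟨η, hη, hηF⟩ := exists_small_trace ξ hξ.summable hξ.faithful F hδ
  let x0 : M.toStarSubalgebra := (↑‖x‖⁻¹ : ℂ) • ⟨x, hx⟩
  have hx0 : (x0 : H →L[ℂ] H) = (↑‖x‖⁻¹ : ℂ) • x := rfl
  have hx0s : IsSelfAdjoint x0 := Subtype.ext (by
    show star ((↑‖x‖⁻¹ : ℂ) • x) = _
    rw [star_smul, hxs.star_eq, Complex.star_def, Complex.conj_ofReal, hx0])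
  have hx0n : ‖x0‖ ≤ 1 := by
    show ‖(↑‖x‖⁻¹ : ℂ) • x‖ ≤ 1
    rw [norm_smul, Complex.norm_real, norm_inv, norm_norm]
    rcases eq_or_ne ‖x‖ 0 with h | h <;> simp [h]
  obtain ⟨P, y, hP01, hPsum, hys, hyn, hd⟩ :=
    hpav M.toStarSubalgebra _ C x0 hx0s hx0n (η * (ε / 2) ^ 2) (by positivity)
  set a0 := C.r (C.Er x0)
  set S0 := ∑ c, C.r (P c) * x0 * C.r (P c)
  set z := S0 - a0 - y with hz
  have hsa : ∀ k, IsSelfAdjoint (C.r k) := fun k => by
    rw [IsSelfAdjoint, Core.r, ← map_star, star_toC]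
  have hzs : IsSelfAdjoint (z : H →L[ℂ] H) := by
    have : IsSelfAdjoint z := by
      refine ((isSelfAdjoint_sum _ fun c _ => ?_).sub (hsa _)).sub hys
      rw [IsSelfAdjoint, star_mul, star_mul, (hsa _).star_eq, hx0s.star_eq, mul_assoc]
    exact congrArg Subtype.val this
  obtain ⟨q, hqM, hq, hzq, hqv, -, -⟩ := exists_smallProj z.2 hzs (half_pos hε)
  have hsmall : ∑' n, ‖(1 - q) (ξ n)‖ ^ 2 ≤ η := by
    have hsum : ∀ b : H →L[ℂ] H, Summable fun n => ‖b (ξ n)‖ ^ 2 := fun b => by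
      have := (memℓp_vec ξ hξ.summable b).summable (by norm_num)
      simpa only [ENNReal.toReal_ofNat, Real.rpow_two] using this
    have h1 : (ε / 2) ^ 2 * ∑' n, ‖(1 - q) (ξ n)‖ ^ 2 ≤ C.n2sq z := by
      rw [hn2, ← tsum_mul_left]
      refine ((hsum _).mul_left _).tsum_le_tsum (fun n => ?_) (hsum _)
      rw [← mul_pow]
      exact pow_le_pow_left₀ (by positivity) (hqv (ξ n)) 2
    refine le_of_mul_le_mul_left ?_ (by positivity : 0 < (ε / 2) ^ 2)
    linarith [h1.trans hd]
  refine ⟨fun c => (C.r (P c) : H →L[ℂ] H), (‖x‖ : ℂ) • (a0 : H →L[ℂ] H), q, fun c => ⟨?_, ?_⟩,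
    fun c d hcd => ?_, ?_, ?_, ?_, ?_, hqM, hq, fun v hv => ?_, ?_⟩
  · show (C.ι _ : H →L[ℂ] H) ∈ A
    rw [hι]; exact hjA _
  · refine ⟨?_, congrArg Subtype.val (hsa (P c))⟩
    show (C.ι _ : H →L[ℂ] H) * C.ι _ = C.ι _
    rw [hι, ← map_mul]
    congr 1
    ext t
    rcases hP01 c t with h | h <;> simp [toC, h]
  · show (C.ι _ : H →L[ℂ] H) * C.ι _ = 0
    rw [hι, hι, ← map_mul, ← map_zero j]
    congr 1
    ext t
    rcases hP01 c t with h | h
    · simp [toC, h]
    · have hd0 : P d t = 0 := by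
        rcases hP01 d t with h' | h'
        · exact h'
        · exfalso
          have h1 : ∑ e, P e t = 1 := by
            rw [← ContinuousMap.sum_apply, hPsum]; rfl
          have h2 : P c t + P d t ≤ ∑ e, P e t := by
            rw [← Finset.sum_pair (f := fun e => P e t) hcd]
            refine Finset.sum_le_univ_sum_of_nonneg fun e => ?_
            rcases hP01 e t with h3 | h3 <;> simp [h3]
          linarith
      simp [toC, hd0]
  · show ∑ c, (C.ι (toC (P c)) : H →L[ℂ] H) = 1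
    simp only [hι, ← map_sum]
    rw [← map_one j]
    congr 1
    ext t
    have h1 : ∑ e, P e t = 1 := by rw [← ContinuousMap.sum_apply, hPsum]; rfl
    simp [toC, ← Complex.ofReal_sum, h1]
  · refine A.smul_mem ?_ _
    show (C.ι _ : H →L[ℂ] H) ∈ A
    rw [hι]; exact hjA _
  · rw [IsSelfAdjoint, star_smul, Complex.star_def, Complex.conj_ofReal]
    congr 1
    exact congrArg Subtype.val (hsa _).star_eq
  · rw [norm_smul, Complex.norm_real, norm_norm]
    refine mul_le_of_le_one_right (norm_nonneg _) ?_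
    show ‖(C.ι _ : H →L[ℂ] H)‖ ≤ 1
    rw [hι, hj.norm, ContinuousMap.norm_le _ zero_le_one]
    intro t
    show ‖((C.E x0 t).re : ℂ)‖ ≤ 1
    rw [Complex.norm_real, Real.norm_eq_abs]
    exact (Complex.abs_re_le_norm _).trans
      (((C.E x0).norm_coe_le_norm t).trans ((hEn x0).trans hx0n))
  · exact hηF (1 - q) (sub_mem (one_mem M) hqM) hq.one_sub hsmall v hv
  · have e1 : (∑ c, (C.r (P c) : H →L[ℂ] H) * x * C.r (P c)) - (‖x‖ : ℂ) • (a0 : H →L[ℂ] H)
        = (‖x‖ : ℂ) • ((y : H →L[ℂ] H) + z) := by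
      have hxx : x = (‖x‖ : ℂ) • (x0 : H →L[ℂ] H) := by
        rcases eq_or_ne ‖x‖ 0 with h | h
        · simp [norm_eq_zero.1 h]
        · rw [hx0, smul_smul, ← Complex.ofReal_mul, mul_inv_cancel₀ h, Complex.ofReal_one, one_smul]
      have e2 : (y : H →L[ℂ] H) + z = (S0 : H →L[ℂ] H) - a0 := by
        rw [hz]; push_cast; abel
      rw [e2, smul_sub]
      congr 1
      conv_lhs => rw [hxx]
      simp [S0, Finset.smul_sum]
    rw [e1, mul_smul_comm, smul_mul_assoc, norm_smul, Complex.norm_real, norm_norm, mul_comm ε]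
    refine mul_le_mul_of_nonneg_left ?_ (norm_nonneg _)
    rw [mul_add, add_mul, mul_assoc q (z : H →L[ℂ] H)]
    have hq1 := hq.norm_le
    calc _ ≤ ‖q * (y : H →L[ℂ] H) * q‖ + ‖q * ((z : H →L[ℂ] H) * q)‖ := norm_add_le _ _
      _ ≤ ε / 2 + ε / 2 := by
          refine add_le_add ?_ ?_
          · refine (norm_mul_le _ _).trans ?_
            refine (mul_le_of_le_one_right (norm_nonneg _) hq1).trans ?_
            exact ((norm_mul_le _ _).trans (mul_le_of_le_one_left (norm_nonneg _) hq1)).trans hyn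
          · exact ((norm_mul_le _ _).trans (mul_le_of_le_one_left (norm_nonneg _) hq1)).trans hzq
      _ = ε := by ring


end Build

theorem soPavableIn_of_paving {H : Type} [NormedAddCommGroup H] [InnerProductSpace ℂ H]
    [CompleteSpace H] (M : VonNeumannAlgebra H) (A : StarSubalgebra ℂ (H →L[ℂ] H))
    (hAM : ∀ a ∈ A, a ∈ M)
    (hmasa : ∀ x ∈ M, (∀ a ∈ A, a * x = x * a) → x ∈ A)
    (hcomm : ∀ a ∈ A, ∀ b ∈ A, a * b = b * a)
    {ξ : ℕ → H} (hξ : TraceVectors M ξ) {ε : ℝ} (hε : 0 < ε) {N : ℕ}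
    (hpav : PavingConclusion.{0, 0} (ε / 2) N) {x : H →L[ℂ] H} (hx : x ∈ M)
    (hxs : IsSelfAdjoint x) : SoPavableIn M A x ε N := by
  classical
  have hAc : IsClosed (A : Set (H →L[ℂ] H)) := by
    have : (A : Set (H →L[ℂ] H)) =
        (M.toStarSubalgebra : Set (H →L[ℂ] H)) ∩ Set.centralizer (A : Set (H →L[ℂ] H)) :=
      Set.Subset.antisymm (fun a ha => ⟨hAM a ha, fun b hb => hcomm b hb a ha⟩)
        fun a ha => hmasa a ha.1 ha.2
    rw [this]
    exact (vn_isClosed M).inter (Set.isClosed_centralizer _)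
  let _ : CommCStarAlgebra A :=
    { StarSubalgebra.cstarAlgebra A (h_closed := hAc) with
      mul_comm := fun a b => Subtype.ext (hcomm a a.2 b b.2) }
  have : IsClosed (M.toStarSubalgebra : Set (H →L[ℂ] H)) := vn_isClosed M
  let _ : PartialOrder M.toStarSubalgebra := CStarAlgebra.spectralOrder _
  have : StarOrderedRing M.toStarSubalgebra := CStarAlgebra.spectralOrderedRing _
  let G := gelfandStarTransform A
  let j : C(WeakDual.characterSpace ℂ A, ℂ) →⋆ₐ[ℂ] (H →L[ℂ] H) :=
    (StarSubalgebra.subtype A).comp G.symm.toStarAlgHom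
  have hj : MasaMap M j :=
    { mem := fun f => hAM _ (G.symm f).2
      norm := fun f => by
        have h := (gelfandTransform_isometry A).norm_map_of_map_zero (map_zero _) (G.symm f)
        exact h.symm.trans (congrArg norm (G.apply_symm_apply f))
      surj := fun a ha h => by
        have hA : a ∈ A := hmasa a ha fun b hb => by
          have := h (G ⟨b, hb⟩)
          simpa [j] using this
        exact ⟨G ⟨a, hA⟩, by simp [j]⟩ }
  have : TotallyDisconnectedSpace (WeakDual.characterSpace ℂ A) := hj.totallyDisconnected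
  exact soPavableIn_of_core j hj (fun f => (G.symm f).2) hξ hε hpav hx hxs

end Vale.Agent.P078.Tracial
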