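import Vale.Agent.P078.Tracial.SemifiniteWeight
import Vale.Agent.P078.Tracial.FromVN
import Vale.Agent.P078.InM.Setting

/-! The corner of a projection of finite trace is a tracial von Neumann algebra. -/

namespace Vale.Agent.P078.Tracial

open scoped InnerProductSpace
open Filter Topology Vale.Agent.P078 Vale.Agent.P078.InM

section Corner

variable {H : Type} [NormedAddCommGroup H] [InnerProductSpace ℂ H] [CompleteSpace H]

instance instCompleteSpaceFixedSpace (p : H →L[ℂ] H) : CompleteSpace (fixedSpace p) :=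
  (isClosed_fixedSpace p).completeSpace_coe

variable {p : H →L[ℂ] H}

/-- The projection onto the range of `p`. -/
noncomputable def prj (hp : IsStarProjection p) : H →L[ℂ] fixedSpace p :=
  p.codRestrict (fixedSpace p) fun v => mem_fixedSpace.2 (proj_apply_apply hp v)

/-- An operator on the range of `p` as an operator on the whole space. -/
noncomputable def inflate (hp : IsStarProjection p) (T : fixedSpace p →L[ℂ] fixedSpace p) :
    H →L[ℂ] H :=
  (fixedSpace p).subtypeL ∘L T ∘L prj hp

/-- The compression of an operator to the range of `p`. -/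
noncomputable def compress (hp : IsStarProjection p) (b : H →L[ℂ] H) :
    fixedSpace p →L[ℂ] fixedSpace p :=
  prj hp ∘L b ∘L (fixedSpace p).subtypeL

variable (hp : IsStarProjection p)

lemma coe_prj (v : H) : (prj hp v : H) = p v := rfl

lemma prj_coe (k : fixedSpace p) : prj hp (k : H) = k :=
  Subtype.ext (mem_fixedSpace.1 k.2)

lemma inflate_apply (T : fixedSpace p →L[ℂ] fixedSpace p) (v : H) :
    inflate hp T v = (T (prj hp v) : H) := rfl

lemma coe_compress (b : H →L[ℂ] H) (k : fixedSpace p) :
    (compress hp b k : H) = p (b (k : H)) := rfl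

lemma inflate_mul (S T : fixedSpace p →L[ℂ] fixedSpace p) :
    inflate hp (S * T) = inflate hp S * inflate hp T := by
  ext v
  rw [op_mul_apply, inflate_apply, inflate_apply, inflate_apply, prj_coe]
  rfl

lemma inflate_one : inflate hp 1 = p := by ext v; rfl

lemma inflate_add (S T : fixedSpace p →L[ℂ] fixedSpace p) :
    inflate hp (S + T) = inflate hp S + inflate hp T := by
  ext v; rfl

lemma inflate_sub (S T : fixedSpace p →L[ℂ] fixedSpace p) :
    inflate hp (S - T) = inflate hp S - inflate hp T := by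
  ext v; rfl

lemma inflate_smul (c : ℂ) (S : fixedSpace p →L[ℂ] fixedSpace p) :
    inflate hp (c • S) = c • inflate hp S := by
  ext v; rfl

lemma inflate_sum {κ : Type*} (t : Finset κ) (f : κ → (fixedSpace p →L[ℂ] fixedSpace p)) :
    inflate hp (∑ k ∈ t, f k) = ∑ k ∈ t, inflate hp (f k) := by
  ext v
  simp [inflate_apply, sum_apply]

lemma inflate_zero : inflate hp (0 : fixedSpace p →L[ℂ] fixedSpace p) = 0 := by ext v; rfl

lemma inner_coe_prj (k : fixedSpace p) (v : H) : ⟪k, prj hp v⟫_ℂ = ⟪(k : H), v⟫_ℂ := by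
  rw [Submodule.coe_inner, coe_prj, ← sa_inner hp.isSelfAdjoint, mem_fixedSpace.1 k.2]

lemma inner_prj_coe (k : fixedSpace p) (v : H) : ⟪prj hp v, k⟫_ℂ = ⟪v, (k : H)⟫_ℂ := by
  rw [Submodule.coe_inner, coe_prj, sa_inner hp.isSelfAdjoint, mem_fixedSpace.1 k.2]

lemma inflate_star (T : fixedSpace p →L[ℂ] fixedSpace p) :
    inflate hp (star T) = star (inflate hp T) := by
  ext v
  refine ext_inner_right ℂ fun w => ?_
  rw [ContinuousLinearMap.star_eq_adjoint, ContinuousLinearMap.star_eq_adjoint,
    ContinuousLinearMap.adjoint_inner_left, inflate_apply, inflate_apply, ← inner_coe_prj hp,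
    ← inner_prj_coe hp, ContinuousLinearMap.adjoint_inner_left]

lemma norm_inflate_le (T : fixedSpace p →L[ℂ] fixedSpace p) : ‖inflate hp T‖ ≤ ‖T‖ := by
  refine ContinuousLinearMap.opNorm_le_bound _ T.opNorm_nonneg fun v => ?_
  rw [inflate_apply, ← Submodule.coe_norm]
  refine (T.le_opNorm _).trans (mul_le_mul_of_nonneg_left ?_ (norm_nonneg _))
  rw [Submodule.coe_norm, coe_prj]
  exact proj_norm_apply_le hp v

lemma norm_compress_le (b : H →L[ℂ] H) : ‖compress hp b‖ ≤ ‖b‖ := by
  refine ContinuousLinearMap.opNorm_le_bound _ b.opNorm_nonneg fun k => ?_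
  rw [Submodule.coe_norm, coe_compress]
  exact (proj_norm_apply_le hp _).trans (b.le_opNorm _)

lemma compress_star (b : H →L[ℂ] H) : star (compress hp b) = compress hp (star b) := by
  ext1 k
  refine ext_inner_right ℂ fun l => ?_
  rw [ContinuousLinearMap.star_eq_adjoint, ContinuousLinearMap.star_eq_adjoint,
    ContinuousLinearMap.adjoint_inner_left]
  show ⟪k, prj hp (b l)⟫_ℂ = ⟪prj hp (ContinuousLinearMap.adjoint b k), l⟫_ℂ
  rw [inner_coe_prj, inner_prj_coe, ContinuousLinearMap.adjoint_inner_left]

lemma inflate_compress (b : H →L[ℂ] H) : inflate hp (compress hp b) = p * b * p := by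
  ext v; rfl

lemma inflate_mul_proj (T : fixedSpace p →L[ℂ] fixedSpace p) :
    inflate hp T * p = inflate hp T := by
  calc inflate hp T * p = inflate hp T * inflate hp 1 := by rw [inflate_one]
    _ = _ := by rw [← inflate_mul, mul_one]

lemma proj_mul_inflate (T : fixedSpace p →L[ℂ] fixedSpace p) :
    p * inflate hp T = inflate hp T := by
  calc p * inflate hp T = inflate hp 1 * inflate hp T := by rw [inflate_one]
    _ = _ := by rw [← inflate_mul, one_mul]

lemma inflate_isStarProjection {T : fixedSpace p →L[ℂ] fixedSpace p} (hT : IsStarProjection T) :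
    IsStarProjection (inflate hp T) := by
  refine ⟨?_, ?_⟩
  · show _ * _ = _
    rw [← inflate_mul, hT.isIdempotentElem.eq]
  · rw [IsSelfAdjoint, ← inflate_star, hT.isSelfAdjoint.star_eq]

variable {M : VonNeumannAlgebra H}

/-- The corner of `M` at `p`, acting on the range of `p`. -/
noncomputable def cornerVN (M : VonNeumannAlgebra H) (hp : IsStarProjection p) :
    VonNeumannAlgebra (fixedSpace p) where
  toStarSubalgebra := StarSubalgebra.centralizer ℂ (compress hp '' (M.commutant : Set (H →L[ℂ] H)))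
  centralizer_centralizer' := by
    show Set.centralizer (Set.centralizer (Set.centralizer _)) = Set.centralizer _
    rw [Set.centralizer_centralizer_centralizer]

lemma mem_cornerVN (hpM : p ∈ M) {T : fixedSpace p →L[ℂ] fixedSpace p} :
    T ∈ cornerVN M hp ↔ inflate hp T ∈ M := by
  have key : ∀ b ∈ M.commutant, (b * inflate hp T = inflate hp T * b ↔
      compress hp b * T = T * compress hp b) := by
    intro b hb
    have hbp : b * p = p * b := vn_mem_iff.1 hpM b hb
    have hc : ∀ k : fixedSpace p, (compress hp b k : H) = b (k : H) := fun k => by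
      rw [coe_compress, ← op_mul_apply p b, ← hbp, op_mul_apply, mem_fixedSpace.1 k.2]
    have hl : ∀ v, (b * inflate hp T) v = ((compress hp b * T) (prj hp v) : H) := fun v =>
      (hc (T (prj hp v))).symm
    have hr : ∀ v, (inflate hp T * b) v = ((T * compress hp b) (prj hp v) : H) := fun v => by
      have : prj hp (b v) = compress hp b (prj hp v) := Subtype.ext (by
        rw [hc, coe_prj, coe_prj, ← op_mul_apply p b, ← hbp, op_mul_apply])
      show (T (prj hp (b v)) : H) = _
      rw [this]
      rfl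
    constructor
    · intro h
      ext1 k
      have h1 := hl (k : H)
      have h2 := hr (k : H)
      rw [prj_coe] at h1 h2
      exact Subtype.ext (by rw [← h1, h, h2])
    · intro h
      ext v
      rw [hl, hr, h]
  constructor
  · intro h
    refine vn_mem_iff.2 fun b hb => (key b hb).2 ?_
    exact (StarSubalgebra.mem_centralizer_iff ℂ).1 h _ ⟨b, hb, rfl⟩ |>.1
  · intro h
    refine (StarSubalgebra.mem_centralizer_iff ℂ).2 ?_
    rintro g ⟨b, hb, rfl⟩
    refine ⟨(key b hb).1 (vn_mem_iff.1 h b hb), ?_⟩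
    rw [compress_star]
    exact (key _ (star_mem hb)).1 (vn_mem_iff.1 h _ (star_mem hb))

/-- The masa of the corner. -/
noncomputable def cornerAlg {A : StarSubalgebra ℂ (H →L[ℂ] H)} (hp : IsStarProjection p)
    (hpA : p ∈ A) : StarSubalgebra ℂ (fixedSpace p →L[ℂ] fixedSpace p) where
  carrier := {T | inflate hp T ∈ A}
  mul_mem' {S T} hS hT := by
    show inflate hp (S * T) ∈ A
    rw [inflate_mul]; exact mul_mem hS hT
  add_mem' {S T} hS hT := by
    show inflate hp (S + T) ∈ A
    rw [inflate_add]; exact add_mem hS hT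
  one_mem' := by
    show inflate hp 1 ∈ A
    rw [inflate_one]; exact hpA
  zero_mem' := by
    show inflate hp 0 ∈ A
    rw [inflate_zero]; exact zero_mem A
  algebraMap_mem' c := by
    show inflate hp (algebraMap ℂ _ c) ∈ A
    rw [Algebra.algebraMap_eq_smul_one, inflate_smul, inflate_one]
    exact SMulMemClass.smul_mem _ hpA
  star_mem' {T} hT := by
    show inflate hp (star T) ∈ A
    rw [inflate_star]; exact star_mem (R := H →L[ℂ] H) hT

variable {I : Type*} {ξ : I → H}

/-- The vectors of the normalised trace of the corner. -/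
lemma exists_traceVectors {A : StarSubalgebra ℂ (H →L[ℂ] H)} (hA : MasaIn M A)
    (hτ : SemifiniteTrace M ξ) (hpA : p ∈ A) (hpf : HSMem ξ p) (hp0 : p ≠ 0) :
    ∃ η : ℕ → fixedSpace p, TraceVectors (cornerVN M hp) η := by
  classical
  have hpM := hA.le _ hpA
  have hcount : (Function.support fun i => ‖p (ξ i)‖ ^ 2).Countable :=
    Summable.countable_support hpf
  set S := Function.support fun i => ‖p (ξ i)‖ ^ 2
  have : Countable S := hcount.to_subtype
  obtain ⟨enc, henc⟩ := Countable.exists_injective_nat S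
  set t : ℝ := ∑' i, ‖p (ξ i)‖ ^ 2 with ht
  have htpos : 0 < t := by
    obtain ⟨i, hi⟩ : ∃ i, p (ξ i) ≠ 0 := by
      by_contra hh
      push Not at hh
      exact hp0 (hτ.faithful p hpM hh)
    exact hpf.tsum_pos (fun _ => sq_nonneg _) i (by positivity)
  set c : ℂ := (((Real.sqrt t)⁻¹ : ℝ) : ℂ) with hc
  have hcc : ‖c‖ ^ 2 = t⁻¹ := by
    rw [hc, Complex.norm_real, Real.norm_eq_abs, sq_abs, inv_pow, Real.sq_sqrt htpos.le]
  let η : ℕ → fixedSpace p := Function.extend enc (fun i : S => c • prj hp (ξ i)) 0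
  have hout : ∀ i, i ∉ S → prj hp (ξ i) = 0 := fun i hi => Subtype.ext (by
    rw [coe_prj]
    simpa [S] using hi)
  have transfer : ∀ {α : Type} [AddCommMonoid α] [TopologicalSpace α] (G : fixedSpace p → α),
      G 0 = 0 → ∀ {a : α}, HasSum (fun i => G (c • prj hp (ξ i))) a →
        HasSum (fun n => G (η n)) a := by
    intro α _ _ G hG a ha
    have h1 : HasSum (fun i : S => G (c • prj hp (ξ i))) a :=
      (hasSum_subtype_iff_of_support_subset (f := fun i => G (c • prj hp (ξ i)))
        (fun i hi => by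
          by_contra hh
          exact hi (by simp only [hout i hh, smul_zero, hG]))).2 ha
    have h2 : ∀ i : S, G (η (enc i)) = G (c • prj hp (ξ i)) := fun i => by
      simp only [η, henc.extend_apply]
    refine (henc.hasSum_iff fun n hn => ?_).1 (h1.congr_fun h2)
    have : η n = 0 := Function.extend_apply' _ _ _ (fun ⟨i, hi⟩ => hn ⟨i, hi⟩)
    simp only [this, hG]
  have hmem : ∀ T : fixedSpace p →L[ℂ] fixedSpace p, HSMem ξ (inflate hp T) := fun T => by
    rw [← inflate_mul_proj]; exact hpf.mul_left _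
  have hquad : ∀ T, HasSum (fun n => ‖T (η n)‖ ^ 2) (t⁻¹ * ∑' i, ‖inflate hp T (ξ i)‖ ^ 2) := by
    intro T
    refine transfer (fun k => ‖T k‖ ^ 2) (by simp) ?_
    refine ((hmem T).hasSum.mul_left t⁻¹).congr_fun fun i => ?_
    rw [map_smul, norm_smul, mul_pow, hcc, inflate_apply, Submodule.coe_norm]
  have hone := hquad 1
  rw [inflate_one, ← ht, inv_mul_cancel₀ htpos.ne'] at hone
  have hsum : Summable fun n => ‖η n‖ ^ 2 := hone.summable
  have hbil : ∀ U T, ∑' n, ⟪η n, (star U * T) (η n)⟫_ℂ =
      (starRingEnd ℂ c * c) * ⟪hv ξ (inflate hp U), hv ξ (inflate hp T)⟫_ℂ := by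
    intro U T
    refine (transfer (fun k => ⟪k, (star U * T) k⟫_ℂ) (by simp) ?_).tsum_eq
    have h := (lp.hasSum_inner (hv ξ (inflate hp U)) (hv ξ (inflate hp T))).mul_left
      (starRingEnd ℂ c * c)
    refine h.congr_fun fun i => ?_
    rw [map_smul, inner_smul_left, inner_smul_right, hv_apply (hmem U), hv_apply (hmem T),
      inflate_apply, inflate_apply, ← Submodule.coe_inner, op_mul_apply,
      ContinuousLinearMap.star_eq_adjoint, ContinuousLinearMap.adjoint_inner_right, mul_assoc]
  refine ⟨η, hsum, hone.tsum_eq, fun x hx y hy => ?_, fun x hx h0 => ?_⟩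
  · have h1 := hbil (star x) y
    have h2 := hbil (star y) x
    have hss : ∀ T : fixedSpace p →L[ℂ] fixedSpace p, star (star T) = T := fun T =>
      ContinuousLinearMap.adjoint_adjoint T
    simp only [hss] at h1 h2
    rw [h1, h2, inflate_star, inflate_star]
    congr 1
    have hxM := (mem_cornerVN hp hpM).1 hx
    have hyM := (mem_cornerVN hp hpM).1 hy
    have := inner_hv_star hτ hyM (hmem y) (star_mem hxM) ((hmem x).star hτ hxM)
    rw [star_star] at this
    exact this.symm
  · have hxM := (mem_cornerVN hp hpM).1 hx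
    have h := hquad x
    have hz : (fun n => ‖x (η n)‖ ^ 2) = fun _ => (0 : ℝ) := by funext n; simp [h0 n]
    rw [hz] at h
    have hz2 : ∑' i, ‖inflate hp x (ξ i)‖ ^ 2 = 0 := by
      have := h.unique hasSum_zero
      rcases mul_eq_zero.1 this with h' | h'
      · exact absurd h' (inv_ne_zero htpos.ne')
      · exact h'
    have hall : inflate hp x = 0 := hτ.faithful _ hxM fun i => by
      have h3 := ((hasSum_zero_iff_of_nonneg (fun i => sq_nonneg ‖inflate hp x (ξ i)‖)).1
        (hz2 ▸ (hmem x).hasSum))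
      simpa using congrFun h3 i
    ext1 k
    apply Subtype.ext
    have := congrArg (fun T : H →L[ℂ] H => T k) hall
    simpa [inflate_apply, prj_coe] using this

end Corner

/-- Paving inside the corner of a projection of finite trace. -/
theorem exists_paving_corner {H : Type} [NormedAddCommGroup H] [InnerProductSpace ℂ H]
    [CompleteSpace H] {M : VonNeumannAlgebra H} {A : StarSubalgebra ℂ (H →L[ℂ] H)}
    {I : Type*} {ξ : I → H} (hA : MasaIn M A) (hτ : SemifiniteTrace M ξ)
    {p : H →L[ℂ] H} (hpA : p ∈ A) (hp : IsStarProjection p) (hpf : HSMem ξ p) (hp0 : p ≠ 0)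
    {ε : ℝ} (hε : 0 < ε) {N : ℕ} (hpav : PavingConclusion.{0, 0} (ε / 2) N)
    {y : H →L[ℂ] H} (hy : y ∈ M) (hys : IsSelfAdjoint y) (F : Finset H) {δ : ℝ} (hδ : 0 < δ) :
    ∃ (P : Fin N → (H →L[ℂ] H)) (a q : H →L[ℂ] H),
      IsPart A p P ∧ a ∈ A ∧ IsSelfAdjoint a ∧ ‖a‖ ≤ ‖y‖ ∧ a * p = a ∧ p * a = a ∧
      q ∈ M ∧ IsStarProjection q ∧ q * p = q ∧ p * q = q ∧ (∀ v ∈ F, ‖p v - q v‖ < δ) ∧
      ‖q * (pinch P y - a) * q‖ ≤ ε * ‖y‖ := by
  classical
  have hpM := hA.le _ hpA
  obtain ⟨η, hη⟩ := exists_traceVectors hp hA hτ hpA hpf hp0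
  have hmasa : ∀ T ∈ cornerVN M hp, (∀ a ∈ cornerAlg hp hpA, a * T = T * a) →
      T ∈ cornerAlg hp hpA := by
    intro T hT hc
    refine hA.mem_of_comm _ ((mem_cornerVN hp hpM).1 hT) fun g hg => ?_
    have hgp : p * g * p = g * p := by
      rw [hA.comm _ hpA _ hg, mul_assoc, hp.isIdempotentElem.eq]
    have hcg : compress hp g ∈ cornerAlg hp hpA := by
      show inflate hp _ ∈ A
      rw [inflate_compress, hgp]; exact mul_mem hg hpA
    have h := congrArg (inflate hp) (hc _ hcg)
    rw [inflate_mul, inflate_mul, inflate_compress, hgp] at h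
    rw [mul_assoc, proj_mul_inflate] at h
    rw [hA.comm _ hg _ hpA, ← mul_assoc, inflate_mul_proj] at h
    exact h
  have hcomm : ∀ a ∈ cornerAlg hp hpA, ∀ b ∈ cornerAlg hp hpA, a * b = b * a := by
    intro a ha b hb
    have h := hA.comm _ ha _ hb
    rw [Commute, SemiconjBy, ← inflate_mul, ← inflate_mul] at h
    ext1 k
    apply Subtype.ext
    have := congrArg (fun T : H →L[ℂ] H => T k) h
    simpa [inflate_apply, prj_coe] using this
  have hxc : compress hp y ∈ cornerVN M hp := (mem_cornerVN hp hpM).2 (by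
    rw [inflate_compress]; exact mul_mem (mul_mem hpM hy) hpM)
  have hxs : IsSelfAdjoint (compress hp y) := by
    rw [IsSelfAdjoint, compress_star, hys.star_eq]
  obtain ⟨P, a, q, hP, hPo, hPs, ha, has, han, hq, hqp, hqF, hqb⟩ :=
    soPavableIn_of_paving (cornerVN M hp) (cornerAlg hp hpA)
      (fun a ha => (mem_cornerVN hp hpM).2 (hA.le _ ha)) hmasa hcomm hη hε hpav hxc hxs
      (F.image (prj hp)) δ hδ
  refine ⟨fun i => inflate hp (P i), inflate hp a, inflate hp q, ⟨fun i => (hP i).1,
    fun i => inflate_isStarProjection hp (hP i).2, fun i j hij => ?_, ?_⟩, ha, ?_, ?_,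
    inflate_mul_proj hp a, proj_mul_inflate hp a, (mem_cornerVN hp hpM).1 hq,
    inflate_isStarProjection hp hqp, inflate_mul_proj hp q, proj_mul_inflate hp q,
    fun v hv => ?_, ?_⟩
  · rw [← inflate_mul, hPo i j hij, inflate_zero]
  · rw [← inflate_sum, hPs, inflate_one]
  · rw [IsSelfAdjoint, ← inflate_star, has.star_eq]
  · exact (norm_inflate_le hp a).trans (han.trans (norm_compress_le hp y))
  · have := hqF _ (Finset.mem_image_of_mem _ hv)
    rw [Submodule.coe_norm] at this
    exact this
  · have hP' : ∀ i, inflate hp (P i * compress hp y * P i) =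
        inflate hp (P i) * y * inflate hp (P i) := fun i => by
      rw [inflate_mul, inflate_mul, inflate_compress, ← mul_assoc, ← mul_assoc,
        inflate_mul_proj, mul_assoc (inflate hp (P i) * y) p, proj_mul_inflate]
    have e : inflate hp (q * ((∑ i, P i * compress hp y * P i) - a) * q) =
        inflate hp q * (pinch (fun i => inflate hp (P i)) y - inflate hp a) * inflate hp q := by
      rw [inflate_mul, inflate_mul, inflate_sub, inflate_sum]
      simp only [hP', pinch]
    rw [← e]
    exact (norm_inflate_le hp _).trans (hqb.trans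
      (mul_le_mul_of_nonneg_left (norm_compress_le hp y) hε.le))

end Vale.Agent.P078.Tracial
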