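import Vale.Agent.P078.Tracial.SemifiniteWeight
import Vale.Agent.P078.InM.Setting
import Vale.Agent.P078.Colour

/-! The part of a masa without projections of finite trace: random colourings of fine cells. -/

namespace Vale.Agent.P078.Tracial

open scoped InnerProductSpace
open Filter Topology Vale.Agent.P078 Vale.Agent.P078.InM

variable {H : Type*} [NormedAddCommGroup H] [InnerProductSpace ℂ H] [CompleteSpace H]

/-- Second moment of a random colouring with vector coefficients. -/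
lemma second_moment_vec {V : Type*} [NormedAddCommGroup V] [InnerProductSpace ℂ V]
    {ι : Type*} [Fintype ι] [DecidableEq ι] {r : ℕ} (hr : 0 < r) (w : ι × ι → V) :
    ∃ f : ι → Fin r, ‖∑ p, (gap r p f : ℂ) • w p‖ ^ 2 ≤ 2 * ∑ p, ‖w p‖ ^ 2 := by
  classical
  have : Nonempty (ι → Fin r) := ⟨fun _ => ⟨0, hr⟩⟩
  set N : ℝ := (Fintype.card (ι → Fin r) : ℝ) with hN'
  have hN : 0 ≤ N := Nat.cast_nonneg _
  let G : ι × ι → ι × ι → ℝ := fun p q => (⟪w p, w q⟫_ℂ).re
  let C : ι × ι → ι × ι → ℝ := fun p q => ∑ f : ι → Fin r, gap r p f * gap r q f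
  have hC : ∀ p q, |C p q| ≤ N := fun p q => by
    refine (Finset.abs_sum_le_sum_abs _ _).trans ?_
    refine (Finset.sum_le_card_nsmul _ _ 1 fun f _ => ?_).trans (by simp [N])
    rw [abs_mul]
    exact mul_le_one₀ (abs_gap_le hr _ _) (abs_nonneg _) (abs_gap_le hr _ _)
  have hG : ∀ p q, |G p q| ≤ (‖w p‖ ^ 2 + ‖w q‖ ^ 2) / 2 := fun p q => by
    refine ((Complex.abs_re_le_norm _).trans (norm_inner_le_norm _ _)).trans ?_
    nlinarith [sq_nonneg (‖w p‖ - ‖w q‖)]
  have e : ∑ f : ι → Fin r, ‖∑ p, (gap r p f : ℂ) • w p‖ ^ 2 =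
      ∑ p, ∑ q, C p q * G p q := by
    have e1 : ∀ f : ι → Fin r, ‖∑ p, (gap r p f : ℂ) • w p‖ ^ 2 =
        ∑ p, ∑ q, gap r p f * gap r q f * G p q := fun f => by
      rw [norm_sq_eq_re_inner (𝕜 := ℂ), sum_inner]
      simp only [inner_sum, inner_smul_left, inner_smul_right, Complex.conj_ofReal,
        map_sum, RCLike.re_to_complex]
      refine Finset.sum_congr rfl fun p _ => Finset.sum_congr rfl fun q _ => ?_
      simp only [G, Complex.mul_re, Complex.mul_im, Complex.ofReal_re, Complex.ofReal_im]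
      ring
    simp only [e1, C, Finset.sum_mul]
    rw [Finset.sum_comm]
    exact Finset.sum_congr rfl fun p _ => Finset.sum_comm
  have bound : ∑ p, ∑ q, C p q * G p q ≤ N * (2 * ∑ p, ‖w p‖ ^ 2) := by
    calc ∑ p, ∑ q, C p q * G p q
        ≤ ∑ p, ∑ q, ((if q = p then N * ((‖w p‖ ^ 2 + ‖w q‖ ^ 2) / 2) else 0) +
            (if q = p.swap then N * ((‖w p‖ ^ 2 + ‖w q‖ ^ 2) / 2) else 0)) := by
          refine Finset.sum_le_sum fun p _ => Finset.sum_le_sum fun q _ => ?_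
          have nn : 0 ≤ N * ((‖w p‖ ^ 2 + ‖w q‖ ^ 2) / 2) := by positivity
          have term : C p q * G p q ≤ N * ((‖w p‖ ^ 2 + ‖w q‖ ^ 2) / 2) := by
            refine (le_abs_self _).trans ?_
            rw [abs_mul]
            exact mul_le_mul (hC p q) (hG p q) (abs_nonneg _) hN
          by_cases h1 : q = p
          · split_ifs <;> linarith
          by_cases h2 : q = p.swap
          · (split_ifs; linarith)
          have : C p q = 0 := gap_cov hr p q (Ne.symm h1) (fun h => h2 (by rw [h, Prod.swap_swap]))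
          simp [this, h1, h2]
      _ = _ := by
          simp only [Finset.sum_add_distrib, Finset.sum_ite_eq', Finset.mem_univ, if_true]
          have hswap : ∑ p : ι × ι, ‖w p.swap‖ ^ 2 = ∑ p, ‖w p‖ ^ 2 :=
            Equiv.sum_comp (Equiv.prodComm ι ι) fun p => ‖w p‖ ^ 2
          simp only [← Finset.mul_sum, ← Finset.sum_div, Finset.sum_add_distrib, hswap]
          ring
  obtain ⟨f, -, hf⟩ := Finset.exists_le_of_sum_le (f := fun f : ι → Fin r =>
      ‖∑ p, (gap r p f : ℂ) • w p‖ ^ 2) (g := fun _ => 2 * ∑ p, ‖w p‖ ^ 2)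
    Finset.univ_nonempty (by
      rw [e, Finset.sum_const, Finset.card_univ, nsmul_eq_mul]
      exact bound)
  exact ⟨f, hf⟩

/-- One level can be chosen in each block so that the total is close to the average. -/
lemma exists_choice {V : Type*} [NormedAddCommGroup V] [InnerProductSpace ℂ V]
    {β κ : Type*} [Fintype κ] (lam : κ → ℝ) (h0 : ∀ k, 0 ≤ lam k) (h1 : ∑ k, lam k = 1)
    (t : Finset β) (v : β → κ → V) :
    ∃ k : β → κ, ‖∑ b ∈ t, v b (k b) - ∑ j, lam j • ∑ b ∈ t, v b j‖ ^ 2 ≤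
      ∑ b ∈ t, ∑ j, lam j * ‖v b j‖ ^ 2 := by
  classical
  have hne : Nonempty κ := by
    by_contra hh
    have := not_nonempty_iff.1 hh
    simp at h1
  induction t using Finset.induction with
  | empty => exact ⟨fun _ => Classical.arbitrary κ, by simp⟩
  | insert b t hb ih =>
    obtain ⟨k, hk⟩ := ih
    set S := ∑ b ∈ t, v b (k b) - ∑ j, lam j • ∑ b ∈ t, v b j with hS
    set m := ∑ j, lam j • v b j with hm
    have key : ∑ j, lam j * ‖S + (v b j - m)‖ ^ 2 ≤ ‖S‖ ^ 2 + ∑ j, lam j * ‖v b j‖ ^ 2 := by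
      have e1 : ∀ j, ‖S + (v b j - m)‖ ^ 2 = ‖S‖ ^ 2 + ‖v b j‖ ^ 2 + ‖m‖ ^ 2
          + 2 * RCLike.re ⟪S, v b j⟫_ℂ - 2 * RCLike.re ⟪S, m⟫_ℂ
          - 2 * RCLike.re ⟪m, v b j⟫_ℂ := fun j => by
        rw [norm_add_sq (𝕜 := ℂ) S, norm_sub_sq (𝕜 := ℂ) (v b j) m, inner_sub_right, map_sub,
          inner_re_symm (v b j) m]
        ring
      have e2 : ∀ u : V, ∑ j, lam j * RCLike.re ⟪u, v b j⟫_ℂ = RCLike.re ⟪u, m⟫_ℂ := fun u => by
        rw [hm, inner_sum, map_sum]
        refine Finset.sum_congr rfl fun j _ => ?_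
        rw [← Complex.coe_smul, inner_smul_right]
        simp
      have e3 : RCLike.re ⟪m, m⟫_ℂ = ‖m‖ ^ 2 := inner_self_eq_norm_sq (𝕜 := ℂ) m
      calc ∑ j, lam j * ‖S + (v b j - m)‖ ^ 2
          = ‖S‖ ^ 2 * ∑ j, lam j + ∑ j, lam j * ‖v b j‖ ^ 2 + ‖m‖ ^ 2 * ∑ j, lam j
            + 2 * ∑ j, lam j * RCLike.re ⟪S, v b j⟫_ℂ - 2 * RCLike.re ⟪S, m⟫_ℂ * ∑ j, lam j
            - 2 * ∑ j, lam j * RCLike.re ⟪m, v b j⟫_ℂ := by
            simp only [e1, Finset.mul_sum, ← Finset.sum_add_distrib, ← Finset.sum_sub_distrib]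
            exact Finset.sum_congr rfl fun j _ => by ring
        _ ≤ _ := by
            rw [h1, e2, e2, e3]
            nlinarith [sq_nonneg ‖m‖]
    obtain ⟨j0, hj0⟩ : ∃ j0, ‖S + (v b j0 - m)‖ ^ 2 ≤ ‖S‖ ^ 2 + ∑ j, lam j * ‖v b j‖ ^ 2 := by
      by_contra hh
      push Not at hh
      have hlt : ∑ j, lam j * (‖S‖ ^ 2 + ∑ i, lam i * ‖v b i‖ ^ 2) <
          ∑ j, lam j * ‖S + (v b j - m)‖ ^ 2 := by
        obtain ⟨j, -, hj⟩ : ∃ j ∈ (Finset.univ : Finset κ), lam j ≠ 0 :=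
          Finset.exists_ne_zero_of_sum_ne_zero (by rw [h1]; exact one_ne_zero)
        refine Finset.sum_lt_sum (fun i _ => mul_le_mul_of_nonneg_left (hh i).le (h0 i))
          ⟨j, Finset.mem_univ j, mul_lt_mul_of_pos_left (hh j) (lt_of_le_of_ne (h0 j) (Ne.symm hj))⟩
      rw [← Finset.sum_mul, h1, one_mul] at hlt
      linarith
    refine ⟨Function.update k b j0, ?_⟩
    have e4 : ∑ c ∈ t, v c (Function.update k b j0 c) = ∑ c ∈ t, v c (k c) :=
      Finset.sum_congr rfl fun c hc => by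
        rw [Function.update_of_ne (fun h : c = b => hb (h ▸ hc))]
    rw [Finset.sum_insert hb, Function.update_self, e4, Finset.sum_insert hb]
    have e5 : ∑ j, lam j • ∑ c ∈ insert b t, v c j = m + ∑ j, lam j • ∑ c ∈ t, v c j := by
      simp only [Finset.sum_insert hb, smul_add, Finset.sum_add_distrib, hm]
    rw [e5]
    have e6 : v b j0 + ∑ c ∈ t, v c (k c) - (m + ∑ j, lam j • ∑ c ∈ t, v c j) =
        S + (v b j0 - m) := by rw [hS]; abel
    rw [e6]
    linarith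

lemma norm_sq_coe {V : Type*} [NormedAddCommGroup V] [InnerProductSpace ℂ V] (u : V) :
    (‖u‖ : ℂ) ^ 2 = ⟪u, u⟫_ℂ :=
  (inner_self_eq_norm_sq_to_K (𝕜 := ℂ) u).symm

section Masa

variable {M : VonNeumannAlgebra H} {A : StarSubalgebra ℂ (H →L[ℂ] H)}
variable {I : Type*} {ξ : I → H}

lemma hsMem_pinch (hA : MasaIn M A) (hτ : SemifiniteTrace M ξ) {ι : Type*} [Fintype ι]
    {c : ι → (H →L[ℂ] H)} (hc : IsPart A 1 c) {z : H →L[ℂ] H} (hz : z ∈ M) (hzf : HSMem ξ z) :
    HSMem ξ (pinch c z) :=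
  hsMem_sum _ fun i _ =>
    (hzf.mul_left (c i)).mul_right hτ (mul_mem (hA.le _ (hc.mem i)) hz) (hA.le _ (hc.mem i))

lemma pinch_mem (hA : MasaIn M A) {ι : Type*} [Fintype ι]
    {c : ι → (H →L[ℂ] H)} (hc : IsPart A 1 c) {z : H →L[ℂ] H} (hz : z ∈ M) : pinch c z ∈ M :=
  sum_mem fun i _ => mul_mem (mul_mem (hA.le _ (hc.mem i)) hz) (hA.le _ (hc.mem i))

/-- Orthogonality of the diagonal blocks. -/
lemma norm_hv_pinch_sq (hA : MasaIn M A) (hτ : SemifiniteTrace M ξ) {ι : Type*} [Fintype ι]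
    {c : ι → (H →L[ℂ] H)} (hc : IsPart A 1 c) {z : H →L[ℂ] H} (hz : z ∈ M) (hzf : HSMem ξ z) :
    ‖hv ξ (pinch c z)‖ ^ 2 = ∑ i, ‖hv ξ (c i * z * c i)‖ ^ 2 := by
  have hm : ∀ i, HSMem ξ (c i * z * c i) := fun i =>
    (hzf.mul_left (c i)).mul_right hτ (mul_mem (hA.le _ (hc.mem i)) hz) (hA.le _ (hc.mem i))
  rw [norm_hv_sq (hsMem_pinch hA hτ hc hz hzf)]
  have e : ∀ k, ‖pinch c z (ξ k)‖ ^ 2 = ∑ i, ‖(c i * z * c i) (ξ k)‖ ^ 2 := fun k => by
    simp only [pinch, sum_apply, op_mul_apply]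
    exact hc.norm_sum_sq fun i => z (c i (ξ k))
  simp only [e, norm_hv_sq (hm _)]
  exact Summable.tsum_finsetSum fun i _ => hm i

lemma norm_hv_pinch_le (hA : MasaIn M A) (hτ : SemifiniteTrace M ξ) {ι : Type*} [Fintype ι]
    {c : ι → (H →L[ℂ] H)} (hc : IsPart A 1 c) {z : H →L[ℂ] H} (hz : z ∈ M) (hzf : HSMem ξ z) :
    ‖hv ξ (pinch c z)‖ ≤ ‖hv ξ z‖ := by
  refine (pow_le_pow_iff_left₀ (norm_nonneg _) (norm_nonneg _) two_ne_zero).1 ?_
  rw [norm_hv_pinch_sq hA hτ hc hz hzf]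
  calc ∑ i, ‖hv ξ (c i * z * c i)‖ ^ 2 ≤ ∑ i, ‖hv ξ (c i * z)‖ ^ 2 := by
        refine Finset.sum_le_sum fun i _ => pow_le_pow_left₀ (norm_nonneg _) ?_ 2
        refine (norm_hv_mul_right_le hτ (mul_mem (hA.le _ (hc.mem i)) hz) (hzf.mul_left _)
          (hA.le _ (hc.mem i))).trans ?_
        exact mul_le_of_le_one_left (norm_nonneg _) (hc.proj i).norm_le
    _ = ‖hv ξ z‖ ^ 2 := by
        have hsum : ∀ k, ∑ i, ‖(c i * z) (ξ k)‖ ^ 2 = ‖z (ξ k)‖ ^ 2 := fun k => by
          simp only [op_mul_apply]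
          rw [hc.sum_norm_sq (z (ξ k))]
          rfl
        simp only [norm_hv_sq (hzf.mul_left _), norm_hv_sq hzf]
        rw [← Summable.tsum_finsetSum fun i _ => hzf.mul_left (c i)]
        exact tsum_congr hsum

/-- The off-diagonal blocks seen by a finite projection. -/
lemma sum_blocks_le (hA : MasaIn M A) (hτ : SemifiniteTrace M ξ) {s : H →L[ℂ] H} (hsM : s ∈ M)
    (hs : IsStarProjection s) (hsf : HSMem ξ s) {ι : Type*} [Fintype ι]
    {c : ι → (H →L[ℂ] H)} (hc : IsPart A 1 c) {y : H →L[ℂ] H} (hy : y ∈ M) :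
    ∑ p : ι × ι, ‖hv ξ (s * c p.1 * y * c p.2 * s)‖ ^ 2 ≤
      ‖y‖ ^ 2 * ‖hv ξ (pinch c s)‖ ^ 2 := by
  have hcM : ∀ i, c i ∈ M := fun i => hA.le _ (hc.mem i)
  have hss : s * s = s := hs.isIdempotentElem
  have hsa : star s = s := hs.isSelfAdjoint
  have hca : ∀ i, star (c i) = c i := fun i => (hc.proj i).isSelfAdjoint
  have key : ∀ i j, (‖hv ξ (s * c i * y * c j * s)‖ : ℂ) ^ 2 =
      ⟪hv ξ (y * (c j * s * c j)), hv ξ (c i * s * c i * y)⟫_ℂ := by
    intro i j
    have mb : HSMem ξ (y * c j * s) := hsf.mul_left _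
    have ma : HSMem ξ (c i * (y * c j * s)) := mb.mul_left _
    have mc : HSMem ξ (c i * s * c i * y) :=
      ((hsf.mul_left (c i)).mul_right hτ (mul_mem (hcM i) hsM) (hcM i)).mul_right hτ
        (mul_mem (mul_mem (hcM i) hsM) (hcM i)) hy
    have e1 : s * c i * y * c j * s = s * (c i * (y * c j * s)) := by simp only [mul_assoc]
    rw [norm_sq_coe, e1, inner_hv_mul_left ma (ma.mul_left s) s, hsa,
      ← mul_assoc s s, hss, inner_hv_mul_left mb (ma.mul_left s) (c i), hca]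
    have e2 : c i * (s * (c i * (y * c j * s))) = (c i * s * c i * y) * star (s * c j) := by
      rw [star_mul, hsa, hca]; simp only [mul_assoc]
    rw [e2, ← inner_hv_mul_right hτ (mul_mem (mul_mem hy (hcM j)) hsM) mb
      (mul_mem (mul_mem (mul_mem (hcM i) hsM) (hcM i)) hy) mc (mul_mem hsM (hcM j))]
    congr 2
    simp only [mul_assoc]
    rw [← mul_assoc s s, hss]
  have m1 : ∀ j, HSMem ξ (y * (c j * s * c j)) := fun j =>
    ((hsf.mul_left (c j)).mul_right hτ (mul_mem (hcM j) hsM) (hcM j)).mul_left y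
  have m2 : ∀ i, HSMem ξ (c i * s * c i * y) := fun i =>
    ((hsf.mul_left (c i)).mul_right hτ (mul_mem (hcM i) hsM) (hcM i)).mul_right hτ
      (mul_mem (mul_mem (hcM i) hsM) (hcM i)) hy
  have hP := pinch_mem hA hc hsM
  have hPf := hsMem_pinch hA hτ hc hsM hsf
  have tot : ((∑ p : ι × ι, ‖hv ξ (s * c p.1 * y * c p.2 * s)‖ ^ 2 : ℝ) : ℂ) =
      ⟪hv ξ (y * pinch c s), hv ξ (pinch c s * y)⟫_ℂ := by
    push_cast
    rw [Fintype.sum_prod_type, pinch, Finset.mul_sum, Finset.sum_mul, hv_sum _ m1, hv_sum _ m2]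
    simp only [sum_inner, inner_sum, key]
  have hb := norm_inner_le_norm (𝕜 := ℂ) (hv ξ (y * pinch c s)) (hv ξ (pinch c s * y))
  rw [← tot, Complex.norm_real, Real.norm_eq_abs] at hb
  refine (le_abs_self _).trans (hb.trans ?_)
  calc _ ≤ (‖y‖ * ‖hv ξ (pinch c s)‖) * (‖y‖ * ‖hv ξ (pinch c s)‖) :=
        mul_le_mul (norm_hv_mul_left_le hPf y) (norm_hv_mul_right_le hτ hP hPf hy)
          (norm_nonneg _) (by positivity)
    _ = _ := by ring

/-- A block operator seen by a finite projection. -/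
lemma norm_hv_block_le (hA : MasaIn M A) (hτ : SemifiniteTrace M ξ) {s : H →L[ℂ] H} (hsM : s ∈ M)
    (hs : IsStarProjection s) (hsf : HSMem ξ s) {e : H →L[ℂ] H} (he : e ∈ A)
    (hep : IsStarProjection e) {Z : H →L[ℂ] H} (hZ : Z ∈ M) :
    ‖hv ξ (s * e * Z * e * s)‖ ≤ ‖Z‖ * ‖hv ξ (e * s * e)‖ := by
  have heM := hA.le _ he
  have hss : s * s = s := hs.isIdempotentElem
  have hsa : star s = s := hs.isSelfAdjoint
  have hea : star e = e := hep.isSelfAdjoint
  have mb : HSMem ξ (Z * e * s) := hsf.mul_left _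
  have ma : HSMem ξ (e * (Z * e * s)) := mb.mul_left _
  have mese : HSMem ξ (e * s * e) := (hsf.mul_left e).mul_right hτ (mul_mem heM hsM) heM
  have hese : e * s * e ∈ M := mul_mem (mul_mem heM hsM) heM
  have key : (‖hv ξ (s * e * Z * e * s)‖ : ℂ) ^ 2 =
      ⟪hv ξ (Z * (e * s * e)), hv ξ (e * s * e * Z)⟫_ℂ := by
    have e1 : s * e * Z * e * s = s * (e * (Z * e * s)) := by simp only [mul_assoc]
    rw [norm_sq_coe, e1, inner_hv_mul_left ma (ma.mul_left s) s, hsa,
      ← mul_assoc s s, hss, inner_hv_mul_left mb (ma.mul_left s) e, hea]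
    have e2 : e * (s * (e * (Z * e * s))) = (e * s * e * Z) * star (s * e) := by
      rw [star_mul, hsa, hea]; simp only [mul_assoc]
    rw [e2, ← inner_hv_mul_right hτ (mul_mem (mul_mem hZ heM) hsM) mb (mul_mem hese hZ)
      (mese.mul_right hτ hese hZ) (mul_mem hsM heM)]
    congr 2
    simp only [mul_assoc]
    rw [← mul_assoc s s, hss]
  have hb := norm_inner_le_norm (𝕜 := ℂ) (hv ξ (Z * (e * s * e))) (hv ξ (e * s * e * Z))
  rw [← key, ← Complex.ofReal_pow, Complex.norm_real, norm_pow, norm_norm] at hb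
  refine (pow_le_pow_iff_left₀ (norm_nonneg _) (by positivity) two_ne_zero).1 (hb.trans ?_)
  calc _ ≤ (‖Z‖ * ‖hv ξ (e * s * e)‖) * (‖Z‖ * ‖hv ξ (e * s * e)‖) :=
        mul_le_mul (norm_hv_mul_left_le mese Z) (norm_hv_mul_right_le hτ hese mese hZ)
          (norm_nonneg _) (by positivity)
    _ = _ := by ring

lemma pinch_pinch_of_refines {P R : Ptn A} (hR : Refines R P) (hA : MasaIn M A)
    (z : H →L[ℂ] H) : pinch R.c (pinch P.c z) = pinch R.c z := by
  classical
  refine Finset.sum_congr rfl fun i _ => ?_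
  rw [pinch, Finset.mul_sum, Finset.sum_mul]
  have hcm : ∀ j, R.c i * P.c j = P.c j * R.c i := fun j =>
    hA.comm _ (R.isPart.mem i) _ (P.isPart.mem j)
  have hterm : ∀ j, R.c i * (P.c j * z * P.c j) * R.c i =
      if P.c j * R.c i = 0 then 0 else R.c i * z * R.c i := fun j => by
    rw [← mul_assoc, ← mul_assoc, hcm j, mul_assoc _ (P.c j) (R.c i)]
    split_ifs with h
    · rw [h, mul_zero]
    · rw [(hR i j).resolve_right h]
  classical
  have hle : ∀ j, (P.c j * R.c i = 0) ∨ P.c j * R.c i = R.c i := fun j => (hR i j).symm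
  simp only [hterm]
  rcases eq_or_ne (R.c i) 0 with h0 | h0
  · simp [h0]
  · have hs : ∑ j, P.c j * R.c i = R.c i := by rw [← Finset.sum_mul, P.isPart.sum_eq, one_mul]
    obtain ⟨j, hj⟩ : ∃ j, P.c j * R.c i = R.c i := by
      by_contra hh
      push Not at hh
      rw [Finset.sum_eq_zero fun j _ => (hle j).resolve_right (hh j)] at hs
      exact h0 hs.symm
    rw [Finset.sum_eq_single j]
    · rw [if_neg (by rw [hj]; exact h0)]
    · intro k _ hk
      rw [if_pos]
      rw [← hj, ← mul_assoc, P.isPart.orth k j hk, zero_mul]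
    · simp

/-- Pinchings of a finite projection become small. -/
lemma exists_small_pinch (hA : MasaIn M A) (hτ : SemifiniteTrace M ξ) {s : H →L[ℂ] H}
    (hsM : s ∈ M) (hs : IsStarProjection s) (hsf : HSMem ξ s) {w : H →L[ℂ] H} (hw : w ∈ A)
    (hwp : IsStarProjection w) (hws : w * s = s) (hsing : ∀ p ∈ A, IsStarProjection p → HSMem ξ p → p * w = 0)
    {η : ℝ} (hη : 0 < η) : ∃ P : Ptn A, ‖hv ξ (pinch P.c s)‖ ^ 2 < η := by
  obtain ⟨U, E, hU, hEA, hEn, hEs, hlim⟩ := InM.exists_limit hA s hsM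
  have hEsa : IsSelfAdjoint E := hEs hs.isSelfAdjoint
  have hEf : HSMem ξ E := by
    refine summable_of_sum_le (fun i => sq_nonneg _) (c := ‖hv ξ s‖ ^ 2) fun t => ?_
    -- lower semicontinuity
    have hb : ∀ R : Ptn A, ∀ u : I → H, (∑ i ∈ t, ‖⟪pinch R.c s (ξ i), u i⟫_ℂ‖) ^ 2 ≤
        ‖hv ξ s‖ ^ 2 * ∑ i ∈ t, ‖u i‖ ^ 2 := by
      intro R u
      have hm := hsMem_pinch hA hτ R.isPart hsM hsf
      refine le_trans (pow_le_pow_left₀ (Finset.sum_nonneg fun i _ => norm_nonneg _)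
        (Finset.sum_le_sum fun i _ => norm_inner_le_norm _ _) 2) ?_
      refine (Finset.sum_mul_sq_le_sq_mul_sq _ _ _).trans (mul_le_mul_of_nonneg_right ?_
        (Finset.sum_nonneg fun i _ => sq_nonneg _))
      refine le_trans ?_ (pow_le_pow_left₀ (norm_nonneg _) (norm_hv_pinch_le hA hτ R.isPart hsM hsf) 2)
      rw [norm_hv_sq hm]
      exact Summable.sum_le_tsum t (fun i _ => sq_nonneg _) hm
    have hl : Tendsto (fun R : Ptn A => (∑ i ∈ t, ‖⟪pinch R.c s (ξ i), E (ξ i)⟫_ℂ‖) ^ 2)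
        (U : Filter (Ptn A)) (𝓝 ((∑ i ∈ t, ‖⟪E (ξ i), E (ξ i)⟫_ℂ‖) ^ 2)) :=
      (tendsto_finsetSum _ fun i _ => (hlim (ξ i) (E (ξ i))).norm).pow 2
    have := le_of_tendsto hl (Eventually.of_forall fun R => hb R fun i => E (ξ i))
    have e1 : ∀ i, ‖⟪E (ξ i), E (ξ i)⟫_ℂ‖ = ‖E (ξ i)‖ ^ 2 := fun i => by
      rw [inner_self_eq_norm_sq_to_K, norm_pow]; simp
    simp only [e1] at this
    rcases eq_or_lt_of_le (Finset.sum_nonneg fun i (_ : i ∈ t) => sq_nonneg ‖E (ξ i)‖) with h | h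
    · rw [← h]; positivity
    · rw [sq] at this
      exact le_of_mul_le_mul_right this h
  have hsw : s * w = s := by
    have := congrArg star hws
    rwa [star_mul, hs.isSelfAdjoint.star_eq, hwp.isSelfAdjoint.star_eq] at this
  have hwc : ∀ R : Ptn A, pinch R.c s * w = pinch R.c s := fun R => by
    rw [pinch, Finset.sum_mul]
    refine Finset.sum_congr rfl fun i _ => ?_
    rw [mul_assoc, hA.comm _ (R.isPart.mem i) _ hw, ← mul_assoc, mul_assoc (R.c i) s w, hsw]
  have hEw : E * w = E := by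
    ext u
    refine ext_inner_right ℂ fun v => tendsto_nhds_unique (hlim (w u) v) ((hlim u v).congr fun R => ?_)
    conv_lhs => rw [← hwc R]
    rfl
  have hE0 : E = 0 := by
    rw [← norm_eq_zero]
    refine le_antisymm (le_of_forall_pos_le_add fun c hc => ?_) (norm_nonneg _)
    rw [zero_add]
    obtain ⟨q, hqM, hq, hEq, hqv, hqc, -⟩ := exists_smallProj (hA.le _ hEA) hEsa hc
    have hqA : q ∈ A := hA.mem_of_comm q hqM fun g hg =>
      hqc g (hA.comm _ hg _ hEA).eq (hA.comm _ (star_mem hg) _ hEA).eq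
    have hpA : 1 - q ∈ A := sub_mem (one_mem A) hqA
    have hpf : HSMem ξ (1 - q) := by
      refine Summable.of_nonneg_of_le (fun i => sq_nonneg _) (fun i => ?_)
        (Summable.mul_left ((1 / c) ^ 2) hEf)
      rw [← mul_pow]
      refine pow_le_pow_left₀ (norm_nonneg _) ?_ 2
      rw [one_div_mul_eq_div, le_div_iff₀ hc, mul_comm]
      exact hqv (ξ i)
    have hpw : w * (1 - q) = 0 := by
      rw [(hA.comm _ hw _ hpA).eq]; exact hsing _ hpA hq.one_sub hpf
    have : E = E * q := by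
      have h1 : E * (1 - q) = 0 := by rw [← hEw, mul_assoc, hpw, mul_zero]
      rwa [mul_sub, mul_one, sub_eq_zero] at h1
    rw [this]
    exact hEq
  have hsq : ∀ R : Ptn A, ((‖hv ξ (pinch R.c s)‖ ^ 2 : ℝ) : ℂ) =
      ∑' i, ⟪s (ξ i), pinch R.c s (s (ξ i))⟫_ℂ := by
    intro R
    have hPM := pinch_mem hA R.isPart hsM
    have hPf := hsMem_pinch hA hτ R.isPart hsM hsf
    have hcM : ∀ i, R.c i ∈ M := fun i => hA.le _ (R.isPart.mem i)
    have hca : ∀ i, star (R.c i) = R.c i := fun i => (R.isPart.proj i).isSelfAdjoint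
    have hm : ∀ i, HSMem ξ (R.c i * s * R.c i) := fun i =>
      (hsf.mul_left _).mul_right hτ (mul_mem (hcM i) hsM) (hcM i)
    have hm' : ∀ i, HSMem ξ (R.c i * pinch R.c s * R.c i) := fun i =>
      (hPf.mul_left _).mul_right hτ (mul_mem (hcM i) hPM) (hcM i)
    have e1 : ⟪hv ξ (pinch R.c s), hv ξ (pinch R.c s)⟫_ℂ =
        ⟪hv ξ s, hv ξ (pinch R.c s)⟫_ℂ := by
      calc ⟪hv ξ (pinch R.c s), hv ξ (pinch R.c s)⟫_ℂ
          = ∑ i, ⟪hv ξ (R.c i * s * R.c i), hv ξ (pinch R.c s)⟫_ℂ := by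
            rw [← sum_inner, ← hv_sum _ hm]
            rfl
        _ = ∑ i, ⟪hv ξ s, hv ξ (R.c i * pinch R.c s * R.c i)⟫_ℂ := by
            refine Finset.sum_congr rfl fun i _ => ?_
            rw [inner_hv_mul_right hτ (mul_mem (hcM i) hsM) (hsf.mul_left _) hPM hPf (hcM i),
              inner_hv_mul_left hsf (hPf.mul_right hτ hPM (star_mem (hcM i))), hca, mul_assoc]
        _ = ⟪hv ξ s, hv ξ (pinch R.c s)⟫_ℂ := by
            rw [← inner_sum, ← hv_sum _ hm']
            exact congrArg (fun T => ⟪hv ξ s, hv ξ T⟫_ℂ)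
              (pinch_pinch_of_refines (refines_refl R) hA s)
    have e2 : ⟪hv ξ s, hv ξ (pinch R.c s)⟫_ℂ = ⟪hv ξ s, hv ξ (pinch R.c s * s)⟫_ℂ := by
      have h := inner_hv_mul_right hτ hsM hsf hPM hPf hsM
      rwa [hs.isIdempotentElem.eq, hs.isSelfAdjoint.star_eq] at h
    calc ((‖hv ξ (pinch R.c s)‖ ^ 2 : ℝ) : ℂ)
        = ⟪hv ξ (pinch R.c s), hv ξ (pinch R.c s)⟫_ℂ := by
          rw [inner_self_eq_norm_sq_to_K]; simp
      _ = _ := by
          rw [e1, e2, lp.inner_eq_tsum]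
          refine tsum_congr fun i => ?_
          rw [hv_apply hsf, hv_apply (hPf.mul_right hτ hPM hsM)]
          rfl
  have ht : Tendsto (fun R : Ptn A => ∑' i, ⟪s (ξ i), pinch R.c s (s (ξ i))⟫_ℂ)
      (U : Filter (Ptn A)) (𝓝 (∑' _i : I, (0 : ℂ))) := by
    refine tendsto_tsum_of_dominated_convergence (bound := fun i => ‖s (ξ i)‖ ^ 2) hsf
      (fun i => ?_) (Eventually.of_forall fun R i => ?_)
    · have h := (Complex.continuous_conj.tendsto _).comp (hlim (s (ξ i)) (s (ξ i)))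
      rw [hE0] at h
      simpa [Function.comp_def, inner_conj_symm] using h
    · refine (norm_inner_le_norm _ _).trans ?_
      rw [sq]
      refine mul_le_mul_of_nonneg_left ?_ (norm_nonneg _)
      refine ((pinch R.c s).le_opNorm _).trans (mul_le_of_le_one_left (norm_nonneg _) ?_)
      exact (norm_pinch_le R.isPart s).trans hs.norm_le
  rw [tsum_zero] at ht
  obtain ⟨R, hR⟩ := ((tendsto_zero_iff_norm_tendsto_zero.1 ht).eventually (gt_mem_nhds hη)).exists
  refine ⟨R, ?_⟩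
  rw [← hsq, Complex.norm_real, Real.norm_eq_abs, abs_of_nonneg (sq_nonneg _)] at hR
  exact hR

/-- Refinements of a fine partition still make `s` small. -/
lemma norm_hv_pinch_le_of_refines (hA : MasaIn M A) (hτ : SemifiniteTrace M ξ) {P R : Ptn A}
    (hR : Refines R P) {z : H →L[ℂ] H} (hz : z ∈ M) (hzf : HSMem ξ z) :
    ‖hv ξ (pinch R.c z)‖ ≤ ‖hv ξ (pinch P.c z)‖ := by
  rw [← pinch_pinch_of_refines hR hA]
  exact norm_hv_pinch_le hA hτ R.isPart (pinch_mem hA P.isPart hz)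
    (hsMem_pinch hA hτ P.isPart hz hzf)

/-- An average of pinchings along fine partitions is close to the expectation. -/
lemma exists_average {s : H →L[ℂ] H}
    (hs : IsStarProjection s) (hsf : HSMem ξ s) {y : H →L[ℂ] H} {E : H →L[ℂ] H}
    {U : Ultrafilter (Ptn A)}
    (hlim : ∀ u v, Tendsto (fun R : Ptn A => ⟪pinch R.c y u, v⟫_ℂ) (U : Filter (Ptn A))
      (𝓝 ⟪E u, v⟫_ℂ))
    {P0 : Ptn A} (hU : ∀ᶠ R in (U : Filter (Ptn A)), Refines R P0) {η : ℝ} (hη : 0 < η) :
    ∃ (n : ℕ) (lam : Fin n → ℝ) (Q : Fin n → Ptn A), (∀ k, 0 ≤ lam k) ∧ ∑ k, lam k = 1 ∧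
      (∀ k, Refines (Q k) P0) ∧
      ‖∑ k, lam k • hv ξ (s * pinch (Q k).c y * s) - hv ξ (s * E * s)‖ < η := by
  classical
  let _ : InnerProductSpace ℝ (lp (fun _ : I => H) 2) := InnerProductSpace.rclikeToReal ℂ _
  set g : Ptn A → lp (fun _ : I => H) 2 := fun R => hv ξ (s * pinch R.c y * s)
  set e := hv ξ (s * E * s) with he
  set K := closure (convexHull ℝ (g '' {R | Refines R P0})) with hK
  have hne : K.Nonempty := ⟨g P0, subset_closure (subset_convexHull ℝ _ ⟨P0, refines_refl P0, rfl⟩)⟩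
  have hKc : Convex ℝ K := (convex_convexHull ℝ _).closure
  obtain ⟨v, hvK, hv'⟩ :=
    exists_norm_eq_iInf_of_complete_convex hne isClosed_closure.isComplete hKc e
  have hmin := (norm_eq_iInf_iff_real_inner_le_zero hKc hvK).1 hv'
  have hin : ∀ x, HSMem ξ (s * x * s) := fun x => hsf.mul_left _
  set d := e - v with hd
  have hconv : Tendsto (fun R : Ptn A => ⟪d, g R⟫_ℂ) (U : Filter (Ptn A)) (𝓝 ⟪d, e⟫_ℂ) := by
    have hd2 : Summable fun i => ‖d i‖ ^ 2 := by
      have := (lp.memℓp d).summable (p := 2) (by norm_num)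
      simpa only [ENNReal.toReal_ofNat, Real.rpow_two] using this
    simp only [g, he, lp.inner_eq_tsum, hv_apply (hin _), op_mul_apply]
    refine tendsto_tsum_of_dominated_convergence
      (bound := fun i => (‖d i‖ ^ 2 + ‖y‖ ^ 2 * ‖s (ξ i)‖ ^ 2) / 2)
      ((Summable.add hd2 (Summable.mul_left _ hsf)).div_const 2)
      (fun i => ?_) (Eventually.of_forall fun R i => ?_)
    · have h := (Complex.continuous_conj.tendsto _).comp (hlim (s (ξ i)) (s (d i)))
      simp only [Function.comp_def, inner_conj_symm, sa_inner hs.isSelfAdjoint] at h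
      exact h
    · refine (norm_inner_le_norm _ _).trans ?_
      have h1 : ‖s (pinch R.c y (s (ξ i)))‖ ≤ ‖y‖ * ‖s (ξ i)‖ :=
        (proj_norm_apply_le hs _).trans (((pinch R.c y).le_opNorm _).trans
          (mul_le_mul_of_nonneg_right (norm_pinch_le R.isPart y) (norm_nonneg _)))
      have h2 := mul_le_mul_of_nonneg_left h1 (norm_nonneg (d i))
      nlinarith [sq_nonneg (‖d i‖ - ‖y‖ * ‖s (ξ i)‖)]
  have hle : RCLike.re ⟪d, e - v⟫_ℂ ≤ 0 := by
    have h1 : Tendsto (fun R : Ptn A => RCLike.re ⟪d, g R - v⟫_ℂ) (U : Filter (Ptn A))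
        (𝓝 (RCLike.re ⟪d, e - v⟫_ℂ)) := by
      simp only [inner_sub_right]
      exact (RCLike.continuous_re.tendsto _).comp (hconv.sub tendsto_const_nhds)
    refine le_of_tendsto h1 (hU.mono fun R hR => ?_)
    exact hmin (g R) (subset_closure (subset_convexHull ℝ _ ⟨R, hR, rfl⟩))
  rw [← hd, inner_self_eq_norm_sq] at hle
  have hve : e = v := by
    have : ‖d‖ = 0 := by nlinarith [norm_nonneg d]
    rwa [norm_eq_zero, hd, sub_eq_zero] at this
  obtain ⟨u, huC, hu⟩ := Metric.mem_closure_iff.1 hvK η hη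
  obtain ⟨ι, _, w, z, hw0, hw1, hz, hsum⟩ := mem_convexHull_iff_exists_fintype.1 huC
  choose R hR hRz using hz
  let f := (Fintype.equivFin ι).symm
  refine ⟨_, fun k => w (f k), fun k => R (f k), fun k => hw0 _, ?_, fun k => hR _, ?_⟩
  · rw [Equiv.sum_comp f w]; exact hw1
  · have : ∑ k, w (f k) • g (R (f k)) = u := by
      rw [Equiv.sum_comp f fun i => w i • g (R i)]
      simp only [hRz, hsum]
    show ‖∑ k, w (f k) • g (R (f k)) - e‖ < η
    rw [this, hve, ← dist_eq_norm, dist_comm]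
    exact hu

/-- The pinching along cells `c i * d j` chosen blockwise. -/
lemma exists_blockwise (hA : MasaIn M A) (P : Ptn A) {n : ℕ} (Q : Fin n → Ptn A)
    (k : Fin P.n → Fin n) :
    ∃ R : Ptn A, Refines R P ∧
      ∀ z, pinch R.c z = ∑ b, P.c b * pinch (Q (k b)).c z * P.c b := by
  classical
  let κ := Σ b : Fin P.n, Fin (Q (k b)).n
  let c : κ → (H →L[ℂ] H) := fun p => P.c p.1 * (Q (k p.1)).c p.2
  have hc : IsPart A 1 c :=
    { mem := fun p => mul_mem (P.isPart.mem _) ((Q _).isPart.mem _)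
      proj := fun p => (P.isPart.proj _).mul ((Q _).isPart.proj _)
        (hA.comm _ (P.isPart.mem _) _ ((Q _).isPart.mem _))
      orth := by
        rintro ⟨b, j⟩ ⟨b', j'⟩ h
        show P.c b * (Q (k b)).c j * (P.c b' * (Q (k b')).c j') = 0
        rw [mul_assoc, ← mul_assoc ((Q (k b)).c j),
          hA.comm _ ((Q _).isPart.mem j) _ (P.isPart.mem b'), ← mul_assoc, ← mul_assoc]
        by_cases hb : b = b'
        · subst hb
          have : j ≠ j' := fun hj => h (by rw [hj])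
          rw [mul_assoc _ ((Q (k b)).c j), (Q _).isPart.orth j j' this, mul_zero]
        · rw [P.isPart.orth b b' hb, zero_mul, zero_mul]
      sum_eq := by
        rw [Fintype.sum_sigma]
        simp only [c, ← Finset.mul_sum, (Q _).isPart.sum_eq, mul_one]
        exact P.isPart.sum_eq }
  let f := (Fintype.equivFin κ).symm
  refine ⟨⟨_, _, hc.reindex f⟩, fun i j => ?_, fun z => ?_⟩
  · show P.c j * c (f i) = c (f i) ∨ P.c j * c (f i) = 0
    simp only [c, ← mul_assoc]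
    by_cases h : j = (f i).1
    · left; rw [h, (P.isPart.proj _).isIdempotentElem.eq]
    · right; rw [P.isPart.orth j _ h, zero_mul]
  · show ∑ i, c (f i) * z * c (f i) = _
    rw [Equiv.sum_comp f fun p => c p * z * c p, Fintype.sum_sigma]
    refine Finset.sum_congr rfl fun b _ => ?_
    rw [pinch, Finset.mul_sum, Finset.sum_mul]
    refine Finset.sum_congr rfl fun j _ => ?_
    show P.c b * (Q (k b)).c j * z * (P.c b * (Q (k b)).c j) = _
    rw [hA.comm _ (P.isPart.mem b) _ ((Q (k b)).isPart.mem j)]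
    nth_rewrite 1 [← hA.comm _ (P.isPart.mem b) _ ((Q (k b)).isPart.mem j)]
    simp only [mul_assoc]

/-- Random colourings of fine cells on the part without finite projections. -/
theorem exists_paving_singular (hA : MasaIn M A) (hτ : SemifiniteTrace M ξ)
    {s : H →L[ℂ] H} (hsM : s ∈ M) (hs : IsStarProjection s) (hsf : HSMem ξ s)
    {w : H →L[ℂ] H} (hw : w ∈ A) (hwp : IsStarProjection w) (hws : w * s = s)
    (hsing : ∀ p ∈ A, IsStarProjection p → HSMem ξ p → p * w = 0)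
    {y : H →L[ℂ] H} (hy : y ∈ M) (hys : IsSelfAdjoint y) {r : ℕ} (hr : 0 < r)
    {η : ℝ} (hη : 0 < η) :
    ∃ (p : Fin r → (H →L[ℂ] H)) (a : H →L[ℂ] H), IsPart A 1 p ∧ a ∈ A ∧ IsSelfAdjoint a ∧
      ‖a‖ ≤ ‖y‖ ∧ ‖hv ξ (s * (pinch p y - a - ((r : ℂ))⁻¹ • y) * s)‖ < η := by
  classical
  obtain ⟨U, E, hU, hEA, hEn, hEs, hlim⟩ := InM.exists_limit hA y hy
  set κ : ℝ := η / (4 * (‖y‖ + 1)) with hκ'
  have hκ : 0 < κ := by positivity
  obtain ⟨P, hP⟩ := exists_small_pinch hA hτ hsM hs hsf hw hwp hws hsing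
    (show 0 < κ ^ 2 by positivity)
  have hPs : ‖hv ξ (pinch P.c s)‖ ≤ κ :=
    ((pow_lt_pow_iff_left₀ (norm_nonneg _) hκ.le two_ne_zero).1 hP).le
  obtain ⟨n, lam, Q, h0, h1, hQ, hav⟩ := exists_average hs hsf hlim (hU P)
    (show 0 < η / 4 by positivity)
  have hin : ∀ x, HSMem ξ (s * x * s) := fun x => hsf.mul_left _
  have hcM : ∀ b, P.c b ∈ M := fun b => hA.le _ (P.isPart.mem b)
  have hQM : ∀ j, pinch (Q j).c y ∈ M := fun j => pinch_mem hA (Q j).isPart hy
  set v : Fin P.n → Fin n → lp (fun _ : I => H) 2 :=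
    fun b j => hv ξ (s * (P.c b * pinch (Q j).c y * P.c b) * s) with hvdef
  obtain ⟨k, hk⟩ := exists_choice lam h0 h1 Finset.univ v
  obtain ⟨R, hR, hRp⟩ := exists_blockwise hA P Q k
  have hsum : ∀ j, ∑ b, v b j = hv ξ (s * pinch (Q j).c y * s) := fun j => by
    rw [hvdef, ← hv_sum _ fun b => hin _, ← Finset.sum_mul, ← Finset.mul_sum]
    congr 3
    have hcc : ∀ b, P.c b * pinch (Q j).c y * P.c b = pinch (Q j).c y * P.c b := fun b => by
      have hb : ∀ i, P.c b * (Q j).c i * y * (Q j).c i * P.c b =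
          (Q j).c i * y * (Q j).c i * P.c b := fun i => by
        rcases hQ j i b with h | h
        · rw [h]
        · rw [h, zero_mul, zero_mul, zero_mul]
          rw [mul_assoc _ ((Q j).c i), hA.comm _ ((Q j).isPart.mem i) _ (P.isPart.mem b), h,
            mul_zero]
      rw [pinch, Finset.mul_sum, Finset.sum_mul, Finset.sum_mul]
      refine Finset.sum_congr rfl fun i _ => ?_
      rw [← mul_assoc, ← mul_assoc]
      exact hb i
    rw [Finset.sum_congr rfl fun b _ => hcc b, ← Finset.mul_sum, P.isPart.sum_eq, mul_one]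
  have hR1 : ‖hv ξ (s * pinch R.c y * s) - hv ξ (s * E * s)‖ ≤ ‖y‖ * κ + η / 4 := by
    have e1 : hv ξ (s * pinch R.c y * s) = ∑ b, v b (k b) := by
      rw [hRp, hvdef, ← hv_sum _ fun b => hin _, ← Finset.sum_mul, ← Finset.mul_sum]
    have e2 : ‖∑ b, v b (k b) - ∑ j, lam j • hv ξ (s * pinch (Q j).c y * s)‖ ≤ ‖y‖ * κ := by
      refine (pow_le_pow_iff_left₀ (norm_nonneg _) (by positivity) two_ne_zero).1 ?_
      simp only [← hsum]
      refine hk.trans ?_
      calc ∑ b, ∑ j, lam j * ‖v b j‖ ^ 2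
          ≤ ∑ b, ∑ j, lam j * (‖y‖ * ‖hv ξ (P.c b * s * P.c b)‖) ^ 2 := by
            refine Finset.sum_le_sum fun b _ => Finset.sum_le_sum fun j _ => ?_
            refine mul_le_mul_of_nonneg_left (pow_le_pow_left₀ (norm_nonneg _) ?_ 2) (h0 j)
            rw [hvdef]
            simp only [← mul_assoc]
            refine (norm_hv_block_le hA hτ hsM hs hsf (P.isPart.mem b) (P.isPart.proj b)
              (hQM j)).trans (mul_le_mul_of_nonneg_right (norm_pinch_le (Q j).isPart y)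
              (norm_nonneg _))
        _ = ‖y‖ ^ 2 * ‖hv ξ (pinch P.c s)‖ ^ 2 := by
            simp only [← Finset.sum_mul, h1, one_mul, mul_pow, ← Finset.mul_sum,
              norm_hv_pinch_sq hA hτ P.isPart hsM hsf]
        _ ≤ (‖y‖ * κ) ^ 2 := by
            rw [mul_pow]
            exact mul_le_mul_of_nonneg_left (pow_le_pow_left₀ (norm_nonneg _) hPs 2) (sq_nonneg _)
    rw [e1]
    have := norm_sub_le_norm_sub_add_norm_sub (∑ b, v b (k b))
      (∑ j, lam j • hv ξ (s * pinch (Q j).c y * s)) (hv ξ (s * E * s))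
    linarith
  obtain ⟨f, hf⟩ := second_moment_vec hr
    (fun p : Fin R.n × Fin R.n => hv ξ (s * R.c p.1 * y * R.c p.2 * s))
  have hf' : ‖∑ p, (gap r p f : ℂ) • hv ξ (s * R.c p.1 * y * R.c p.2 * s)‖ ≤ 2 * (‖y‖ * κ) := by
    refine (pow_le_pow_iff_left₀ (norm_nonneg _) (by positivity) two_ne_zero).1 (hf.trans ?_)
    refine le_trans (mul_le_mul_of_nonneg_left (sum_blocks_le hA hτ hsM hs hsf R.isPart hy)
      zero_le_two) ?_
    have h3 := (norm_hv_pinch_le_of_refines hA hτ hR hsM hsf).trans hPs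
    have h4 := pow_le_pow_left₀ (norm_nonneg _) h3 2
    have h5 := mul_le_mul_of_nonneg_left h4 (sq_nonneg ‖y‖)
    nlinarith [sq_nonneg (‖y‖ * κ)]
  have hp := R.isPart.group f
  refine ⟨_, (1 - (r : ℂ)⁻¹) • E, hp, SMulMemClass.smul_mem _ hEA, ?_, ?_, ?_⟩
  · rw [IsSelfAdjoint, star_smul, (hEs hys).star_eq]
    simp
  · have hrr : ‖(1 - (r : ℂ)⁻¹)‖ ≤ 1 := by
      have h1r : (1 : ℝ) ≤ r := by exact_mod_cast hr
      have : ((1 : ℂ) - (r : ℂ)⁻¹) = ((1 - (r : ℝ)⁻¹ : ℝ) : ℂ) := by push_cast; ring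
      rw [this, Complex.norm_real, Real.norm_eq_abs, abs_le]
      have h2 := inv_le_one_of_one_le₀ h1r
      have h3 : 0 ≤ (r : ℝ)⁻¹ := by positivity
      constructor <;> linarith
    rw [norm_smul]
    exact (mul_le_of_le_one_left (norm_nonneg _) hrr).trans hEn
  · have op : pinch (fun i => ∑ j ∈ Finset.univ.filter (fun j => f j = i), R.c j) y
        - (1 - (r : ℂ)⁻¹) • E - (r : ℂ)⁻¹ • y =
        ∑ p : Fin R.n × Fin R.n, (gap r p f : ℂ) • (R.c p.1 * y * R.c p.2) +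
          (1 - (r : ℂ)⁻¹) • (pinch R.c y - E) := by
      have ey : y = ∑ p : Fin R.n × Fin R.n, R.c p.1 * y * R.c p.2 := by
        rw [Fintype.sum_prod_type]
        simp only [← Finset.mul_sum, R.isPart.sum_eq, mul_one, ← Finset.sum_mul, one_mul]
      have eP : pinch R.c y =
          ∑ p : Fin R.n × Fin R.n, if p.1 = p.2 then R.c p.1 * y * R.c p.2 else 0 := by
        rw [pinch, Fintype.sum_prod_type]; simp
      have eS : pinch (fun i => ∑ j ∈ Finset.univ.filter (fun j => f j = i), R.c j) y =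
          ∑ p : Fin R.n × Fin R.n, if f p.1 = f p.2 then R.c p.1 * y * R.c p.2 else 0 := by
        simp only [pinch, Finset.sum_mul, Finset.mul_sum, Finset.sum_filter]
        rw [Fintype.sum_prod_type_right, Finset.sum_comm]
        refine Finset.sum_congr rfl fun i _ => ?_
        rw [Finset.sum_comm]
        refine Finset.sum_congr rfl fun j _ => ?_
        rw [Finset.sum_eq_single (f i)]
        · by_cases h : f i = f j
          · simp [h]
          · simp [Ne.symm h]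
        · intro b _ hb; simp [Ne.symm hb]
        · simp
      rw [smul_sub, eS]
      nth_rewrite 2 [ey]
      rw [eP, Finset.smul_sum, Finset.smul_sum, sub_right_comm, ← Finset.sum_sub_distrib,
        add_sub, ← Finset.sum_add_distrib]
      congr 1
      refine Finset.sum_congr rfl fun p _ => ?_
      by_cases h : p.1 = p.2
      · simp [gap, h]; module
      · by_cases h' : f p.1 = f p.2
        · simp [gap, h, h']; module
        · simp [gap, h, h']
    have hterm : ∀ p : Fin R.n × Fin R.n, s * (R.c p.1 * y * R.c p.2) * s =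
        s * R.c p.1 * y * R.c p.2 * s := fun p => by simp only [mul_assoc]
    rw [op, mul_add, add_mul, hv_add (hin _) (hin _), Finset.mul_sum, Finset.sum_mul,
      hv_sum _ (fun p => hin _)]
    simp only [mul_smul_comm, smul_mul_assoc, hterm]
    simp only [fun p : Fin R.n × Fin R.n => hv_smul (ξ := ξ)
      (hsf.mul_left (s * R.c p.1 * y * R.c p.2)) (gap r p f : ℂ)]
    rw [hv_smul (hin _), mul_sub, sub_mul, hv_sub (hin _) (hin _)]
    refine (norm_add_le _ _).trans_lt ?_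
    rw [norm_smul]
    have hrr : ‖(1 - (r : ℂ)⁻¹)‖ ≤ 1 := by
      have h1r : (1 : ℝ) ≤ r := by exact_mod_cast hr
      have : ((1 : ℂ) - (r : ℂ)⁻¹) = ((1 - (r : ℝ)⁻¹ : ℝ) : ℂ) := by push_cast; ring
      rw [this, Complex.norm_real, Real.norm_eq_abs, abs_le]
      have h2 := inv_le_one_of_one_le₀ h1r
      have h3 : 0 ≤ (r : ℝ)⁻¹ := by positivity
      constructor <;> linarith
    have h6 := mul_le_mul hrr hR1 (norm_nonneg _) zero_le_one
    have h7 : ‖y‖ * κ < η / 4 := by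
      rw [hκ', mul_div_assoc', div_lt_div_iff₀ (by positivity) (by norm_num)]
      nlinarith [norm_nonneg y]
    linarith

end Masa

end Vale.Agent.P078.Tracial
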