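import Vale.Agent.P078.Tracial.SemifiniteCorner
import Vale.Agent.P078.Tracial.SemifiniteSingular

/-! So-paving over every masa of a semifinite von Neumann algebra, from the tracial case. -/

namespace Vale.Agent.P078.Tracial

open scoped InnerProductSpace
open Filter Topology Vale.Agent.P078 Vale.Agent.P078.InM

section Split

variable {H : Type*} [NormedAddCommGroup H] [InnerProductSpace ℂ H] [CompleteSpace H]
variable {M : VonNeumannAlgebra H} {A : StarSubalgebra ℂ (H →L[ℂ] H)}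
variable {I : Type*} {ξ : I → H}

/-- Two operators living on orthogonal projections do not add their norms. -/
lemma norm_add_le_of_orth {p w : H →L[ℂ] H} (hp : IsStarProjection p) (hw : IsStarProjection w)
    (hpw : p * w = 0) {X Y : H →L[ℂ] H} (hX : p * X = X) (hX' : X * p = X) (hY : w * Y = Y)
    (hY' : Y * w = Y) {C : ℝ} (hC : 0 ≤ C) (hXC : ‖X‖ ≤ C) (hYC : ‖Y‖ ≤ C) : ‖X + Y‖ ≤ C := by
  refine ContinuousLinearMap.opNorm_le_bound _ hC fun v => ?_
  have hwp : w * p = 0 := by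
    have := congrArg star hpw
    rwa [star_mul, hp.isSelfAdjoint.star_eq, hw.isSelfAdjoint.star_eq, star_zero] at this
  have horth : ∀ u u', ⟪p u, w u'⟫_ℂ = 0 := fun u u' => by
    rw [sa_inner hp.isSelfAdjoint, ← op_mul_apply, hpw]; simp
  have pyth : ∀ u u', ‖p u + w u'‖ ^ 2 = ‖p u‖ ^ 2 + ‖w u'‖ ^ 2 := fun u u' => by
    have := norm_add_sq_eq_norm_sq_add_norm_sq_of_inner_eq_zero _ _ (horth u u')
    simpa [sq] using this
  have e : (X + Y) v = p (X (p v)) + w (Y (w v)) := by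
    simp only [_root_.add_apply, ← op_mul_apply, hX, hX', hY, hY']
  have h1 : ‖p v‖ ^ 2 + ‖w v‖ ^ 2 ≤ ‖v‖ ^ 2 := by
    have hpw' : IsStarProjection (p + w) := by
      refine ⟨?_, hp.isSelfAdjoint.add hw.isSelfAdjoint⟩
      show (p + w) * (p + w) = p + w
      simp only [add_mul, mul_add, hp.isIdempotentElem.eq, hw.isIdempotentElem.eq, hpw, hwp,
        add_zero, zero_add]
    rw [← pyth]
    exact pow_le_pow_left₀ (norm_nonneg _) (proj_norm_apply_le hpw' v) 2
  refine (pow_le_pow_iff_left₀ (norm_nonneg _) (by positivity) two_ne_zero).1 ?_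
  rw [e, pyth, mul_pow]
  have h2 : ‖p (X (p v))‖ ^ 2 ≤ C ^ 2 * ‖p v‖ ^ 2 := by
    rw [← mul_pow]
    exact pow_le_pow_left₀ (norm_nonneg _) ((proj_norm_apply_le hp _).trans
      ((X.le_opNorm _).trans (mul_le_mul_of_nonneg_right hXC (norm_nonneg _)))) 2
  have h3 : ‖w (Y (w v))‖ ^ 2 ≤ C ^ 2 * ‖w v‖ ^ 2 := by
    rw [← mul_pow]
    exact pow_le_pow_left₀ (norm_nonneg _) ((proj_norm_apply_le hw _).trans
      ((Y.le_opNorm _).trans (mul_le_mul_of_nonneg_right hYC (norm_nonneg _)))) 2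
  nlinarith [sq_nonneg C]

/-- The largest projection of `A` that is a supremum of projections of finite trace. -/
lemma exists_finitePart (hA : MasaIn M A) (F : Finset H) {δ : ℝ}
    (hδ : 0 < δ) :
    ∃ z ∈ A, IsStarProjection z ∧
      (∀ p ∈ A, IsStarProjection p → HSMem ξ p → p * (1 - z) = 0) ∧
      ∃ p ∈ A, IsStarProjection p ∧ HSMem ξ p ∧ z * p = p ∧ ∀ v ∈ F, ‖z v - p v‖ < δ := by
  classical
  let J := {p : H →L[ℂ] H // p ∈ A ∧ IsStarProjection p ∧ HSMem ξ p}
  have hJ : Nonempty J := ⟨⟨0, zero_mem A, IsStarProjection.zero _, hsMem_zero⟩⟩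
  have hdir : ∀ p q : J, ∃ r : J, r.1 * p.1 = p.1 ∧ r.1 * q.1 = q.1 := by
    rintro ⟨p, hpA, hp, hpf⟩ ⟨q, hqA, hq, hqf⟩
    have hc : p * q = q * p := hA.comm _ hpA _ hqA
    refine ⟨⟨p + q - p * q, sub_mem (add_mem hpA hqA) (mul_mem hpA hqA), ⟨?_, ?_⟩,
      (hpf.add hqf).sub (hqf.mul_left p)⟩, ?_, ?_⟩
    · have hq' : ∀ x, q * (q * x) = q * x := fun x => by
        rw [← mul_assoc, hq.isIdempotentElem.eq]
      have hp' : ∀ x, p * (p * x) = p * x := fun x => by
        rw [← mul_assoc, hp.isIdempotentElem.eq]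
      have hc' : ∀ x, q * (p * x) = p * (q * x) := fun x => by
        rw [← mul_assoc, ← hc, mul_assoc]
      show _ * _ = _
      simp only [add_mul, sub_mul, mul_add, mul_sub, mul_assoc, hp', hc', hc.symm,
        hp.isIdempotentElem.eq, hq.isIdempotentElem.eq]
      abel
    · rw [IsSelfAdjoint, star_sub, star_add, star_mul, hp.isSelfAdjoint.star_eq,
        hq.isSelfAdjoint.star_eq, hc]
    · show (p + q - p * q) * p = p
      rw [sub_mul, add_mul, hp.isIdempotentElem.eq, mul_assoc, ← hc, ← mul_assoc,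
        hp.isIdempotentElem.eq]
      abel
    · show (p + q - p * q) * q = q
      rw [sub_mul, add_mul, hq.isIdempotentElem.eq, mul_assoc, hq.isIdempotentElem.eq]
      abel
  have hle : ∀ {p q : H →L[ℂ] H}, q * p = p → fixedSpace p ≤ fixedSpace q := fun {p q} h v hv => by
    rw [mem_fixedSpace] at hv ⊢
    rw [← hv, ← op_mul_apply, h]
  let K₀ : Submodule ℂ H := ⨆ p : J, fixedSpace p.1
  let K : Submodule ℂ H := K₀.topologicalClosure
  have : CompleteSpace K := K₀.isClosed_topologicalClosure.completeSpace_coe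
  have hinv : ∀ g : H →L[ℂ] H, (∀ p : J, g * p.1 = p.1 * g) → ∀ v ∈ K, g v ∈ K := by
    intro g hg
    have h0 : K₀ ≤ K.comap g.toLinearMap := iSup_le fun p v hv => by
      refine K₀.le_topologicalClosure ((le_iSup (fun p : J => fixedSpace p.1) p) ?_)
      rw [mem_fixedSpace] at hv ⊢
      show p.1 (g v) = g v
      rw [← op_mul_apply, ← hg, op_mul_apply, hv]
    exact fun v hv => Submodule.topologicalClosure_minimal _ h0
      (IsClosed.preimage g.continuous K₀.isClosed_topologicalClosure) hv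
  have hzA : K.starProjection ∈ A := InM.starProjection_mem hA K
    (fun g hg => hinv g fun p => (hA.comm _ hg _ p.2.1).eq)
    (fun g hg => hinv g fun p => (comm_commutant (hA.le _ p.2.1) hg).symm.eq.symm)
  have hz : IsStarProjection K.starProjection := isStarProjection_starProjection
  have hzp : ∀ p : J, K.starProjection * p.1 = p.1 := fun p => by
    ext v
    refine Submodule.starProjection_eq_self_iff.2 (K₀.le_topologicalClosure
      ((le_iSup (fun p : J => fixedSpace p.1) p) ?_))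
    rw [mem_fixedSpace]
    exact proj_apply_apply p.2.2.1 v
  refine ⟨_, hzA, hz, fun p hpA hp hpf => ?_, ?_⟩
  · rw [mul_sub, mul_one, (hA.comm _ hpA _ hzA).eq, hzp ⟨p, hpA, hp, hpf⟩, sub_self]
  have mono : ∀ {p r : J} (v : H), r.1 * p.1 = p.1 →
      ‖K.starProjection v - r.1 v‖ ≤ ‖K.starProjection v - p.1 v‖ := by
    intro p r v h
    have hr : r.1 * K.starProjection = r.1 := by rw [(hA.comm _ r.2.1 _ hzA).eq, hzp r]
    have : K.starProjection v - r.1 v = (1 - r.1) (K.starProjection v - p.1 v) := by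
      rw [_root_.sub_apply, one_apply_eq_self, map_sub, ← op_mul_apply r.1, hr,
        ← op_mul_apply r.1, h]
      abel
    rw [this]
    exact proj_norm_apply_le r.2.2.1.one_sub _
  have one : ∀ v : H, ∃ p : J, ‖K.starProjection v - p.1 v‖ < δ := by
    intro v
    obtain ⟨u, hu, hd⟩ := Metric.mem_closure_iff.1
      (show K.starProjection v ∈ closure (K₀ : Set H) from K.starProjection_apply_mem v) δ hδ
    have hdd : Directed (· ≤ ·) fun p : J => fixedSpace p.1 := fun p q => by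
      obtain ⟨r, h1, h2⟩ := hdir p q
      exact ⟨r, hle h1, hle h2⟩
    obtain ⟨p, hp⟩ := (Submodule.mem_iSup_of_directed _ hdd).1 hu
    refine ⟨p, ?_⟩
    have hpz : p.1 * K.starProjection = p.1 := by rw [(hA.comm _ p.2.1 _ hzA).eq, hzp p]
    have : K.starProjection v - p.1 v = (1 - p.1) (K.starProjection v - u) := by
      rw [_root_.sub_apply, one_apply_eq_self, map_sub, ← op_mul_apply p.1, hpz,
        mem_fixedSpace.1 hp]
      abel
    rw [this]
    refine (proj_norm_apply_le p.2.2.1.one_sub _).trans_lt ?_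
    rwa [← dist_eq_norm]
  suffices ∃ p : J, ∀ v ∈ F, ‖K.starProjection v - p.1 v‖ < δ by
    obtain ⟨⟨p, hpA, hp, hpf⟩, h⟩ := this
    exact ⟨p, hpA, hp, hpf, hzp ⟨p, hpA, hp, hpf⟩, h⟩
  induction F using Finset.induction with
  | empty => exact ⟨hJ.some, fun v hv => absurd hv (Finset.notMem_empty v)⟩
  | insert b F _ ih =>
    obtain ⟨p, hp⟩ := ih
    obtain ⟨q, hq⟩ := one b
    obtain ⟨r, h1, h2⟩ := hdir p q
    refine ⟨r, fun v hv => ?_⟩
    rcases Finset.mem_insert.1 hv with rfl | hv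
    · exact (mono v h2).trans_lt hq
    · exact (mono v h1).trans_lt (hp v hv)

/-- The part of the paving on a projection of `A` without finite subprojections. -/
lemma exists_singular_piece (hA : MasaIn M A) (hτ : SemifiniteTrace M ξ)
    {w : H →L[ℂ] H} (hw : w ∈ A) (hwp : IsStarProjection w)
    (hsing : ∀ p ∈ A, IsStarProjection p → HSMem ξ p → p * w = 0)
    {y : H →L[ℂ] H} (hy : y ∈ M) (hys : IsSelfAdjoint y) {r : ℕ} (hr : 0 < r)
    {c : ℝ} (hc : 0 < c) (F : Finset H) {δ : ℝ} (hδ : 0 < δ) :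
    ∃ (p : Fin r → (H →L[ℂ] H)) (a q : H →L[ℂ] H), IsPart A 1 p ∧ a ∈ A ∧ IsSelfAdjoint a ∧
      ‖a‖ ≤ ‖y‖ ∧ q ∈ M ∧ IsStarProjection q ∧ q * w = q ∧ w * q = q ∧
      (∀ v ∈ F, ‖w v - q v‖ < δ) ∧ ‖q * (pinch p y - a) * q‖ ≤ c + (r : ℝ)⁻¹ * ‖y‖ := by
  classical
  set D : ℝ := ∑ v ∈ F, ‖v‖ with hD'
  have hD : 0 ≤ D := Finset.sum_nonneg fun v _ => norm_nonneg v
  have hvD : ∀ v ∈ F, ‖v‖ ≤ D := fun v hv =>
    Finset.single_le_sum (f := fun v => ‖v‖) (fun i _ => norm_nonneg i) hv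
  set c₀ : ℝ := δ / (4 * (D + 1)) with hc₀'
  have hc₀ : 0 < c₀ := by positivity
  obtain ⟨e, heM, he, hef, heF⟩ := hτ.semifinite (F.image w) (δ / 4) (by positivity)
  have hwM := hA.le _ hw
  set m := w * e * w with hm
  have hmM : m ∈ M := mul_mem (mul_mem hwM heM) hwM
  have hms : IsSelfAdjoint m := by
    rw [hm, IsSelfAdjoint, star_mul, star_mul, hwp.isSelfAdjoint.star_eq, he.isSelfAdjoint.star_eq,
      mul_assoc]
  have hmf : HSMem ξ m := (hef.mul_left w).mul_right hτ (mul_mem hwM heM) hwM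
  obtain ⟨t, htM, ht, hmt, htv, htc, ht0⟩ := exists_smallProj hmM hms hc₀
  have hs : IsStarProjection (1 - t) := ht.one_sub
  have hsM : 1 - t ∈ M := sub_mem (one_mem M) htM
  have hsf : HSMem ξ (1 - t) := by
    refine Summable.of_nonneg_of_le (fun i => sq_nonneg _) (fun i => ?_)
      (Summable.mul_left ((1 / c₀) ^ 2) hmf)
    rw [← mul_pow]
    refine pow_le_pow_left₀ (norm_nonneg _) ?_ 2
    rw [one_div_mul_eq_div, le_div_iff₀ hc₀, mul_comm]
    exact htv (ξ i)
  have hsw : (1 - t) * w = 1 - t := by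
    ext v
    have hmw : m (v - w v) = 0 := by
      rw [map_sub, hm, ← op_mul_apply _ w, mul_assoc _ w w, hwp.isIdempotentElem.eq, sub_self]
    have h1 := ht0 _ hmw
    rw [map_sub] at h1
    simp only [op_mul_apply, _root_.sub_apply, one_apply_eq_self]
    rw [sub_eq_sub_iff_sub_eq_sub]
    rw [← neg_inj]
    simpa using h1.symm
  have hws : w * (1 - t) = 1 - t := by
    have := congrArg star hsw
    rwa [star_mul, hs.isSelfAdjoint.star_eq, hwp.isSelfAdjoint.star_eq] at this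
  set s := 1 - t with hs'
  have hsF : ∀ v ∈ F, ‖w v - s v‖ ≤ δ / 2 := by
    intro v hv
    set u := w v
    have h1 : s v = s u := by rw [← op_mul_apply, hsw]
    have h2 : u - s u = t u := by
      rw [hs', _root_.sub_apply, one_apply_eq_self, sub_sub_cancel]
    rw [h1, h2]
    have h3 : ‖t (m u)‖ ≤ c₀ * ‖u‖ := by
      have htm : t * m = m * t := (htc m rfl (by rw [hms.star_eq])).symm
      rw [← op_mul_apply, htm]
      exact ((m * t).le_opNorm _).trans (mul_le_mul_of_nonneg_right hmt (norm_nonneg _))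
    have h4 : u - m u = w (u - e u) := by
      have hwu : w u = u := proj_apply_apply hwp v
      rw [map_sub, hm, op_mul_apply, op_mul_apply, hwu]
    have h5 : ‖t (u - m u)‖ ≤ δ / 4 := by
      refine (proj_norm_apply_le ht _).trans ?_
      rw [h4]
      exact (proj_norm_apply_le hwp _).trans (heF u (Finset.mem_image_of_mem _ hv)).le
    have h6 : c₀ * ‖u‖ ≤ δ / 4 := by
      have hu : ‖u‖ ≤ D := (proj_norm_apply_le hwp v).trans (hvD v hv)
      rw [hc₀', div_mul_eq_mul_div, div_le_div_iff₀ (by positivity) (by norm_num)]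
      nlinarith
    calc ‖t u‖ = ‖t (m u) + t (u - m u)‖ := by rw [← map_add, add_sub_cancel]
      _ ≤ _ := (norm_add_le _ _).trans (by linarith)
  obtain ⟨η, hη, hηF⟩ := exists_small_weight hτ (F.image s) (show 0 < δ / 4 by positivity)
  obtain ⟨p, a, hp, haA, has, han, hsmall⟩ := exists_paving_singular hA hτ hsM hs hsf hw hwp
    hws hsing hy hys hr (show 0 < c * Real.sqrt η by positivity)
  set Z := pinch p y - a - ((r : ℂ))⁻¹ • y with hZ
  set z₀ := s * Z * s with hz₀
  have hpM := pinch_mem hA hp hy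
  have hZM : Z ∈ M := sub_mem (sub_mem hpM (hA.le _ haA))
    (SMulMemClass.smul_mem (s := M.toStarSubalgebra) _ hy)
  have hz₀M : z₀ ∈ M := mul_mem (mul_mem hsM hZM) hsM
  have hz₀f : HSMem ξ z₀ := hsf.mul_left _
  have hz₀s : IsSelfAdjoint z₀ := by
    have hZs : IsSelfAdjoint Z := by
      refine ((pinch_selfAdjoint hp hys).sub has).sub ?_
      rw [IsSelfAdjoint, star_smul, hys.star_eq]
      simp
    rw [hz₀, IsSelfAdjoint, star_mul, star_mul, hs.isSelfAdjoint.star_eq, hZs.star_eq, mul_assoc]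
  obtain ⟨q, hqM, hq, hzq, hqv, hqc, -⟩ := exists_smallProj hz₀M hz₀s hc
  have hqs : q * s = s * q := by
    refine (hqc s ?_ ?_).symm
    · rw [hz₀, ← mul_assoc, ← mul_assoc, hs.isIdempotentElem.eq, mul_assoc _ s s,
        hs.isIdempotentElem.eq]
    · rw [hs.isSelfAdjoint.star_eq, hz₀, ← mul_assoc, ← mul_assoc, hs.isIdempotentElem.eq,
        mul_assoc _ s s, hs.isIdempotentElem.eq]
  have hQ : IsStarProjection (q * s) := hq.mul hs hqs
  refine ⟨p, a, q * s, hp, haA, has, han, mul_mem hqM hsM, hQ, by rw [mul_assoc, hsw],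
    by rw [hqs, ← mul_assoc, hws], fun v hvF => ?_, ?_⟩
  · have hf : HSMem ξ (1 - q) := by
      refine Summable.of_nonneg_of_le (fun i => sq_nonneg _) (fun i => ?_)
        (Summable.mul_left ((1 / c) ^ 2) hz₀f)
      rw [← mul_pow]
      refine pow_le_pow_left₀ (norm_nonneg _) ?_ 2
      rw [one_div_mul_eq_div, le_div_iff₀ hc, mul_comm]
      exact hqv (ξ i)
    have hle : c ^ 2 * ‖hv ξ (1 - q)‖ ^ 2 ≤ ‖hv ξ z₀‖ ^ 2 := by
      rw [norm_hv_sq hf, norm_hv_sq hz₀f, ← tsum_mul_left]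
      refine Summable.tsum_le_tsum (fun i => ?_) (Summable.mul_left _ hf) hz₀f
      rw [← mul_pow]
      exact pow_le_pow_left₀ (by positivity) (hqv (ξ i)) 2
    have hlt : ‖hv ξ (1 - q)‖ ^ 2 ≤ η := by
      have h1 := pow_le_pow_left₀ (norm_nonneg _) hsmall.le 2
      rw [mul_pow, Real.sq_sqrt hη.le] at h1
      exact le_of_mul_le_mul_left (hle.trans h1) (by positivity)
    have h1 := hηF (1 - q) (sub_mem (one_mem M) hqM) hq.one_sub hf hlt (s v)
      (Finset.mem_image_of_mem _ hvF)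
    have h2 : w v - (q * s) v = (w v - s v) + (1 - q) (s v) := by
      show w v - q (s v) = (w v - s v) + (s v - q (s v))
      abel
    rw [h2]
    refine (norm_add_le _ _).trans_lt ?_
    linarith [hsF v hvF]
  · have e : q * s * (pinch p y - a) * (q * s) =
        q * z₀ * q + ((r : ℂ))⁻¹ • (q * s * y * (q * s)) := by
      nth_rewrite 2 [hqs]
      simp only [hz₀, hZ, mul_sub, sub_mul, mul_smul_comm, smul_mul_assoc, mul_assoc]
      rw [← hqs]
      abel
    rw [e]
    refine (norm_add_le _ _).trans (add_le_add ?_ ?_)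
    · rw [mul_assoc]
      exact ((norm_mul_le _ _).trans (mul_le_of_le_one_left (norm_nonneg _) hq.norm_le)).trans hzq
    · rw [norm_smul, norm_inv, Complex.norm_natCast]
      refine mul_le_mul_of_nonneg_left ?_ (by positivity)
      exact ((norm_mul_le _ _).trans (mul_le_of_le_one_right (norm_nonneg _) hQ.norm_le)).trans
        ((norm_mul_le _ _).trans (mul_le_of_le_one_left (norm_nonneg _) hQ.norm_le))

end Split

/-- So-paving over every masa of a semifinite von Neumann algebra, from the abstract paving. -/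
theorem soPavableIn_of_paving_semifinite {H : Type} [NormedAddCommGroup H] [InnerProductSpace ℂ H]
    [CompleteSpace H] (M : VonNeumannAlgebra H) (A : StarSubalgebra ℂ (H →L[ℂ] H))
    (hAM : ∀ a ∈ A, a ∈ M)
    (hmasa : ∀ x ∈ M, (∀ a ∈ A, a * x = x * a) → x ∈ A)
    (hcomm : ∀ a ∈ A, ∀ b ∈ A, a * b = b * a)
    {I : Type*} {ξ : I → H} (hτ : SemifiniteTrace M ξ) {ε : ℝ} (hε : 0 < ε) {N : ℕ}
    (hpav : PavingConclusion.{0, 0} (ε / 2) N) {x : H →L[ℂ] H} (hx : x ∈ M)
    (hxs : IsSelfAdjoint x) : SoPavableIn M A x ε (N + (⌊1 / ε⌋₊ + 1)) := by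
  classical
  set r := ⌊1 / ε⌋₊ + 1 with hr'
  have hr : 0 < r := Nat.succ_pos _
  have hA : MasaIn M A := ⟨hAM, hcomm, hmasa⟩
  intro F δ hδ
  let j₀ : Fin r := ⟨0, hr⟩
  rcases eq_or_ne x 0 with hx0 | hx0
  · refine ⟨fun i => if i = Fin.natAdd N j₀ then 1 else 0, 0, 1, fun i => ?_, fun i j hij => ?_,
      by simp, zero_mem A, IsSelfAdjoint.zero _, by simp, one_mem M, IsStarProjection.one _,
      fun v _ => by simpa using hδ, by simp [hx0]⟩
    · by_cases h : i = Fin.natAdd N j₀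
      · simp only [if_pos h]; exact ⟨one_mem A, IsStarProjection.one _⟩
      · simp only [if_neg h]; exact ⟨zero_mem A, IsStarProjection.zero _⟩
    · by_cases h : i = Fin.natAdd N j₀
      · simp [if_neg (fun hj : j = Fin.natAdd N j₀ => hij (h.trans hj.symm))]
      · simp [if_neg h]
  have hxn : 0 < ‖x‖ := norm_pos_iff.2 hx0
  have hrε : (r : ℝ)⁻¹ < ε := by
    rw [inv_lt_comm₀ (by exact_mod_cast hr) hε, inv_eq_one_div, hr']
    push_cast
    exact Nat.lt_floor_add_one _
  obtain ⟨z, hzA, hz, hzmax, p₀, hp₀A, hp₀, hp₀f, hzp₀, hzF⟩ :=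
    exists_finitePart hA F (show 0 < δ / 3 by positivity)
  set w := 1 - z with hw'
  have hwA : w ∈ A := sub_mem (one_mem A) hzA
  have hw : IsStarProjection w := hz.one_sub
  have hp₀w : p₀ * w = 0 := hzmax p₀ hp₀A hp₀ hp₀f
  have hwp₀ : w * p₀ = 0 := by rw [hcomm _ hwA _ hp₀A]; exact hp₀w
  -- the finite corner
  obtain ⟨P, a₀, q₀, hP, ha₀, ha₀s, ha₀n, ha₀r, ha₀l, hq₀M, hq₀, hq₀r, hq₀l, hq₀F, hq₀b⟩ :
      ∃ (P : Fin N → (H →L[ℂ] H)) (a q : H →L[ℂ] H),
        IsPart A p₀ P ∧ a ∈ A ∧ IsSelfAdjoint a ∧ ‖a‖ ≤ ‖x‖ ∧ a * p₀ = a ∧ p₀ * a = a ∧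
        q ∈ M ∧ IsStarProjection q ∧ q * p₀ = q ∧ p₀ * q = q ∧ (∀ v ∈ F, ‖p₀ v - q v‖ < δ / 3) ∧
        ‖q * (pinch P x - a) * q‖ ≤ ε * ‖x‖ := by
    rcases eq_or_ne p₀ 0 with h0 | h0
    · subst h0
      refine ⟨fun _ => 0, 0, 0, ⟨fun _ => zero_mem A, fun _ => IsStarProjection.zero _,
        fun _ _ _ => by simp, by simp⟩, zero_mem A, IsSelfAdjoint.zero _, by simp, by simp,
        by simp, zero_mem M, IsStarProjection.zero _, by simp, by simp,
        fun v _ => by simp; positivity, by simp; positivity⟩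
    · exact exists_paving_corner hA hτ hp₀A hp₀ hp₀f h0 hε hpav hx hxs F (by positivity)
  -- the singular part
  obtain ⟨p₁, a₁, q₁, hp₁, ha₁, ha₁s, ha₁n, hq₁M, hq₁, hq₁r, hq₁l, hq₁F, hq₁b⟩ :=
    exists_singular_piece hA hτ hwA hw (fun p hpA hp hpf => hzmax p hpA hp hpf) hx hxs hr
      (show 0 < (ε - (r : ℝ)⁻¹) * ‖x‖ by
        exact mul_pos (by linarith) hxn) F (show 0 < δ / 3 by positivity)
  have hzw : z * w = 0 := by rw [hw', mul_sub, mul_one, hz.isIdempotentElem.eq, sub_self]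
  have hwz : w * z = 0 := by rw [hcomm _ hwA _ hzA]; exact hzw
  have hp₀z : p₀ * z = p₀ := by rw [hcomm _ hp₀A _ hzA]; exact hzp₀
  set e := z - p₀ with he'
  let S : Fin r → (H →L[ℂ] H) := fun j => p₁ j * w + if j = j₀ then e else 0
  have heA : e ∈ A := sub_mem hzA hp₀A
  have hee : IsStarProjection e := by
    refine ⟨?_, hz.isSelfAdjoint.sub hp₀.isSelfAdjoint⟩
    show e * e = e
    rw [he', sub_mul, mul_sub, mul_sub, hz.isIdempotentElem.eq, hp₀.isIdempotentElem.eq, hzp₀,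
      hp₀z]
    abel
  have hew : e * w = 0 := by rw [he', sub_mul, hzw, hp₀w, sub_zero]
  have hwe : w * e = 0 := by rw [he', mul_sub, hwz, hwp₀, sub_zero]
  have hep₀ : e * p₀ = 0 := by rw [he', sub_mul, hzp₀, hp₀.isIdempotentElem.eq, sub_self]
  have hp₁w : ∀ j, IsStarProjection (p₁ j * w) := fun j =>
    (hp₁.proj j).mul hw (hA.comm _ (hp₁.mem j) _ hwA)
  have hSA : ∀ j, S j ∈ A := fun j => by
    refine add_mem (mul_mem (hp₁.mem j) hwA) ?_
    split_ifs
    exacts [heA, zero_mem A]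
  have hSp₀ : ∀ j, S j * p₀ = 0 := fun j => by
    show (p₁ j * w + _) * p₀ = 0
    rw [add_mul, mul_assoc, hwp₀, mul_zero, zero_add]
    split_ifs
    exacts [hep₀, zero_mul _]
  have hSw : ∀ j, S j * w = p₁ j * w := fun j => by
    show (p₁ j * w + _) * w = _
    rw [add_mul, mul_assoc, hw.isIdempotentElem.eq]
    split_ifs
    · rw [hew, add_zero]
    · rw [zero_mul, add_zero]
  have hcross : ∀ i j, P i * S j = 0 := fun i j => by
    have h1 : P i = P i * p₀ := by
      rw [← hP.sum_eq, Finset.mul_sum, Finset.sum_eq_single i]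
      · exact (hP.proj i).isIdempotentElem.eq.symm
      · intro k _ hk; exact hP.orth i k (Ne.symm hk)
      · simp
    rw [h1, mul_assoc, hcomm _ hp₀A _ (hSA j), hSp₀, mul_zero]
  have hcross' : ∀ i j, S j * P i = 0 := fun i j => by
    rw [hcomm _ (hSA j) _ (hP.mem i)]; exact hcross i j
  have hmul : ∀ j k, p₁ j * w * (p₁ k * w) = p₁ j * p₁ k * w := fun j k => by
    rw [mul_assoc, ← mul_assoc w, hcomm _ hwA _ (hp₁.mem k), mul_assoc (p₁ k),
      hw.isIdempotentElem.eq, ← mul_assoc]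
  have hSproj : ∀ j, IsStarProjection (S j) := fun j => by
    refine ⟨?_, (hp₁w j).isSelfAdjoint.add ?_⟩
    · show (p₁ j * w + _) * (p₁ j * w + _) = p₁ j * w + _
      split_ifs
      · rw [add_mul, mul_add, mul_add, (hp₁w j).isIdempotentElem.eq, mul_assoc, hwe, mul_zero,
          add_zero, ← mul_assoc, hcomm _ heA _ (hp₁.mem j), mul_assoc, hew, mul_zero,
          hee.isIdempotentElem.eq, zero_add]
      · simp [(hp₁w j).isIdempotentElem.eq]
    · split_ifs
      exacts [hee.isSelfAdjoint, IsSelfAdjoint.zero _]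
  have hSorth : ∀ j k, j ≠ k → S j * S k = 0 := fun j k hjk => by
    show (p₁ j * w + _) * (p₁ k * w + _) = 0
    rw [add_mul, mul_add, mul_add, hmul, hp₁.orth j k hjk, zero_mul, zero_add]
    have hje : p₁ j * w * e = 0 := by rw [mul_assoc, hwe, mul_zero]
    have hek : e * (p₁ k * w) = 0 := by
      rw [← mul_assoc, hcomm _ heA _ (hp₁.mem k), mul_assoc, hew, mul_zero]
    by_cases h1 : j = j₀
    · rw [if_pos h1, if_neg (fun h2 => hjk (h1.trans h2.symm))]
      simp [hek]
    · rw [if_neg h1]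
      split_ifs <;> simp [hje]
  let T : Fin (N + r) → (H →L[ℂ] H) := Fin.append P S
  have hTsum : ∑ i, T i = 1 := by
    simp only [T, Fin.sum_univ_add, Fin.append_left, Fin.append_right]
    simp only [S, Finset.sum_add_distrib, ← Finset.sum_mul, hp₁.sum_eq, one_mul, hP.sum_eq,
      Finset.sum_ite_eq', Finset.mem_univ, if_true]
    rw [hw', he']
    abel

  set Q := q₀ + q₁ with hQ'
  have hq01 : q₀ * q₁ = 0 := by
    rw [← hq₀r, ← hq₁l, mul_assoc, ← mul_assoc p₀, hp₀w, zero_mul, mul_zero]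
  have hq10 : q₁ * q₀ = 0 := by
    rw [← hq₀l, ← hq₁r, mul_assoc, ← mul_assoc w, hwp₀, zero_mul, mul_zero]
  set a := a₀ + a₁ * w with ha'
  have hQw : q₀ * w = 0 := by rw [← hq₀r, mul_assoc, hp₀w, mul_zero]
  have hwQ : w * q₀ = 0 := by rw [← hq₀l, ← mul_assoc, hwp₀, zero_mul]
  have hQp : q₁ * p₀ = 0 := by rw [← hq₁r, mul_assoc, hwp₀, mul_zero]
  have hpQ : p₀ * q₁ = 0 := by rw [← hq₁l, ← mul_assoc, hp₀w, zero_mul]
  refine ⟨T, a, Q, fun i => ?_, fun i k hik => ?_, hTsum,
    add_mem ha₀ (mul_mem ha₁ hwA), ?_, ?_, add_mem hq₀M hq₁M, ?_, fun v hv => ?_, ?_⟩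
  · induction i using Fin.addCases with
    | left i => simp only [T, Fin.append_left]; exact ⟨hP.mem i, hP.proj i⟩
    | right i => simp only [T, Fin.append_right]; exact ⟨hSA i, hSproj i⟩
  · induction i using Fin.addCases with
    | left i =>
      induction k using Fin.addCases with
      | left k => simp only [T, Fin.append_left]; exact hP.orth i k (fun h => hik (by rw [h]))
      | right k => simp only [T, Fin.append_left, Fin.append_right]; exact hcross i k
    | right i =>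
      induction k using Fin.addCases with
      | left k => simp only [T, Fin.append_left, Fin.append_right]; exact hcross' k i
      | right k => simp only [T, Fin.append_right]; exact hSorth i k (fun h => hik (by rw [h]))
  · refine ha₀s.add ?_
    rw [IsSelfAdjoint, star_mul, hw.isSelfAdjoint.star_eq, ha₁s.star_eq]
    exact hcomm _ hwA _ ha₁
  · refine norm_add_le_of_orth hp₀ hw hp₀w ha₀l ha₀r ?_ ?_ hxn.le ha₀n
      (((norm_mul_le _ _).trans (mul_le_of_le_one_right (norm_nonneg _) hw.norm_le)).trans ha₁n)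
    · rw [← mul_assoc, hcomm _ hwA _ ha₁, mul_assoc, hw.isIdempotentElem.eq]
    · rw [mul_assoc, hw.isIdempotentElem.eq]
  · refine ⟨?_, hq₀.isSelfAdjoint.add hq₁.isSelfAdjoint⟩
    show Q * Q = Q
    rw [hQ', add_mul, mul_add, mul_add, hq₀.isIdempotentElem.eq, hq₁.isIdempotentElem.eq, hq01,
      hq10, add_zero, zero_add]
  · have e1 : v - Q v = (z v - p₀ v) + (p₀ v - q₀ v) + (w v - q₁ v) := by
      rw [hQ', hw', _root_.add_apply, _root_.sub_apply, one_apply_eq_self]
      abel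
    rw [e1]
    refine (norm_add_le _ _).trans_lt ?_
    linarith [norm_add_le (z v - p₀ v) (p₀ v - q₀ v), hzF v hv, hq₀F v hv, hq₁F v hv]
  · clear_value Q a
    have hx1 : ∀ i, q₀ * S i = 0 := fun i => by
      rw [← hq₀r, mul_assoc, hcomm _ hp₀A _ (hSA i), hSp₀, mul_zero]
    have hx1' : ∀ i, S i * q₀ = 0 := fun i => by rw [← hq₀l, ← mul_assoc, hSp₀, zero_mul]
    have hx2 : ∀ i, q₁ * P i = 0 := fun i => by
      have h1 : P i = P i * p₀ := by
        rw [← hP.sum_eq, Finset.mul_sum, Finset.sum_eq_single i]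
        · exact (hP.proj i).isIdempotentElem.eq.symm
        · intro k _ hk; exact hP.orth i k (Ne.symm hk)
        · simp
      rw [h1, ← hcomm _ hp₀A _ (hP.mem i), ← mul_assoc, hQp, zero_mul]
    have hx2' : ∀ i, P i * q₁ = 0 := fun i => by
      have := congrArg star (hx2 i)
      rwa [star_mul, (hP.proj i).isSelfAdjoint.star_eq, hq₁.isSelfAdjoint.star_eq, star_zero]
        at this
    have hx3 : ∀ i, q₁ * S i = q₁ * p₁ i := fun i => by
      conv_lhs => rw [← hq₁r, mul_assoc, hcomm _ hwA _ (hSA i), hSw, hcomm _ (hp₁.mem i) _ hwA,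
        ← mul_assoc, hq₁r]
    have hx3' : ∀ i, S i * q₁ = p₁ i * q₁ := fun i => by
      conv_lhs => rw [← hq₁l, ← mul_assoc, hSw, mul_assoc, hq₁l]
    have hQl : ∀ i, Q * P i = q₀ * P i := fun i => by rw [hQ', add_mul, hx2, add_zero]
    have hQr : ∀ i, P i * Q = P i * q₀ := fun i => by rw [hQ', mul_add, hx2', add_zero]
    have hQl' : ∀ i, Q * S i = q₁ * p₁ i := fun i => by rw [hQ', add_mul, hx1, zero_add, hx3]
    have hQr' : ∀ i, S i * Q = p₁ i * q₁ := fun i => by rw [hQ', mul_add, hx1', zero_add, hx3']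
    have hQa : Q * a * Q = q₀ * a₀ * q₀ + q₁ * a₁ * q₁ := by
      have h1 : Q * a₀ = q₀ * a₀ := by
        rw [hQ', add_mul]
        nth_rewrite 2 [← ha₀l]
        rw [← mul_assoc, hQp, zero_mul, add_zero]
      have h2 : a₀ * Q = a₀ * q₀ := by
        rw [hQ', mul_add]
        nth_rewrite 2 [← ha₀r]
        rw [mul_assoc, hpQ, mul_zero, add_zero]
      have h3 : Q * (a₁ * w) = q₁ * (a₁ * w) := by
        rw [hQ', add_mul, ← hcomm _ hwA _ ha₁, ← mul_assoc, hQw, zero_mul, zero_add]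
      have h4 : a₁ * w * Q = a₁ * q₁ := by
        rw [hQ', mul_add, mul_assoc, hwQ, mul_zero, zero_add, mul_assoc, hq₁l]
      rw [ha', mul_add, add_mul, h1, h3, mul_assoc q₀, h2, ← mul_assoc, mul_assoc q₁, h4,
        ← mul_assoc]
    have hsplit : Q * ((∑ i, T i * x * T i) - a) * Q =
        q₀ * (pinch P x - a₀) * q₀ + q₁ * (pinch p₁ x - a₁) * q₁ := by
      rw [mul_sub, sub_mul, hQa, mul_sub, sub_mul, mul_sub, sub_mul]
      simp only [T, Fin.sum_univ_add, Fin.append_left, Fin.append_right, mul_add, add_mul,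
        Finset.mul_sum, Finset.sum_mul, pinch]
      have eP : ∀ i, Q * (P i * x * P i) * Q = q₀ * (P i * x * P i) * q₀ := fun i => by
        rw [← mul_assoc, ← mul_assoc, hQl, mul_assoc _ (P i) Q, hQr]
        simp only [mul_assoc]
      have eS : ∀ i, Q * (S i * x * S i) * Q = q₁ * (p₁ i * x * p₁ i) * q₁ := fun i => by
        rw [← mul_assoc, ← mul_assoc, hQl', mul_assoc _ (S i) Q, hQr']
        simp only [mul_assoc]
      simp only [eP, eS]
      abel
    rw [hsplit]
    refine norm_add_le_of_orth hp₀ hw hp₀w ?_ ?_ ?_ ?_ (by positivity) hq₀b (hq₁b.trans ?_)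
    · rw [← mul_assoc, ← mul_assoc, hq₀l]
    · rw [mul_assoc, hq₀r]
    · rw [← mul_assoc, ← mul_assoc, hq₁l]
    · rw [mul_assoc, hq₁r]
    · rw [← add_mul]
      apply le_of_eq
      ring

end Vale.Agent.P078.Tracial
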