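import Mathlib

/-! Signs making a quadratic form at most the sum of its values. -/

namespace Vale.Agent.P078.Tracial

theorem exists_signs {ι V : Type*} [AddCommGroup V] [Module ℝ V] (q : V → ℝ)
    (hq : ∀ x y, q (x + y) + q (x - y) = 2 * q x + 2 * q y) (e : ι → V) (s : Finset ι) :
    ∃ σ : ι → ℝ, (∀ i, σ i = 1 ∨ σ i = -1) ∧ q (∑ i ∈ s, σ i • e i) ≤ ∑ i ∈ s, q (e i) := by
  classical
  induction s using Finset.induction_on with
  | empty =>
    refine ⟨fun _ => 1, fun _ => Or.inl rfl, ?_⟩
    have := hq 0 0
    simp at this ⊢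
    linarith
  | insert a s ha ih =>
    obtain ⟨σ, hσ, hle⟩ := ih
    set S := ∑ i ∈ s, σ i • e i
    have h := hq S (e a)
    have key : ∀ c : ℝ, (c = 1 ∨ c = -1) → q (S + c • e a) ≤ q S + q (e a) →
        ∃ σ' : ι → ℝ, (∀ i, σ' i = 1 ∨ σ' i = -1) ∧
          q (∑ i ∈ insert a s, σ' i • e i) ≤ ∑ i ∈ insert a s, q (e i) := by
      intro c hc hcle
      refine ⟨Function.update σ a c, fun i => ?_, ?_⟩
      · by_cases hi : i = a
        · subst hi; simpa using hc
        · simpa [Function.update_of_ne hi] using hσ i
      · rw [Finset.sum_insert ha, Finset.sum_insert ha, Function.update_self,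
          show ∑ i ∈ s, Function.update σ a c i • e i = S from
            Finset.sum_congr rfl fun i hi => by
              rw [Function.update_of_ne (fun h' => ha (by rw [← h']; exact hi))]]
        rw [add_comm (c • e a)]
        linarith
    rcases le_total (q (S + e a)) (q S + q (e a)) with h1 | h1
    · exact key 1 (Or.inl rfl) (by simpa using h1)
    · exact key (-1) (Or.inr rfl) (by simpa [← sub_eq_add_neg] using (by linarith : q (S - e a) ≤ q S + q (e a)))

end Vale.Agent.P078.Tracial
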