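import Vale.Agent.P078.Tracial.SemifiniteMain

/-! Short names for the final statement. -/

namespace Vale.Agent.P078.Tracial

variable {H : Type} [NormedAddCommGroup H] [InnerProductSpace ℂ H] [CompleteSpace H]

/-- `A` lies in `M`. -/
def SubalgebraOf (M : VonNeumannAlgebra H) (A : StarSubalgebra ℂ (H →L[ℂ] H)) : Prop :=
  ∀ a ∈ A, a ∈ M

/-- `A` is abelian. -/
def IsAbelianAlg (A : StarSubalgebra ℂ (H →L[ℂ] H)) : Prop :=
  ∀ a ∈ A, ∀ b ∈ A, a * b = b * a

/-- `A` contains its relative commutant in `M`. -/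
def ContainsRelCommutant (M : VonNeumannAlgebra H) (A : StarSubalgebra ℂ (H →L[ℂ] H)) : Prop :=
  ∀ x ∈ M, (∀ a ∈ A, a * x = x * a) → x ∈ A

/-- Every self-adjoint element of `M` is so-pavable over `A` with `n` pieces. -/
def AllSoPavableIn (M : VonNeumannAlgebra H) (A : StarSubalgebra ℂ (H →L[ℂ] H)) (ε : ℝ)
    (n : ℕ) : Prop :=
  ∀ x ∈ M, IsSelfAdjoint x → SoPavableIn M A x ε n

end Vale.Agent.P078.Tracial
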