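import Vale.Agent.P078.Tracial.StepDefs

/-! Bounds on the quantities of one colour. -/

namespace Vale.Agent.P078.Tracial

set_option linter.unusedSectionVars false

open Filter Topology ComplexOrder Scalar

variable {M X : Type*} [CStarAlgebra M] [PartialOrder M] [StarOrderedRing M]
variable [TopologicalSpace X] [CompactSpace X] [T2Space X] [TotallyDisconnectedSpace X]

namespace Scalar

variable {b γ R : ℝ}

theorem sqrt_arg_le (hb : b ≤ 41 / 1000) (hR : 1 ≤ R) (hγ0 : 0 ≤ γ) (hγ : γ ≤ R) :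
    √(arg b γ) ≤ 10 * R := by
  refine Real.sqrt_le_iff.2 ⟨by linarith, ?_⟩
  unfold arg c0 α
  rw [div_div_eq_mul_div, div_one]
  nlinarith

theorem inv_φb_le (hb0 : -b1 ≤ b) (hb : b ≤ 41 / 1000) (hR : 1 ≤ R) (hγ0 : 0 ≤ γ)
    (hγ : γ ≤ R) : (φb b γ)⁻¹ ≤ 2 * R ^ 3 := by
  have hs := sqrt_half_pos (half_le_arg γ hb0)
  have h3 := pow_le_pow_left₀ hs.le (sqrt_arg_le hb hR hγ0 hγ) 3
  rw [φb, max_arg_eq γ hb0, F', inv_div, div_div_eq_mul_div]
  unfold α B0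
  rw [div_le_iff₀ (by norm_num)]
  nlinarith [pow_nonneg (by linarith : (0:ℝ) ≤ R) 3]

theorem F'_le {s : ℝ} (hs : 1 / 2 ≤ s) : F' s ≤ 2 := by
  unfold F' B0
  rw [div_le_iff₀ (by have := sqrt_half_pos hs; positivity)]
  have := pow_le_pow_left₀ (by norm_num) (sqrt_half_gt hs) 3
  nlinarith

theorem φb_le (b γ : ℝ) : φb b γ ≤ 4000 := by
  unfold φb α
  rw [div_le_iff₀ (by norm_num)]
  linarith [F'_le (le_max_right (b / (1 / 2000) + γ ^ 2 + c0) (1 / 2))]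

theorem φγ_nonneg (b : ℝ) {γ : ℝ} (hγ : 0 ≤ γ) : 0 ≤ φγ b γ :=
  mul_nonneg (by linarith) (F'_pos (le_max_right _ _)).le

theorem φγ_le (b : ℝ) {γ : ℝ} (hγ : 0 ≤ γ) (hγR : γ ≤ R) : φγ b γ ≤ 4 * R := by
  have h := F'_le (le_max_right (b / α + γ ^ 2 + c0) (1 / 2))
  unfold φγ
  nlinarith [(F'_pos (le_max_right (b / α + γ ^ 2 + c0) (1 / 2))).le]

theorem coef_le {s : ℝ} : coef s ≤ 2 * √s := by
  unfold coef B0
  rw [div_le_iff₀ (by norm_num)]
  linarith [Real.sqrt_nonneg s]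

/-- The curvature term after splitting off the correction. -/
theorem coef_split {c k ρ : ℝ} (hc : 0 ≤ c) :
    99 / 100 * (c * k ^ 2) - 99 * (c * ρ ^ 2) ≤ c * (k - ρ) ^ 2 := by
  nlinarith [mul_nonneg hc (sq_nonneg (k / 10 - 10 * ρ))]

end Scalar

/-- The square root of the argument of the profile, on functions. -/
noncomputable def sqc (b γ : C(X, ℝ)) : C(X, ℝ) :=
  ⟨fun x => √(max (b x / α + γ x ^ 2 + c0) (1 / 2)), by fun_prop⟩

theorem sqc_pos (b γ : C(X, ℝ)) (x : X) : 0 < sqc b γ x := sqrt_half_pos (le_max_right _ _)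

theorem sqc_eq {b γ : C(X, ℝ)} {x : X} (hb : -b1 ≤ b x) : sqc b γ x = √(arg (b x) (γ x)) :=
  congrArg Real.sqrt (max_arg_eq (γ x) hb)

/-- The inverse square root of a function clamped below by a positive constant. -/
noncomputable def isqrtC (f : C(X, ℝ)) (δ : ℝ) (hδ : 0 < δ) : C(X, ℝ) :=
  ⟨fun x => (√(max (f x) δ))⁻¹,
    Continuous.inv₀ (by fun_prop) fun _ => (Real.sqrt_pos.2 (lt_max_of_lt_right hδ)).ne'⟩

theorem isqrtC_sq {f : C(X, ℝ)} {δ : ℝ} (hδ : 0 < δ) {x : X} (h : δ ≤ f x) :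
    isqrtC f δ hδ x ^ 2 = (f x)⁻¹ := by
  simp [isqrtC, inv_pow, Real.sq_sqrt (hδ.le.trans h), max_eq_left h]

theorem norm_isqrtC_le (f : C(X, ℝ)) {δ : ℝ} (hδ : 0 < δ) :
    ‖isqrtC f δ hδ‖ ≤ (√δ)⁻¹ := by
  refine (ContinuousMap.norm_le _ (by positivity)).2 fun x => ?_
  simp only [isqrtC, ContinuousMap.coe_mk, Real.norm_eq_abs]
  rw [abs_of_nonneg (by positivity)]
  exact inv_anti₀ (Real.sqrt_pos.2 hδ) (Real.sqrt_le_sqrt (le_max_right _ _))

theorem abs_apply_le {f : C(X, ℝ)} {R : ℝ} (h : ‖f‖ ≤ R) (x : X) : |f x| ≤ R :=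
  (f.norm_coe_le_norm x).trans h

theorem norm_le_of_abs {f : C(X, ℝ)} {R : ℝ} (hR : 0 ≤ R) (h : ∀ x, |f x| ≤ R) : ‖f‖ ≤ R :=
  (ContinuousMap.norm_le _ hR).2 h

namespace Core

variable (C : Core M X) {p : M} {σ l ν : ℝ}

theorem norm_le_of_nonneg_le {a : M} {R : ℝ} (hR : 0 ≤ R) (h0 : 0 ≤ a)
    (h : a ≤ algebraMap ℝ M R) : ‖a‖ ≤ R :=
  (CStarAlgebra.norm_le_iff_le_algebraMap a hR h0).2 h

theorem norm_p_le (hP : Par p σ l ν) : ‖p‖ ≤ 1 := by
  have hsa := IsSelfAdjoint.of_nonneg hP.p_nonneg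
  have h : ‖star p * p‖ ≤ 1 := by
    rw [hsa.star_eq]
    exact norm_le_of_nonneg_le zero_le_one (hP.pp_ge.trans' (by
      rw [Algebra.algebraMap_eq_smul_one]; exact smul_nonneg (by norm_num) zero_le_one))
      (by rw [map_one]; exact hP.pp_le)
  rw [CStarRing.norm_star_mul_self] at h
  nlinarith [norm_nonneg p]

theorem norm_pzp_le (hP : Par p σ l ν) (z : M) : ‖p * z * p‖ ≤ ‖z‖ := by
  have hp := norm_p_le hP
  calc ‖p * z * p‖ ≤ ‖p‖ * ‖z‖ * ‖p‖ :=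
        (norm_mul_le _ _).trans (mul_le_mul_of_nonneg_right (norm_mul_le _ _) (norm_nonneg _))
    _ ≤ 1 * ‖z‖ * 1 := by gcongr
    _ = ‖z‖ := by ring

theorem n2sq_le_norm_sq (z : M) : C.n2sq z ≤ ‖z‖ ^ 2 := by
  have h := (C.n2sq_mul_le z 1).1
  rw [mul_one] at h
  simpa [n2sq, C.tr_one] using h

theorem abs_tr_mul_le_norm (a z : M) : |C.tr (a * z)| ≤ ‖a‖ * ‖z‖ := by
  refine (C.abs_tr_mul_le a z).trans ?_
  exact mul_le_mul (Real.sqrt_le_iff.2 ⟨norm_nonneg a, C.n2sq_le_norm_sq a⟩)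
    (Real.sqrt_le_iff.2 ⟨norm_nonneg z, C.n2sq_le_norm_sq z⟩) (Real.sqrt_nonneg _)
    (norm_nonneg _)

theorem gam_le (hP : Par p σ l ν) {G : Mˣ} {R : ℝ} (hG : 0 ≤ (G : M)) (hR : 0 ≤ R)
    (hGR : (G : M) ≤ algebraMap ℝ M R) (x : X) : C.gam p G x ≤ R := by
  refine (le_abs_self _).trans (abs_apply_le ((C.norm_Er_le ?_).trans ?_) x)
  · exact (IsSelfAdjoint.of_nonneg hG).conjugate_self (IsSelfAdjoint.of_nonneg hP.p_nonneg)
  · exact (norm_pzp_le hP _).trans (norm_le_of_nonneg_le hR hG hGR)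

theorem dens_bounds (hP : Par p σ l ν) {a e b : C(X, ℝ)} {G : Mˣ} (hG : 0 ≤ (G : M)) (x : X) :
    l / 200 ≤ C.dens p σ l a e b G x ∧ C.dens p σ l a e b G x ≤ 3 := by
  have hA := C.mat_isSelfAdjoint hP.p_nonneg a e b hG
  have hc := (continuous_f' (u := u0) (l := l) hP.σ_pos).continuousOn (s := spectrum ℝ
    (C.mat p a e b G))
  have h1 : algebraMap ℝ M l ≤ C.dmat p σ l a e b G :=
    algebraMap_le_cfc _ _ _ (fun t _ => le_f' hP.σ_pos t) hc hA
  have h2 : C.dmat p σ l a e b G ≤ algebraMap ℝ M 3 :=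
    cfc_le_algebraMap _ _ _ (fun t _ => (f'_le hP.σ_pos t).trans (by linarith [hP.l_le])) hc hA
  constructor
  · refine le_trans ?_ (ContinuousMap.le_def.1 (C.Er_mono
      (conjugate_le_conjugate_of_nonneg h1 hP.p_nonneg)) x)
    have h := ContinuousMap.le_def.1 (C.Er_mono (smul_le_smul_of_nonneg_left hP.pp_ge
      hP.l_pos.le)) x
    rw [C.Er_smul, C.Er_algebraMap] at h
    rw [Algebra.algebraMap_eq_smul_one, mul_smul_comm, mul_one, smul_mul_assoc]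
    simp at h ⊢
    linarith
  · refine le_trans (ContinuousMap.le_def.1 (C.Er_mono
      (conjugate_le_conjugate_of_nonneg h2 hP.p_nonneg)) x) ?_
    rw [Algebra.algebraMap_eq_smul_one, mul_smul_comm, mul_one, smul_mul_assoc]
    have h := ContinuousMap.le_def.1 (C.Er_mono (smul_le_smul_of_nonneg_left hP.pp_le
      (by norm_num : (0:ℝ) ≤ 3))) x
    rw [C.Er_smul (3:ℝ) 1, C.Er_one] at h
    simpa using h

theorem n2sq_conj_p_le (hP : Par p σ l ν) (z : M) : C.n2sq (p * z * p) ≤ C.n2sq z := by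
  have h1 := (C.n2sq_mul_le p (p * z)).2
  have h2 := (C.n2sq_mul_le p z).1
  have hn : ∀ w, 0 ≤ C.n2sq w := fun w => C.tr_nonneg (star_mul_self_nonneg w)
  have hp2 : ‖p‖ ^ 2 ≤ 1 := pow_le_one₀ (norm_nonneg p) (norm_p_le hP)
  nlinarith [hn z, mul_le_mul_of_nonneg_right hp2 (hn (p * z)),
    mul_le_mul_of_nonneg_right hp2 (hn z)]

theorem dmat_norm_le (hP : Par p σ l ν) {a e b : C(X, ℝ)} {G : Mˣ} :
    ‖C.dmat p σ l a e b G‖ ≤ 3 := by
  refine norm_cfc_le (by norm_num) fun t _ => ?_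
  rw [Real.norm_eq_abs, abs_le]
  exact ⟨by linarith [le_f' (u := u0) (l := l) hP.σ_pos t, hP.l_pos],
    (f'_le hP.σ_pos t).trans (by linarith [hP.l_le])⟩

theorem tr_dmat_conj (hp : 0 ≤ p) (a e b : C(X, ℝ)) (G : Mˣ) (f : C(X, ℝ)) :
    C.tr (C.dmat p σ l a e b G * (p * C.r f * p)) = C.ig (f * C.dens p σ l a e b G) := by
  have hsa : IsSelfAdjoint (p * C.dmat p σ l a e b G * p) :=
    (IsSelfAdjoint.cfc).conjugate_self (IsSelfAdjoint.of_nonneg hp)
  rw [dens, ← C.tr_r_mul f hsa, ← mul_assoc, ← mul_assoc, C.tr_cycle _ (C.r f) p,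
    C.tr_comm _ (C.r f), ← mul_assoc p]

theorem Er_schwarz {A : M} (hA : 0 ≤ A) (f : C(X, ℝ)) (x : X) :
    C.K A f x ^ 2 ≤ C.Er A x * C.Er (A * (C.r f * A * C.r f) * A) x := by
  have hs := (IsSelfAdjoint.of_nonneg hA).star_eq
  have key : ∀ t : ℝ, 0 ≤ C.Er A x * (t * t) + (2 * C.K A f x) * t
      + C.Er (A * (C.r f * A * C.r f) * A) x := fun t => by
    have h := ContinuousMap.le_def.1 (C.Er_nonneg (star_left_conjugate_nonneg hA
      (t • 1 + C.r f * A))) x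
    have e : star (t • (1 : M) + C.r f * A) * A * (t • 1 + C.r f * A)
        = (t * t) • A + t • (A * C.r f * A) + t • (A * C.r f * A)
          + A * (C.r f * A * C.r f) * A := by
      rw [star_add, star_smul, star_one, star_trivial, star_mul, C.star_r, hs]
      simp only [add_mul, mul_add, smul_mul_assoc, mul_smul_comm, one_mul, mul_one, mul_assoc]
      module
    rw [e, C.Er_add, C.Er_add, C.Er_add, C.Er_smul, C.Er_smul] at h
    simp only [K, hs]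
    simp at h ⊢
    linarith
  have := discrim_le_zero key
  rw [discrim] at this
  linarith [this, mul_self_nonneg (C.K A f x)]

end Core

end Vale.Agent.P078.Tracial
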