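import Vale.Agent.P078.Tracial.Basic

/-! Trace inequalities for functional calculus. -/

namespace Vale.Agent.P078.Tracial.Core

open Filter Topology ComplexOrder

variable {M X : Type*} [CStarAlgebra M] [PartialOrder M] [StarOrderedRing M]
variable [TopologicalSpace X] [CompactSpace X] [T2Space X] [TotallyDisconnectedSpace X]
variable (C : Core M X)

/-! ### Elementary facts -/

lemma tr_star_mul_nonneg (a : M) : 0 ≤ C.tr (star a * a) := (Complex.nonneg_iff.1 (C.τ_pos a)).1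

lemma n2sq_nonneg' (a : M) : 0 ≤ C.n2sq a := C.tr_star_mul_nonneg a

lemma exists_eq_star_mul {a : M} (ha : 0 ≤ a) : ∃ c, a = star c * c :=
  CStarAlgebra.nonneg_iff_eq_star_mul_self.1 ha

theorem tr_mono {a b : M} (hab : a ≤ b) : C.tr a ≤ C.tr b := by
  obtain ⟨c, hc⟩ := exists_eq_star_mul (sub_nonneg.2 hab)
  have := C.tr_star_mul_nonneg c
  rw [← hc, tr_sub] at this
  linarith

theorem tr_mul_nonneg {a b : M} (ha : 0 ≤ a) (hb : 0 ≤ b) : 0 ≤ C.tr (a * b) := by
  obtain ⟨c, rfl⟩ := exists_eq_star_mul ha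
  obtain ⟨d, rfl⟩ := exists_eq_star_mul hb
  have := C.tr_star_mul_nonneg (c * star d)
  rw [star_mul, star_star] at this
  rwa [show star c * c * (star d * d) = (star c * (c * star d)) * d by simp only [mul_assoc],
    C.tr_comm, ← mul_assoc]

theorem tr_le_norm_mul {a b : M} (ha : IsSelfAdjoint a) (hb : 0 ≤ b) :
    C.tr (a * b) ≤ ‖a‖ * C.tr b := by
  have := C.tr_mul_nonneg (sub_nonneg.2 ha.le_algebraMap_norm_self) hb
  rw [sub_mul, tr_sub, Algebra.algebraMap_eq_smul_one, smul_mul_assoc, one_mul, tr_smul] at this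
  linarith

lemma tr_star (a : M) : C.tr (star a) = C.tr a := by
  have hτ : C.τ (star a) = (starRingEnd ℂ) (C.τ a) := by
    have h1 := (Complex.nonneg_iff.1 (C.τ_pos (1 + a))).2
    have h2 := (Complex.nonneg_iff.1 (C.τ_pos (1 + Complex.I • a))).2
    have h3 := (Complex.nonneg_iff.1 (C.τ_pos a)).2
    simp only [star_add, star_one, star_smul, Complex.star_def, Complex.conj_I, add_mul, mul_add,
      one_mul, mul_one, map_add, smul_mul_assoc, mul_smul_comm, map_smul, C.τ_one, smul_eq_mul,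
      Complex.add_im, Complex.one_im, Complex.mul_im, Complex.neg_re, Complex.neg_im, Complex.I_re,
      Complex.I_im, Complex.mul_re] at h1 h2
    apply Complex.ext <;> simp only [Complex.conj_re, Complex.conj_im] <;> linarith
  rw [tr, tr, hτ, Complex.conj_re]

lemma n2sq_star (a : M) : C.n2sq (star a) = C.n2sq a := by
  rw [n2sq, n2sq, star_star, C.tr_comm]

lemma n2sq_mul_left_le (a z : M) : C.n2sq (a * z) ≤ ‖a‖ ^ 2 * C.n2sq z := by
  have h := C.tr_mono (star_left_conjugate_le_conjugate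
    (CStarAlgebra.star_mul_le_algebraMap_norm_sq (a := a)) z)
  rw [Algebra.algebraMap_eq_smul_one, mul_smul_comm, mul_one, smul_mul_assoc, tr_smul] at h
  rw [n2sq, star_mul, n2sq]
  simpa [mul_assoc] using h

theorem n2sq_mul_le (a z : M) :
    C.n2sq (a * z) ≤ ‖a‖ ^ 2 * C.n2sq z ∧ C.n2sq (z * a) ≤ ‖a‖ ^ 2 * C.n2sq z := by
  refine ⟨C.n2sq_mul_left_le a z, ?_⟩
  rw [← C.n2sq_star (z * a), star_mul, ← C.n2sq_star z]
  simpa [norm_star] using C.n2sq_mul_left_le (star a) (star z)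

lemma tr_star_mul_symm (a b : M) : C.tr (star a * b) = C.tr (star b * a) := by
  rw [← C.tr_star (star b * a), star_mul, star_star]

lemma n2sq_add (a b : M) : C.n2sq (a + b) = C.n2sq a + 2 * C.tr (star a * b) + C.n2sq b := by
  simp only [n2sq, star_add, add_mul, mul_add, tr_add]
  rw [C.tr_star_mul_symm b a]
  ring

lemma abs_tr_star_mul_le (a b : M) :
    |C.tr (star a * b)| ≤ Real.sqrt (C.n2sq a) * Real.sqrt (C.n2sq b) := by
  have hq : ∀ t : ℝ, 0 ≤ C.n2sq b * (t * t) + 2 * C.tr (star a * b) * t + C.n2sq a := fun t => by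
    have h := C.n2sq_nonneg' (a + t • b)
    rw [C.n2sq_add] at h
    simp only [n2sq, mul_smul_comm, star_smul, star_trivial, smul_mul_assoc, tr_smul] at h ⊢
    linarith
  have h := discrim_le_zero hq
  rw [discrim] at h
  rw [← Real.sqrt_mul (C.n2sq_nonneg' a)]
  exact Real.abs_le_sqrt (by nlinarith)

theorem abs_tr_mul_le (a b : M) :
    |C.tr (a * b)| ≤ Real.sqrt (C.n2sq a) * Real.sqrt (C.n2sq b) := by
  have h := C.abs_tr_star_mul_le (star a) b
  rwa [star_star, n2sq_star] at h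

theorem sqrt_n2sq_add_le (a b : M) :
    Real.sqrt (C.n2sq (a + b)) ≤ Real.sqrt (C.n2sq a) + Real.sqrt (C.n2sq b) := by
  rw [Real.sqrt_le_left (by positivity), add_sq, Real.sq_sqrt (C.n2sq_nonneg' a),
    Real.sq_sqrt (C.n2sq_nonneg' b), C.n2sq_add]
  linarith [(abs_le.1 (C.abs_tr_star_mul_le a b)).2]

lemma abs_tr_le (a : M) : |C.tr a| ≤ ‖C.τ‖ * ‖a‖ :=
  (Complex.abs_re_le_norm _).trans (C.τ.le_opNorm a)

/-! ### The Klein inequality -/

omit [PartialOrder M] [StarOrderedRing M] in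
lemma abs_le_of_mem_spectrum {a : M} (ha : IsSelfAdjoint a) {x : ℝ} (hx : x ∈ spectrum ℝ a) :
    |x| ≤ ‖a‖ := by
  have := norm_apply_le_norm_cfc (id : ℝ → ℝ) a hx
  rwa [cfc_id ℝ a, id_eq, Real.norm_eq_abs] at this

omit [PartialOrder M] [StarOrderedRing M] in
lemma continuousOn_abs_approx {f : ℝ → ℝ} (hf : Continuous f) (R : ℝ) {η : ℝ} (hη : 0 < η) :
    ∃ δ > 0, ∀ s ∈ Set.Icc (-R) R, ∀ t ∈ Set.Icc (-R) R, |s - t| < δ → |f s - f t| ≤ η := by
  obtain ⟨δ, hδ, h⟩ := Metric.uniformContinuousOn_iff.1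
    (isCompact_Icc.uniformContinuousOn_of_continuous (hf.continuousOn (s := Set.Icc (-R) R))) η hη
  exact ⟨δ, hδ, fun s hs t ht hst => by
    simpa [Real.dist_eq] using (h s hs t ht (by simpa [Real.dist_eq] using hst)).le⟩

theorem klein_lower {f f' : ℝ → ℝ} (hf : Continuous f) (hf' : Continuous f')
    (h : ∀ s t, f s + f' s * (t - s) ≤ f t) {A B : M}
    (hA : IsSelfAdjoint A) (hB : IsSelfAdjoint B) :
    C.tr (cfc f A) + C.tr (cfc f' A * (B - A)) ≤ C.tr (cfc f B) := by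
  set R := ‖A‖
  set q : ℝ → ℝ := fun s => f' s * s
  have hq : cfc q A = cfc f' A * A := by
    rw [show q = fun s => f' s * id s from rfl, cfc_mul f' id A, cfc_id ℝ A]
  refine le_of_forall_pos_le_add fun ε hε => ?_
  set K := ‖C.τ‖ * (2 + ‖B‖) + 1
  have hK : 0 < K := by positivity
  set η := ε / K
  have hη : 0 < η := div_pos hε hK
  obtain ⟨d1, hd1, u1⟩ := continuousOn_abs_approx hf R hη
  obtain ⟨d2, hd2, u2⟩ := continuousOn_abs_approx hf' R hη
  obtain ⟨d3, hd3, u3⟩ := continuousOn_abs_approx (f := q) (by fun_prop) R hη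
  set δ := min d1 (min d2 d3)
  have hδ : 0 < δ := lt_min hd1 (lt_min hd2 hd3)
  obtain ⟨T, hT, hTf, hcov⟩ := finite_cover_balls_of_compact
    (isCompact_Icc (a := -R) (b := R)) hδ
  set T' := hTf.toFinset
  set hat : ℝ → ℝ → ℝ := fun k s => max (δ - |s - k|) 0
  set S : ℝ → ℝ := fun s => ∑ k ∈ T', hat k s
  have hhat : ∀ k s, 0 ≤ hat k s := fun k s => le_max_right _ _
  have hS : ∀ s ∈ spectrum ℝ A, 0 < S s := fun s hs => by
    obtain ⟨k, hk, hks⟩ := Set.mem_iUnion₂.1 (hcov (abs_le.1 (abs_le_of_mem_spectrum hA hs)))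
    rw [Metric.mem_ball, Real.dist_eq] at hks
    exact lt_of_lt_of_le (lt_max_of_lt_left (sub_pos.2 hks))
      (Finset.single_le_sum (fun j _ => hhat j s) (hTf.mem_toFinset.2 hk))
  set ψ : ℝ → ℝ → ℝ := fun k s => hat k s / S s
  have hψc : ∀ k, ContinuousOn (ψ k) (spectrum ℝ A) := fun k =>
    ContinuousOn.div (by simp only [hat]; fun_prop) (by simp only [S, hat]; fun_prop)
      fun s hs => (hS s hs).ne'
  have hψ0 : ∀ k, ∀ s ∈ spectrum ℝ A, 0 ≤ ψ k s := fun k s hs => div_nonneg (hhat k s) (hS s hs).le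
  have hψ1 : ∀ s ∈ spectrum ℝ A, ∑ k ∈ T', ψ k s = 1 := fun s hs => by
    simp only [ψ, ← Finset.sum_div]; exact div_self (hS s hs).ne'
  have approx : ∀ (g : ℝ → ℝ) {d : ℝ}, Continuous g → δ ≤ d →
      (∀ s ∈ Set.Icc (-R) R, ∀ t ∈ Set.Icc (-R) R, |s - t| < d → |g s - g t| ≤ η) →
      ‖(∑ k ∈ T', g k • cfc (ψ k) A) - cfc g A‖ ≤ η := by
    intro g d hg hd hu
    have hsum : ∑ k ∈ T', g k • cfc (ψ k) A = cfc (fun s => ∑ k ∈ T', g k * ψ k s) A := by
      rw [show (fun s => ∑ k ∈ T', g k * ψ k s) = ∑ k ∈ T', fun s => g k * ψ k s by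
        funext s; rw [Finset.sum_apply]]
      rw [cfc_sum (fun k s => g k * ψ k s) A T' (fun k _ => continuousOn_const.mul (hψc k))]
      refine Finset.sum_congr rfl fun k _ => ?_
      rw [cfc_const_mul (g k) (ψ k) A (hψc k)]
    rw [hsum, ← cfc_sub (fun s => ∑ k ∈ T', g k * ψ k s) g A
      (continuousOn_finsetSum _ fun k _ => continuousOn_const.mul (hψc k))]
    refine norm_cfc_le hη.le fun s hs => ?_
    have hsR : s ∈ Set.Icc (-R) R := abs_le.1 (abs_le_of_mem_spectrum hA hs)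
    have e : (∑ k ∈ T', g k * ψ k s) - g s = ∑ k ∈ T', (g k - g s) * ψ k s := by
      simp only [sub_mul, Finset.sum_sub_distrib, ← Finset.mul_sum, hψ1 s hs, mul_one]
    rw [Real.norm_eq_abs, e]
    calc |∑ k ∈ T', (g k - g s) * ψ k s| ≤ ∑ k ∈ T', η * ψ k s := by
          refine (Finset.abs_sum_le_sum_abs _ _).trans (Finset.sum_le_sum fun k hk => ?_)
          rw [abs_mul, abs_of_nonneg (hψ0 k s hs)]
          rcases eq_or_ne (ψ k s) 0 with h0 | h0
          · simp [h0]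
          refine mul_le_mul_of_nonneg_right ?_ (hψ0 k s hs)
          have hks : |s - k| < δ := by
            by_contra hc
            exact h0 (by simp [ψ, hat, max_eq_right (sub_nonpos.2 (le_of_not_gt hc))])
          exact hu k (hT (hTf.mem_toFinset.1 hk)) s hsR (by rw [abs_sub_comm]; linarith)
      _ = η := by rw [← Finset.mul_sum, hψ1 s hs, mul_one]
  set F := ∑ k ∈ T', f k • cfc (ψ k) A
  set G := ∑ k ∈ T', f' k • cfc (ψ k) A
  set Q := ∑ k ∈ T', q k • cfc (ψ k) A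
  have hF := approx f hf (min_le_left _ _) u1
  have hG := approx f' hf' ((min_le_right _ _).trans (min_le_left _ _)) u2
  have hQ := approx q (by fun_prop) ((min_le_right _ _).trans (min_le_right _ _)) u3
  have hone : ∑ k ∈ T', cfc (ψ k) A = 1 := by
    rw [← cfc_sum _ A T' (fun k _ => hψc k), ← cfc_one ℝ A]
    exact cfc_congr fun s hs => by simpa using hψ1 s hs
  have pos : ∀ k ∈ T', 0 ≤ C.tr (cfc (ψ k) A * cfc f B) - f k * C.tr (cfc (ψ k) A) -
      f' k * C.tr (cfc (ψ k) A * B) + q k * C.tr (cfc (ψ k) A) := by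
    intro k _
    have h2 := C.tr_mul_nonneg (cfc_nonneg (hψ0 k))
      (cfc_nonneg (f := fun t => f t - (f k - q k) - f' k * t) (a := B)
        (fun t _ => by simp only [q]; linarith [h k t]))
    rw [cfc_sub (fun t => f t - (f k - q k)) (fun t => f' k * t) B,
      cfc_sub f (fun _ => f k - q k) B, cfc_const (f k - q k) B, cfc_const_mul_id (f' k) B,
      Algebra.algebraMap_eq_smul_one, mul_sub, mul_sub, mul_smul_comm, mul_smul_comm, mul_one,
      tr_sub, tr_sub, tr_smul, tr_smul] at h2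
    linarith
  have total : 0 ≤ C.tr (cfc f B) - C.tr F - C.tr (G * B) + C.tr Q := by
    have h3 := Finset.sum_nonneg pos
    rw [Finset.sum_add_distrib, Finset.sum_sub_distrib, Finset.sum_sub_distrib,
      ← C.tr_sum, ← Finset.sum_mul, hone, one_mul] at h3
    simp only [F, G, Q, Finset.sum_mul, C.tr_sum, smul_mul_assoc, tr_smul]
    exact h3
  have b1 := (abs_le.1 (C.abs_tr_le (F - cfc f A))).1
  have b2 := (abs_le.1 (C.abs_tr_le ((G - cfc f' A) * B))).1
  have b3 := (abs_le.1 (C.abs_tr_le (Q - cfc q A))).2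
  have n1 : ‖C.τ‖ * ‖F - cfc f A‖ ≤ ‖C.τ‖ * η := by gcongr
  have n2 : ‖C.τ‖ * ‖(G - cfc f' A) * B‖ ≤ ‖C.τ‖ * (η * ‖B‖) := by
    gcongr; exact (norm_mul_le _ _).trans (by gcongr)
  have n3 : ‖C.τ‖ * ‖Q - cfc q A‖ ≤ ‖C.τ‖ * η := by gcongr
  have hsmall : ‖C.τ‖ * η + ‖C.τ‖ * (η * ‖B‖) + ‖C.τ‖ * η ≤ ε := by
    calc _ = η * (‖C.τ‖ * (2 + ‖B‖)) := by ring
      _ ≤ η * K := by gcongr; linarith
      _ = ε := div_mul_cancel₀ ε hK.ne'
  rw [sub_mul, tr_sub] at b2
  rw [sub_mul] at n2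
  rw [tr_sub] at b1 b3
  rw [mul_sub, tr_sub, ← hq]
  linarith

theorem klein_upper {f f' : ℝ → ℝ} {L : ℝ} (hf : Continuous f) (hf' : Continuous f')
    (h : ∀ s t, f t ≤ f s + f' s * (t - s) + L / 2 * (t - s) ^ 2) {A B : M}
    (hA : IsSelfAdjoint A) (hB : IsSelfAdjoint B) :
    C.tr (cfc f B) ≤ C.tr (cfc f A) + C.tr (cfc f' A * (B - A)) + L / 2 * C.n2sq (B - A) := by
  have h0 := C.klein_lower (f := fun t => L / 2 * t ^ 2 - f t) (f' := fun t => L * t - f' t)
    (by fun_prop) (by fun_prop) (fun s t => by nlinarith [h s t]) hA hB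
  have e : ∀ Y : M, IsSelfAdjoint Y →
      C.tr (cfc (fun t => L / 2 * t ^ 2 - f t) Y) = L / 2 * C.tr (Y * Y) - C.tr (cfc f Y) := by
    intro Y hY
    rw [cfc_sub (fun t => L / 2 * t ^ 2) f Y, cfc_const_mul (L / 2) (fun t => t ^ 2) Y,
      cfc_pow_id Y 2, sq, tr_sub, tr_smul]
  rw [e A hA, e B hB, cfc_sub (fun t => L * t) f' A, cfc_const_mul_id L A, sub_mul, smul_mul_assoc,
    tr_sub, tr_smul, mul_sub, tr_sub] at h0
  have hn : C.n2sq (B - A) = C.tr (B * B) - 2 * C.tr (A * B) + C.tr (A * A) := by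
    rw [n2sq, (hB.sub hA).star_eq, sub_mul, mul_sub, mul_sub, tr_sub, tr_sub, tr_sub,
      C.tr_comm B A]
    ring
  rw [hn]
  linarith

/-! ### `z star z` and `star z z` -/

lemma tr_pow_star_mul (z : M) (k : ℕ) : C.tr ((star z * z) ^ k) = C.tr ((z * star z) ^ k) := by
  rcases k with _ | k
  · simp
  have e : ∀ j : ℕ, z * (star z * z) ^ j = (z * star z) ^ j * z := by
    intro j
    induction j with
    | zero => simp
    | succ j ih => rw [pow_succ, pow_succ, ← mul_assoc, ih]; simp only [mul_assoc]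
  calc C.tr ((star z * z) ^ (k + 1)) = C.tr (star z * ((z * star z) ^ k * z)) := by
        rw [pow_succ', mul_assoc, e]
    _ = C.tr ((z * star z) ^ (k + 1)) := by rw [C.tr_comm, pow_succ, mul_assoc]

theorem tr_cfc_star_mul {g : ℝ → ℝ} (hg : Continuous g) (z : M) :
    C.tr (cfc g (star z * z)) = C.tr (cfc g (z * star z)) := by
  set a := star z * z
  set b := z * star z
  have ha : IsSelfAdjoint a := IsSelfAdjoint.star_mul_self z
  have hb : IsSelfAdjoint b := IsSelfAdjoint.mul_star_self z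
  set R := max ‖a‖ ‖b‖
  refine eq_of_abs_sub_eq_zero (le_antisymm (le_of_forall_pos_le_add fun ε hε => ?_) (abs_nonneg _))
  rw [zero_add]
  set η := ε / (2 * ‖C.τ‖ + 1)
  have hη : 0 < η := by positivity
  obtain ⟨p, hp⟩ := exists_polynomial_near_of_continuousOn (-R) R g hg.continuousOn η hη
  have hclose : ∀ c : M, IsSelfAdjoint c → ‖c‖ ≤ R →
      |C.tr (Polynomial.aeval c p) - C.tr (cfc g c)| ≤ ‖C.τ‖ * η := by
    intro c hc hcR
    rw [← tr_sub, ← cfc_polynomial p c, ← cfc_sub (fun t => p.eval t) g c]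
    refine (C.abs_tr_le _).trans (mul_le_mul_of_nonneg_left
      (norm_cfc_le hη.le fun t ht => ?_) (norm_nonneg C.τ))
    rw [Real.norm_eq_abs]
    exact (hp t (abs_le.1 ((abs_le_of_mem_spectrum hc ht).trans hcR))).le
  have hpoly : ∀ p : Polynomial ℝ, C.tr (Polynomial.aeval a p) = C.tr (Polynomial.aeval b p) := by
    intro p
    induction p using Polynomial.induction_on' with
    | add p q hp hq => rw [map_add, map_add, tr_add, tr_add, hp, hq]
    | monomial k r =>
      rw [Polynomial.aeval_monomial, Polynomial.aeval_monomial, ← Algebra.smul_def,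
        ← Algebra.smul_def, tr_smul, tr_smul, C.tr_pow_star_mul]
  have h1 := abs_le.1 (hclose a ha (le_max_left _ _))
  have h2 := abs_le.1 (hclose b hb (le_max_right _ _))
  have h3 : 2 * (‖C.τ‖ * η) ≤ ε := by
    calc 2 * (‖C.τ‖ * η) = η * (2 * ‖C.τ‖) := by ring
      _ ≤ η * (2 * ‖C.τ‖ + 1) := by gcongr; linarith
      _ = ε := div_mul_cancel₀ ε (by positivity)
  rw [hpoly p] at h1
  rw [abs_le]
  constructor <;> linarith

theorem n2sq_posPart_le {A B : M} {c : ℝ} (hA : IsSelfAdjoint A)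
    (hB : B ≤ algebraMap ℝ M c) (_hBs : IsSelfAdjoint B) :
    C.n2sq (cfc (fun t => max (t - c) 0) A) ≤ C.n2sq (A - B) := by
  set P := cfc (fun t => max (t - c) 0) A
  have hPs : IsSelfAdjoint P := cfc_predicate (R := ℝ) _ A
  have hP0 : 0 ≤ P := cfc_nonneg fun t _ => le_max_right _ _
  have h1 : (A - algebraMap ℝ M c) * P = P * P := by
    have : A - algebraMap ℝ M c = cfc (fun t : ℝ => t - c) A := by
      rw [cfc_sub (fun t => t) (fun _ => c) A, cfc_id' ℝ A, cfc_const c A]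
    rw [this, ← cfc_mul _ _ A, ← cfc_mul _ _ A]
    refine cfc_congr fun t _ => ?_
    rcases max_cases (t - c) 0 with ⟨e, _⟩ | ⟨e, _⟩ <;> rw [e]; ring
  have h2 := C.tr_mul_nonneg (sub_nonneg.2 hB) hP0
  have h3 : C.n2sq P ≤ C.tr ((A - B) * P) := by
    rw [n2sq, hPs.star_eq, ← h1]
    simp only [sub_mul, tr_sub] at h2 ⊢
    linarith
  have h4 := h3.trans ((le_abs_self _).trans (C.abs_tr_mul_le (A - B) P))
  rcases (Real.sqrt_nonneg (C.n2sq P)).eq_or_lt with h0 | h0
  · rw [← Real.sq_sqrt (C.n2sq_nonneg' P), ← h0]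
    simpa using C.n2sq_nonneg' (A - B)
  · exact (Real.sqrt_le_sqrt_iff (C.n2sq_nonneg' _)).1 (le_of_mul_le_mul_right
      ((Real.mul_self_sqrt (C.n2sq_nonneg' P)).le.trans h4) h0)

/-! ### Pinchings keep upper bounds -/

lemma e_mul_self (π : DiscreteQuotient X) (i : π) : C.e π i * C.e π i = C.e π i := by
  rw [e, ← r_mul]
  congr 1
  ext x
  simp only [ContinuousMap.mul_apply, cellFn, ContinuousMap.coe_mk]
  split_ifs <;> simp

theorem pinch_le {A : M} {c : ℝ} (π : DiscreteQuotient X) (hA : A ≤ algebraMap ℝ M c) :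
    C.pinch π A ≤ algebraMap ℝ M c := by
  calc C.pinch π A ≤ ∑ i : π, C.e π i * algebraMap ℝ M c * C.e π i :=
        Finset.sum_le_sum fun i _ => by
          have := star_left_conjugate_le_conjugate hA (C.e π i)
          rwa [show star (C.e π i) = C.e π i from C.star_r _] at this
    _ = algebraMap ℝ M c := by
        simp only [Algebra.algebraMap_eq_smul_one, mul_smul_comm, smul_mul_assoc, mul_one,
          e_mul_self, ← Finset.smul_sum, sum_e]

end Vale.Agent.P078.Tracial.Core
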