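import Vale.Agent.P078.Tracial.Basic
import Vale.Agent.P078.Tracial.TraceFun
import Vale.Agent.P078.Tracial.FromVN

/-! From a one-sided bound on one paving to paving by iteration. -/

namespace Vale.Agent.P078.Tracial

open Filter Topology ComplexOrder

/-- One paving with `r` colours pushes the upper bound of a contraction whose expectation is
small in two-norm below `c`, up to a two-norm error. -/
def OneSided.{u, v} (c : ℝ) (r : ℕ) : Prop :=
  ∀ δ > 0, ∃ ζ > 0, ∀ (M : Type u) (X : Type v) [CStarAlgebra M] [PartialOrder M]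
    [StarOrderedRing M] [TopologicalSpace X] [CompactSpace X] [T2Space X]
    [TotallyDisconnectedSpace X] (C : Core M X) (x : M), IsSelfAdjoint x → ‖x‖ ≤ 1 →
    C.n2sq (C.r (C.Er x)) ≤ ζ →
    ∃ P : Fin r → C(X, ℝ), (∀ i t, P i t = 0 ∨ P i t = 1) ∧ ∑ i, P i = 1 ∧
      C.n2sq (cfc (fun t => max (t - c) 0) (∑ i, C.r (P i) * x * C.r (P i))) ≤ δ

variable {M X : Type*} [CStarAlgebra M] [PartialOrder M] [StarOrderedRing M]
variable [TopologicalSpace X] [CompactSpace X] [T2Space X] [TotallyDisconnectedSpace X]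

namespace Core

variable (C : Core M X)

/-- A disjoint `0/1` family with sum one. -/
def IsCol {κ : Type*} [Fintype κ] (P : κ → C(X, ℝ)) : Prop :=
  (∀ i t, P i t = 0 ∨ P i t = 1) ∧ ∑ i, P i = 1

/-- Pinching along a family of functions. -/
noncomputable def spinch {κ : Type*} [Fintype κ] (P : κ → C(X, ℝ)) (z : M) : M :=
  ∑ i, C.r (P i) * z * C.r (P i)

variable {κ κ' : Type*} [Fintype κ] [Fintype κ']

omit [CompactSpace X] [T2Space X] [TotallyDisconnectedSpace X] in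
lemma IsCol.mul_self {P : κ → C(X, ℝ)} (hP : IsCol P) (i : κ) : P i * P i = P i := by
  ext t; rcases hP.1 i t with h | h <;> simp [h]

omit [CompactSpace X] [T2Space X] [TotallyDisconnectedSpace X] in
lemma IsCol.mul_ne {P : κ → C(X, ℝ)} (hP : IsCol P) {i j : κ} (hij : i ≠ j) : P i * P j = 0 := by
  classical
  ext t
  have h : ∑ k, P k t = 1 := by
    have := congrArg (fun f : C(X, ℝ) => f t) hP.2
    simpa using this
  have h0 : ∀ k, 0 ≤ P k t := fun k => by rcases hP.1 k t with h | h <;> simp [h]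
  rcases hP.1 i t with hi | hi
  · simp [hi]
  rcases hP.1 j t with hj | hj
  · simp [hj]
  have := Finset.sum_le_sum_of_subset_of_nonneg (Finset.subset_univ ({i, j} : Finset κ))
    fun k _ _ => h0 k
  rw [Finset.sum_pair hij, h, hi, hj] at this
  norm_num at this

lemma spinch_isSelfAdjoint (P : κ → C(X, ℝ)) {z : M} (hz : IsSelfAdjoint z) :
    IsSelfAdjoint (C.spinch P z) :=
  isSelfAdjoint_sum _ fun i _ => by
    simpa [C.star_r] using hz.conjugate (C.r (P i))

lemma spinch_sub (P : κ → C(X, ℝ)) (a b : M) :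
    C.spinch P (a - b) = C.spinch P a - C.spinch P b := by
  simp only [spinch, mul_sub, sub_mul, Finset.sum_sub_distrib]

lemma spinch_smul (P : κ → C(X, ℝ)) (t : ℝ) (a : M) :
    C.spinch P (t • a) = t • C.spinch P a := by
  simp only [spinch, mul_smul_comm, smul_mul_assoc, Finset.smul_sum]

lemma spinch_neg (P : κ → C(X, ℝ)) (a : M) : C.spinch P (-a) = -C.spinch P a := by
  simp only [spinch, mul_neg, neg_mul, Finset.sum_neg_distrib]

lemma spinch_r {P : κ → C(X, ℝ)} (hP : IsCol P) (f : C(X, ℝ)) :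
    C.spinch P (C.r f) = C.r f := by
  simp only [spinch, ← C.r_mul, ← C.r_sum]
  congr 1
  calc ∑ i, P i * f * P i = ∑ i, (P i * P i) * f := Finset.sum_congr rfl fun i _ => by ring
    _ = f := by simp only [hP.mul_self, ← Finset.sum_mul, hP.2, one_mul]

lemma Er_spinch {P : κ → C(X, ℝ)} (hP : IsCol P) (z : M) :
    C.Er (C.spinch P z) = C.Er z := by
  simp only [spinch, C.Er_sum, C.Er_bimod]
  calc ∑ i, P i * C.Er z * P i = ∑ i, (P i * P i) * C.Er z :=
        Finset.sum_congr rfl fun i _ => by ring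
    _ = C.Er z := by simp only [hP.mul_self, ← Finset.sum_mul, hP.2, one_mul]

lemma spinch_le {P : κ → C(X, ℝ)} (hP : IsCol P) {A : M} {c : ℝ}
    (hA : A ≤ algebraMap ℝ M c) : C.spinch P A ≤ algebraMap ℝ M c := by
  calc C.spinch P A ≤ ∑ i, C.r (P i) * algebraMap ℝ M c * C.r (P i) :=
        Finset.sum_le_sum fun i _ => by
          have := star_left_conjugate_le_conjugate hA (C.r (P i))
          rwa [C.star_r] at this
    _ = algebraMap ℝ M c := by rw [← C.r_const]; exact C.spinch_r hP _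

lemma norm_spinch_le {P : κ → C(X, ℝ)} (hP : IsCol P) {z : M} (hz : IsSelfAdjoint z) :
    ‖C.spinch P z‖ ≤ ‖z‖ := by
  have hs := C.spinch_isSelfAdjoint P hz
  have h1 := C.spinch_le hP hz.le_algebraMap_norm_self
  have h2 := C.spinch_le hP (A := -z) (c := ‖z‖) (by
    simpa [norm_neg] using hz.neg.le_algebraMap_norm_self)
  rw [C.spinch_neg] at h2
  rw [← cfc_id ℝ (C.spinch P z)]
  refine norm_cfc_le (norm_nonneg z) fun t ht => ?_
  rw [id_eq, Real.norm_eq_abs, abs_le]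
  refine ⟨?_, (le_algebraMap_iff_spectrum_le (ha := hs)).1 h1 t ht⟩
  have h3 : algebraMap ℝ M (-‖z‖) ≤ C.spinch P z := by rw [map_neg]; exact neg_le.1 h2
  exact (algebraMap_le_iff_le_spectrum (ha := hs)).1 h3 t ht

lemma n2sq_real_smul (t : ℝ) (a : M) : C.n2sq (t • a) = t ^ 2 * C.n2sq a := by
  simp only [n2sq, star_smul, star_trivial, smul_mul_assoc, mul_smul_comm, C.tr_smul]
  ring

lemma n2sq_neg (a : M) : C.n2sq (-a) = C.n2sq a := by simp [n2sq]

lemma n2sq_add_le_two (a b : M) : C.n2sq (a + b) ≤ 2 * C.n2sq a + 2 * C.n2sq b := by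
  have h := C.n2sq_nonneg' (a - b)
  rw [sub_eq_add_neg, C.n2sq_add, n2sq_neg, mul_neg, C.tr_neg] at h
  rw [C.n2sq_add]
  linarith

lemma n2sq_spinch_le {P : κ → C(X, ℝ)} (hP : IsCol P) {w : M} (hw : IsSelfAdjoint w) :
    C.n2sq (C.spinch P w) ≤ C.n2sq w := by
  classical
  set S := C.spinch P w with hS
  have hs := C.spinch_isSelfAdjoint P hw
  have e : C.tr (S * S) = C.tr (w * S) := by
    have hp : ∀ i, C.r (P i) * C.r (P i) = C.r (P i) := fun i => by rw [← C.r_mul, hP.mul_self]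
    have hij : ∀ i j, i ≠ j → C.r (P i) * C.r (P j) = 0 := fun i j h => by
      rw [← C.r_mul, hP.mul_ne h, C.r_zero]
    have h1 : S * S = ∑ i, C.r (P i) * w * C.r (P i) * w * C.r (P i) := by
      rw [hS, spinch, Finset.sum_mul]
      refine Finset.sum_congr rfl fun i _ => ?_
      rw [Finset.mul_sum, Finset.sum_eq_single i]
      · rw [show C.r (P i) * w * C.r (P i) * (C.r (P i) * w * C.r (P i)) =
          C.r (P i) * w * (C.r (P i) * C.r (P i)) * w * C.r (P i) by simp only [mul_assoc], hp]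
      · intro j _ hj
        rw [show C.r (P i) * w * C.r (P i) * (C.r (P j) * w * C.r (P j)) =
          C.r (P i) * w * (C.r (P i) * C.r (P j)) * w * C.r (P j) by simp only [mul_assoc],
          hij i j (Ne.symm hj)]
        simp
      · simp
    rw [h1, hS, spinch, Finset.mul_sum, C.tr_sum, C.tr_sum]
    refine Finset.sum_congr rfl fun i _ => ?_
    rw [C.tr_comm _ (C.r (P i)), ← mul_assoc, ← mul_assoc, ← mul_assoc, hp]
    rw [show C.r (P i) * w * C.r (P i) * w = C.r (P i) * (w * C.r (P i) * w) by simp only [mul_assoc],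
      C.tr_comm]
    simp only [mul_assoc]
  have h2 := C.n2sq_nonneg' (w - S)
  have h3 : C.n2sq (w - S) = C.n2sq w - C.n2sq S := by
    rw [n2sq, n2sq, n2sq, (hw.sub hs).star_eq, hw.star_eq, hs.star_eq]
    simp only [sub_mul, mul_sub, C.tr_sub]
    rw [C.tr_comm S w, e]
    ring
  linarith

lemma n2sq_r_Er_le {w : M} (hw : IsSelfAdjoint w) : C.n2sq (C.r (C.Er w)) ≤ C.n2sq w := by
  set f := C.Er w with hf
  have h1 : C.tr (C.r f * w) = C.tr (C.r f * C.r f) := by
    rw [C.tr_r_mul f hw, ← C.r_mul]; rfl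
  have h2 := C.n2sq_nonneg' (w - C.r f)
  have h3 : C.n2sq (w - C.r f) = C.n2sq w - C.n2sq (C.r f) := by
    rw [n2sq, n2sq, n2sq, (hw.sub (C.r_isSelfAdjoint f)).star_eq, hw.star_eq, C.star_r]
    simp only [sub_mul, mul_sub, C.tr_sub]
    rw [C.tr_comm w (C.r f), h1]
    ring
  linarith

omit [CompactSpace X] [T2Space X] [TotallyDisconnectedSpace X] in
lemma IsCol.prod {P : κ → C(X, ℝ)} {Q : κ' → C(X, ℝ)} (hP : IsCol P) (hQ : IsCol Q) :
    IsCol (fun q : κ × κ' => P q.1 * Q q.2) := by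
  refine ⟨fun q t => ?_, ?_⟩
  · rcases hP.1 q.1 t with h | h <;> rcases hQ.1 q.2 t with h' | h' <;> simp [h, h']
  · rw [Fintype.sum_prod_type]
    simp only [← Finset.mul_sum, hQ.2, mul_one, hP.2]

lemma spinch_prod (P : κ → C(X, ℝ)) (Q : κ' → C(X, ℝ)) (z : M) :
    C.spinch (fun q : κ × κ' => P q.1 * Q q.2) z = C.spinch P (C.spinch Q z) := by
  simp only [spinch, Fintype.sum_prod_type, Finset.mul_sum, Finset.sum_mul]
  refine Finset.sum_congr rfl fun i _ => Finset.sum_congr rfl fun j _ => ?_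
  rw [C.r_mul]
  conv_lhs => arg 2; rw [C.r_comm]
  simp only [mul_assoc]

omit [CompactSpace X] [T2Space X] [TotallyDisconnectedSpace X] in
lemma IsCol.comp_equiv {P : κ → C(X, ℝ)} (hP : IsCol P) (e : κ' ≃ κ) : IsCol (P ∘ e) :=
  ⟨fun i => hP.1 (e i), (Equiv.sum_comp e P).trans hP.2⟩

lemma spinch_comp_equiv (P : κ → C(X, ℝ)) (e : κ' ≃ κ) (z : M) :
    C.spinch (P ∘ e) z = C.spinch P z :=
  Equiv.sum_comp e fun i => C.r (P i) * z * C.r (P i)

lemma le_add_pos_part {A : M} (hA : IsSelfAdjoint A) (c : ℝ) :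
    A - cfc (fun t => max (t - c) 0) A ≤ algebraMap ℝ M c := by
  have : A - cfc (fun t => max (t - c) 0) A = cfc (fun t : ℝ => t - max (t - c) 0) A := by
    rw [cfc_sub (fun t => t) (fun t => max (t - c) 0) A, cfc_id' ℝ A]
  rw [this]
  exact cfc_le_algebraMap _ _ A fun t _ => by linarith [le_max_left (t - c) 0]

/-- Two one-sided pavings give a two-sided one. -/
lemma exists_two_sided {c : ℝ} (hc : 0 < c) {r : ℕ} {δ ζ : ℝ}
    (h : ∀ w : M, IsSelfAdjoint w → ‖w‖ ≤ 1 → C.n2sq (C.r (C.Er w)) ≤ ζ →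
      ∃ P : Fin r → C(X, ℝ), IsCol P ∧ C.n2sq (cfc (fun t => max (t - c) 0) (C.spinch P w)) ≤ δ)
    {x : M} (hx : IsSelfAdjoint x) (hx1 : ‖x‖ ≤ 1) (hE : C.n2sq (C.r (C.Er x)) ≤ ζ) :
    ∃ (R : Fin (r * r) → C(X, ℝ)) (y : M), IsCol R ∧ IsSelfAdjoint y ∧ ‖y‖ ≤ c ∧
      C.n2sq (C.spinch R x - y) ≤ 4 * δ := by
  obtain ⟨P, hP, hPb⟩ := h x hx hx1 hE
  set y := C.spinch P x with hy
  have hys : IsSelfAdjoint y := C.spinch_isSelfAdjoint P hx
  obtain ⟨Q, hQ, hQb⟩ := h (-y) hys.neg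
    (by rw [norm_neg]; exact (C.norm_spinch_le hP hx).trans hx1)
    (by rw [C.Er_neg, C.r_neg, C.n2sq_neg, C.Er_spinch hP]; exact hE)
  set z := C.spinch Q y with hz
  have hzs : IsSelfAdjoint z := C.spinch_isSelfAdjoint Q hys
  set pos : ℝ → ℝ := fun t => max (t - c) 0
  have hup : C.n2sq (cfc pos z) ≤ δ := by
    have hpz : IsSelfAdjoint (cfc pos y) := cfc_predicate (R := ℝ) _ y
    refine (C.n2sq_posPart_le hzs (C.spinch_le hQ (le_add_pos_part hys c))
      (C.spinch_isSelfAdjoint Q (hys.sub hpz))).trans ?_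
    rw [hz, C.spinch_sub Q y, sub_sub_cancel]
    exact (C.n2sq_spinch_le hQ hpz).trans hPb
  have hlow : C.n2sq (cfc (fun t => max (-t - c) 0) z) ≤ δ := by
    rwa [C.spinch_neg, ← hz, ← cfc_comp_neg pos z] at hQb
  refine ⟨(fun q : Fin r × Fin r => Q q.1 * P q.2) ∘ finProdFinEquiv.symm,
    cfc (fun t : ℝ => max (-c) (min t c)) z, (hQ.prod hP).comp_equiv _,
    cfc_predicate (R := ℝ) _ z, ?_, ?_⟩
  · refine norm_cfc_le hc.le fun t _ => ?_
    rw [Real.norm_eq_abs, abs_le]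
    exact ⟨le_max_left _ _, max_le (by linarith) (min_le_right _ _)⟩
  rw [C.spinch_comp_equiv, C.spinch_prod, ← hy, ← hz]
  have e : z - cfc (fun t : ℝ => max (-c) (min t c)) z =
      cfc pos z + -cfc (fun t => max (-t - c) 0) z := by
    conv_lhs => arg 1; rw [← cfc_id' ℝ z]
    rw [← cfc_sub _ _ z, ← sub_eq_add_neg, ← cfc_sub _ _ z]
    refine cfc_congr fun t _ => ?_
    simp only [pos]
    rcases le_total t c with h1 | h1 <;> rcases le_total (-c) t with h2 | h2
    · rw [min_eq_left h1, max_eq_right h2, max_eq_right (by linarith : t - c ≤ 0),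
        max_eq_right (by linarith : -t - c ≤ 0)]; ring
    · rw [min_eq_left h1, max_eq_left h2, max_eq_right (by linarith : t - c ≤ 0),
        max_eq_left (by linarith : (0:ℝ) ≤ -t - c)]; ring
    · rw [min_eq_right h1, max_eq_right (by linarith : -c ≤ c),
        max_eq_left (by linarith : (0:ℝ) ≤ t - c), max_eq_right (by linarith : -t - c ≤ 0)]; ring
    · linarith
  rw [e]
  refine (C.n2sq_add_le_two _ _).trans ?_
  rw [C.n2sq_neg]
  linarith

end Core

open Vale.Agent.P078.Tracial.Core in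
/-- The iterated statement. -/
lemma exists_iterate.{u, v} {c : ℝ} (hc : 0 < c) {r : ℕ} (h : OneSided.{u, v} c r) (k : ℕ) :
    ∀ δ > 0, ∃ ζ > 0, ∀ (M : Type u) (X : Type v) [CStarAlgebra M] [PartialOrder M]
      [StarOrderedRing M] [TopologicalSpace X] [CompactSpace X] [T2Space X]
      [TotallyDisconnectedSpace X] (C : Core M X) (x : M), IsSelfAdjoint x → ‖x‖ ≤ 1 →
      C.n2sq (C.r (C.Er x)) ≤ ζ →
      ∃ (P : Fin ((r * r) ^ k) → C(X, ℝ)) (y : M), IsCol P ∧ IsSelfAdjoint y ∧ ‖y‖ ≤ c ^ k ∧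
        C.n2sq (C.spinch P x - y) ≤ δ := by
  induction k with
  | zero =>
    intro δ hδ
    refine ⟨1, one_pos, fun M X _ _ _ _ _ _ _ C x hx hx1 _ => ⟨fun _ => 1, x, ?_, hx, by simpa, ?_⟩⟩
    · refine ⟨fun i t => Or.inr rfl, ?_⟩
      rw [Finset.sum_const, Finset.card_univ, Fintype.card_fin, pow_zero, one_nsmul]
    · have : C.spinch (fun _ : Fin ((r * r) ^ 0) => (1 : C(X, ℝ))) x = x := by
        simp only [Core.spinch, C.r_one, one_mul, mul_one]
        rw [Finset.sum_const, Finset.card_univ, Fintype.card_fin, pow_zero, one_nsmul]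
      rw [this, sub_self]
      simp [Core.n2sq, C.tr_zero, hδ.le]
  | succ k ih =>
    intro δ hδ
    set a := c ^ k with hak
    have ha : 0 < a := pow_pos hc k
    obtain ⟨ζ', hζ', hstep⟩ := h (δ / (16 * a ^ 2)) (by positivity)
    obtain ⟨ζ1, hζ1, hin⟩ := ih (min (δ / 4) (ζ' * a ^ 2 / 4)) (lt_min (by positivity) (by positivity))
    refine ⟨min ζ1 (ζ' * a ^ 2 / 4), lt_min hζ1 (by positivity),
      fun M X _ _ _ _ _ _ _ C x hx hx1 hE => ?_⟩
    obtain ⟨P, y, hP, hys, hy, hb⟩ := hin M X C x hx hx1 (hE.trans (min_le_left _ _))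
    set e := C.spinch P x - y
    have hes : IsSelfAdjoint e := (C.spinch_isSelfAdjoint P hx).sub hys
    set w := a⁻¹ • y
    have hws : IsSelfAdjoint w := (IsSelfAdjoint.all _).smul hys
    have hw1 : ‖w‖ ≤ 1 := by
      rw [norm_smul, Real.norm_eq_abs, abs_of_pos (inv_pos.2 ha), inv_mul_le_iff₀ ha, mul_one]
      exact hy
    have hwE : C.n2sq (C.r (C.Er w)) ≤ ζ' := by
      rw [C.Er_smul, C.r_smul, C.n2sq_real_smul]
      have h1 : C.n2sq (C.r (C.Er y)) ≤ ζ' * a ^ 2 := by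
        have : C.r (C.Er y) = C.r (C.Er x) + -C.r (C.Er e) := by
          simp only [e, C.Er_sub, C.Er_spinch hP, C.r_sub]
          abel
        rw [this]
        refine (C.n2sq_add_le_two _ _).trans ?_
        rw [C.n2sq_neg]
        linarith [C.n2sq_r_Er_le hes, hb.trans (min_le_right _ _), hE.trans (min_le_right ζ1 _)]
      calc (a⁻¹) ^ 2 * C.n2sq (C.r (C.Er y)) ≤ (a⁻¹) ^ 2 * (ζ' * a ^ 2) :=
            mul_le_mul_of_nonneg_left h1 (sq_nonneg _)
        _ = ζ' := by field_simp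
    obtain ⟨R, v, hR, hvs, hv, hvb⟩ := C.exists_two_sided hc
      (δ := δ / (16 * a ^ 2)) (ζ := ζ')
      (fun u hu hu1 huE => by
        obtain ⟨P', h1, h2, h3⟩ := hstep M X C u hu hu1 huE
        exact ⟨P', ⟨h1, h2⟩, h3⟩) hws hw1 hwE
    let eqv : Fin ((r * r) ^ (k + 1)) ≃ Fin (r * r) × Fin ((r * r) ^ k) :=
      (finCongr (pow_succ' (r * r) k)).trans finProdFinEquiv.symm
    refine ⟨(fun q => R q.1 * P q.2) ∘ eqv, a • v, (hR.prod hP).comp_equiv eqv,
      (IsSelfAdjoint.all _).smul hvs, ?_, ?_⟩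
    · rw [norm_smul, Real.norm_eq_abs, abs_of_pos ha, pow_succ]
      exact mul_le_mul_of_nonneg_left hv ha.le
    rw [C.spinch_comp_equiv, C.spinch_prod]
    have key : C.spinch R (C.spinch P x) - a • v = C.spinch R e + a • (C.spinch R w - v) := by
      have : y = a • w := by simp [w, smul_smul, mul_inv_cancel₀ ha.ne']
      simp only [e, C.spinch_sub, smul_sub, ← C.spinch_smul, ← this]
      abel
    rw [key]
    refine (C.n2sq_add_le_two _ _).trans ?_
    rw [C.n2sq_real_smul]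
    have h1 := C.n2sq_spinch_le hR hes
    have h2 : a ^ 2 * C.n2sq (C.spinch R w - v) ≤ δ / 4 := by
      calc a ^ 2 * C.n2sq (C.spinch R w - v) ≤ a ^ 2 * (4 * (δ / (16 * a ^ 2))) :=
            mul_le_mul_of_nonneg_left hvb (sq_nonneg _)
        _ = δ / 4 := by field_simp; ring
    linarith [hb.trans (min_le_left _ _)]

theorem pavingConclusion_of_oneSided.{u, v} {c : ℝ} (hc : 0 < c) {r : ℕ}
    (h : OneSided.{u, v} c r) (k : ℕ) {ε : ℝ} (hε : 2 * c ^ k ≤ ε) :
    PavingConclusion.{u, v} ε ((r * r) ^ k) := by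
  intro M X _ _ _ _ _ _ _ C x hx hx1 δ hδ
  obtain ⟨ζ, hζ, hin⟩ := exists_iterate hc h k (δ / 4) (by positivity)
  set x' := (1 / 2 : ℝ) • (x - C.r (C.Er x)) with hx'
  have hx's : IsSelfAdjoint x' :=
    (IsSelfAdjoint.all _).smul (hx.sub (C.r_isSelfAdjoint _))
  have hx'1 : ‖x'‖ ≤ 1 := by
    rw [hx', norm_smul]
    have := norm_sub_le x (C.r (C.Er x))
    have := (C.norm_r_le (C.Er x)).trans (C.norm_Er_le hx)
    norm_num
    linarith
  have hE : C.n2sq (C.r (C.Er x')) ≤ ζ := by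
    rw [hx', C.Er_smul, C.Er_sub, C.Er_r, sub_self, smul_zero, C.r_zero]
    simp [Core.n2sq, C.tr_zero, hζ.le]
  obtain ⟨P, y, hP, hys, hy, hb⟩ := hin M X C x' hx's hx'1 hE
  refine ⟨P, (2 : ℝ) • y, hP.1, hP.2, (IsSelfAdjoint.all _).smul hys, ?_, ?_⟩
  · rw [norm_smul]; norm_num; linarith
  · change C.n2sq (C.spinch P x - C.r (C.Er x) - (2 : ℝ) • y) ≤ δ
    have : C.spinch P x - C.r (C.Er x) - (2 : ℝ) • y = (2 : ℝ) • (C.spinch P x' - y) := by
      rw [hx', C.spinch_smul, C.spinch_sub, C.spinch_r hP, smul_sub _ _ y, smul_smul]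
      norm_num
    rw [this, C.n2sq_real_smul]
    linarith

end Vale.Agent.P078.Tracial
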