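import Vale.Agent.P078.Tracial.Clean

/-! The initial state has a small potential, and a state with small unassigned set gives a
paving. -/

namespace Vale.Agent.P078.Tracial

set_option linter.unusedSectionVars false

open Filter Topology ComplexOrder Scalar

variable {M X : Type*} [CStarAlgebra M] [PartialOrder M] [StarOrderedRing M]
variable [TopologicalSpace X] [CompactSpace X] [T2Space X] [TotallyDisconnectedSpace X]

/-- The scalar unit `9 / 5`. -/
noncomputable def G0 (M : Type*) [CStarAlgebra M] : Mˣ :=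
  Units.map (algebraMap ℝ M).toMonoidHom (Units.mk0 (9 / 5 : ℝ) (by norm_num))

@[simp] theorem G0_val : (G0 M : M) = algebraMap ℝ M (9 / 5) := rfl

@[simp] theorem G0_inv : (↑(G0 M)⁻¹ : M) = algebraMap ℝ M (5 / 9) := by
  simp [G0]

/-- The initial state. -/
noncomputable def start (M X : Type*) [CStarAlgebra M] [TopologicalSpace X] (r : ℕ) :
    Config M X r :=
  ⟨fun _ => 0, fun _ => 1, fun _ => ContinuousMap.const X (1 / r : ℝ), fun _ => G0 M⟩

theorem start_ok {r : ℕ} (hr : 0 < r) : (start M X r).Ok where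
  ass_01 _ _ := Or.inl rfl
  act_01 _ _ := Or.inr rfl
  U_01 x := Or.inr (by simp [Config.U, start])
  act_le c x := by simp [Config.U, start]
  b_sum := by
    ext x
    have : (r : ℝ) ≠ 0 := by positivity
    simp [Config.U, start, this]
  b_supp c x h := by simp [Config.U, start] at h
  b_drop c x h := by simp [start] at h
  b_act c x _ := by
    have : (0 : ℝ) ≤ (r : ℝ)⁻¹ := by positivity
    simp [start, b1]
    linarith
  G_nonneg c := by
    show 0 ≤ (G0 M : M)
    rw [G0_val, Algebra.algebraMap_eq_smul_one]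
    exact smul_nonneg (by norm_num) zero_le_one

theorem φ_start {r : ℕ} (hr : 2000000 ≤ r) : φ (1 / r : ℝ) (9 / 10) ≤ 37 / 100 := by
  have hb : (1 / r : ℝ) ≤ 1 / 2000000 := by
    apply one_div_le_one_div_of_le (by norm_num)
    exact_mod_cast hr
  have h0 : (0 : ℝ) ≤ 1 / r := by positivity
  have hs : max ((1 / r : ℝ) / α + (9 / 10) ^ 2 + c0) (1 / 2) ≤ (12173 / 10000) ^ 2 := by
    refine max_le ?_ (by norm_num)
    unfold α c0
    rw [div_div_eq_mul_div, div_one]
    linarith
  refine (F_mono (le_max_right _ _) hs).trans ?_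
  unfold F
  rw [Real.sqrt_sq (by norm_num)]
  norm_num [A0, B0]

/-- The absolute value of a function. -/
noncomputable def absC (f : C(X, ℝ)) : C(X, ℝ) := ⟨fun x => |f x|, by fun_prop⟩

namespace Core

variable (C : Core M X) {p : M} {σ l ν : ℝ} {r : ℕ}

theorem ig_abs_le (f : C(X, ℝ)) : C.ig (absC f) ≤ Real.sqrt (C.n2sq (C.r f)) := by
  have h := C.abs_tr_mul_le (C.r (absC f)) 1
  have h1 : C.n2sq (1 : M) = 1 := by simp [n2sq, C.tr_one]
  have h2 : C.n2sq (C.r (absC f)) = C.n2sq (C.r f) := by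
    have : absC f * absC f = f * f := by ext x; simp [absC]
    simp [n2sq, C.star_r, ← C.r_mul, this]
  rw [mul_one, h1, Real.sqrt_one, mul_one, h2] at h
  exact (le_abs_self _).trans h

theorem Psi_start_le (hP : Par p σ l ν) (hr : 2000000 ≤ r) {x : M}
    (hpp : p * p = (1 / 2 : ℝ) • (1 + (99 / 100 : ℝ) • x)) :
    C.Psi p σ l ν (start M X r)
      ≤ r * (σ + l * u0 + 6 * Real.sqrt (C.n2sq (C.r (C.Er x))) + 2 * ν) := by
  set q : C(X, ℝ) := absC ((891 / 1000 : ℝ) • C.Er x) with hq
  have hgam : C.gam p (G0 M) = ContinuousMap.const X (9 / 10) + (891 / 1000 : ℝ) • C.Er x := by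
    rw [gam, G0_val, Algebra.algebraMap_eq_smul_one, mul_smul_comm, mul_one, smul_mul_assoc,
      hpp, C.Er_smul, C.Er_smul, C.Er_add, C.Er_smul, C.Er_one]
    ext y
    simp
    ring
  have hG : 0 ≤ (G0 M : M) := (start_ok (M := M) (X := X) (by linarith : 0 < r)).G_nonneg
    ⟨0, by linarith⟩
  set w : C(X, ℝ) := C.wt p 1 0 (ContinuousMap.const X (1 / r : ℝ)) (G0 M) with hw
  have hwle : w ≤ ContinuousMap.const X (37 / 100) + (q + q) := by
    refine ContinuousMap.le_def.2 fun y => ?_
    have hφ := φ_start hr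
    have hb : -b1 ≤ (1 / r : ℝ) := le_trans (by norm_num [b1]) (by positivity : (0:ℝ) ≤ 1 / r)
    have hg0 := ContinuousMap.le_def.1 (C.gam_nonneg hP.p_nonneg hG) y
    have hgy : C.gam p (G0 M) y = 9 / 10 + 891 / 1000 * C.Er x y := by
      rw [hgam]; simp
    have key : φ (1 / r : ℝ) (C.gam p (G0 M) y) ≤ 37 / 100 + 2 * |891 / 1000 * C.Er x y| := by
      rcases le_total (C.gam p (G0 M) y) (9 / 10) with h | h
      · linarith [φ_mono_γ (1 / r : ℝ) (by simpa using hg0) h,
          abs_nonneg (891 / 1000 * C.Er x y)]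
      · have h1 := φ_lip (γ := 9 / 10) hb h
        linarith [le_abs_self (891 / 1000 * C.Er x y)]
    simp only [hw, wt, ContinuousMap.add_apply, φc_apply, ContinuousMap.const_apply, add_zero,
      one_mul]
    have : q y = |891 / 1000 * C.Er x y| := by simp [hq, absC]
    rw [this]
    linarith
  have hq0 : 0 ≤ q + q := ContinuousMap.le_def.2 fun y => by
    simp [hq, absC]
  have hm : C.mat p 1 0 (ContinuousMap.const X (1 / r : ℝ)) (G0 M)
      ≤ algebraMap ℝ M u0 + p * C.r (q + q) * p := by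
    rw [mat, G0_inv, ← hw]
    calc algebraMap ℝ M (5 / 9) + p * C.r w * p
        ≤ algebraMap ℝ M (5 / 9) + p * C.r (ContinuousMap.const X (37 / 100) + (q + q)) * p := by
          gcongr
          exact conjugate_le_conjugate_of_nonneg (C.r_mono hwle) hP.p_nonneg
      _ ≤ algebraMap ℝ M u0 + p * C.r (q + q) * p := by
          rw [C.r_add, mul_add, add_mul, ← add_assoc]
          gcongr
          rw [C.r_const, Algebra.algebraMap_eq_smul_one, Algebra.algebraMap_eq_smul_one,
            mul_smul_comm, mul_one, smul_mul_assoc]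
          calc (5 / 9 : ℝ) • (1 : M) + (37 / 100 : ℝ) • (p * p)
              ≤ (5 / 9 : ℝ) • (1 : M) + (37 / 100 : ℝ) • (1 : M) := by
                gcongr; exact hP.pp_le
            _ = ((5 / 9 + 37 / 100 : ℝ)) • (1 : M) := (add_smul _ _ _).symm
            _ ≤ u0 • (1 : M) := smul_le_smul_of_nonneg_right (by norm_num [u0]) zero_le_one
            _ = algebraMap ℝ M u0 := (Algebra.algebraMap_eq_smul_one _).symm
  have hE := conjugate_nonneg_of_nonneg (C.r_nonneg hq0) hP.p_nonneg
  have hsa : IsSelfAdjoint (algebraMap ℝ M u0) := IsSelfAdjoint.algebraMap M (.all u0)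
  have h1 := C.tr_f_mono hP.σ_pos hP.l_pos.le (hsa.add (IsSelfAdjoint.of_nonneg hE)) hm
  have h2 := C.tr_f_add_le (l := l) hP.σ_pos hsa hE
  have h3 : C.tr (cfc (f u0 σ l) (algebraMap ℝ M u0)) ≤ σ + l * u0 := by
    rw [cfc_algebraMap, C.tr_algebraMap]
    exact f_le_of_le hP.σ_pos.le hP.l_pos.le le_rfl
  have h4 : C.tr (p * C.r (q + q) * p) ≤ 2 * Real.sqrt (C.n2sq (C.r (C.Er x))) := by
    refine (C.tr_r_conj_le hP hq0).trans ?_
    have hle : q ≤ absC (C.Er x) := ContinuousMap.le_def.2 fun y => by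
      simp [hq, absC, abs_mul]
      nlinarith [abs_nonneg (C.Er x y)]
    rw [C.ig_add]
    linarith [C.ig_mono hle, C.ig_abs_le (C.Er x)]
  have hpot : C.pot p σ l ν 1 0 (ContinuousMap.const X (1 / r : ℝ)) (G0 M)
      ≤ σ + l * u0 + 6 * Real.sqrt (C.n2sq (C.r (C.Er x))) + 2 * ν := by
    have hE0 := C.tr_nonneg hE
    have h5 : (2 + l) * C.tr (p * C.r (q + q) * p)
        ≤ 3 * (2 * Real.sqrt (C.n2sq (C.r (C.Er x)))) :=
      mul_le_mul (by linarith [hP.l_le]) h4 hE0 (by norm_num)
    rw [pot, G0_val, C.tr_algebraMap]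
    nlinarith [hP.ν_pos]
  calc C.Psi p σ l ν (start M X r)
      = ∑ _c : Fin r, C.pot p σ l ν 1 0 (ContinuousMap.const X (1 / r : ℝ)) (G0 M) := rfl
    _ ≤ _ := by
      rw [Finset.sum_const, Finset.card_univ, Fintype.card_fin, nsmul_eq_mul]
      exact mul_le_mul_of_nonneg_left hpot (by positivity)

theorem n2sq_conj_le_of_norm {e y : M} (he : ‖e‖ ≤ 1) : C.n2sq (e * y * e) ≤ C.n2sq y := by
  have h1 := (C.n2sq_mul_le e (e * y)).2
  have h2 := (C.n2sq_mul_le e y).1
  have hn : ∀ z, 0 ≤ C.n2sq z := fun z => C.tr_nonneg (star_mul_self_nonneg z)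
  have he2 : ‖e‖ ^ 2 ≤ 1 := pow_le_one₀ (norm_nonneg e) he
  nlinarith [hn y, hn (e * y), mul_le_mul_of_nonneg_right he2 (hn (e * y)),
    mul_le_mul_of_nonneg_right he2 (hn y)]

theorem sqrt_n2sq_sum_le {α : Type*} (s : Finset α) (f : α → M) :
    Real.sqrt (C.n2sq (∑ i ∈ s, f i)) ≤ ∑ i ∈ s, Real.sqrt (C.n2sq (f i)) := by
  classical
  induction s using Finset.induction_on with
  | empty => simp [n2sq, C.tr_zero]
  | insert a s ha ih =>
    rw [Finset.sum_insert ha, Finset.sum_insert ha]
    exact (C.sqrt_n2sq_add_le _ _).trans (by linarith)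

/-- A state with small potential and small unassigned set gives a one-sided paving. -/
theorem exists_paving_of_state (hP : Par p σ l ν) {x : M} (hx : IsSelfAdjoint x)
    (hpp : p * p = (1 / 2 : ℝ) • (1 + (99 / 100 : ℝ) • x))
    (hr : 0 < r) {s : Config M X r} (hs : s.Ok) {η : ℝ}
    (hη : C.Psi p σ l ν s + 3 * C.ig s.U ≤ η) :
    ∃ P : Fin r → C(X, ℝ), (∀ i t, P i t = 0 ∨ P i t = 1) ∧ ∑ i, P i = 1 ∧
      C.n2sq (cfc (fun t : ℝ => max (t - 87 / 100) 0) (∑ i, C.r (P i) * x * C.r (P i)))
        ≤ 5 * (r : ℝ) ^ 2 * η := by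
  classical
  set c0 : Fin r := ⟨0, hr⟩
  set P : Fin r → C(X, ℝ) := fun c => s.ass c + if c = c0 then s.U else 0 with hPdef
  have hP01 : ∀ i t, P i t = 0 ∨ P i t = 1 := fun i t => by
    rcases hs.U_01 t with h | h
    · by_cases hc : i = c0 <;> simpa [hPdef, hc, h] using hs.ass_01 _ t
    · by_cases hc : i = c0 <;> simp [hPdef, hc, h, hs.ass_eq_zero h]
  have hPsum : ∑ i, P i = 1 := by
    simp [hPdef, Finset.sum_add_distrib, Config.U]
  refine ⟨P, hP01, hPsum, ?_⟩
  set e : Fin r → M := fun c => C.r (P c) with he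
  have hee : ∀ c, e c * e c = e c := fun c => by
    simp only [he, ← C.r_mul]
    congr 1
    ext t
    rcases hP01 c t with h | h <;> simp [h]
  have hen : ∀ c, ‖e c‖ ≤ 1 := fun c => (C.norm_r_le _).trans <| by
    refine (ContinuousMap.norm_le _ zero_le_one).2 fun t => ?_
    rcases hP01 c t with h | h <;> simp [h]
  have he1 : ∀ c, e c ≤ 1 := fun c => C.r_comp_le_one fun t => by
    rcases hP01 c t with h | h <;> simp [h]
  have he0 : ∀ c, 0 ≤ e c := fun c => C.r_nonneg <| ContinuousMap.le_def.2 fun t => by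
    rcases hP01 c t with h | h <;> simp [h]
  have hps : star p = p := (IsSelfAdjoint.of_nonneg hP.p_nonneg).star_eq
  set T := p * p with hT
  set g : ℝ → ℝ := fun t => max (t - u0) 0 with hg
  have hgc : Continuous g := by fun_prop
  set y : Fin r → M := fun c => cfc g (e c * T * e c) with hy
  have hsa : ∀ c, IsSelfAdjoint (e c * T * e c) := fun c =>
    (IsSelfAdjoint.of_nonneg (hP.pp_ge.trans' (by
      rw [Algebra.algebraMap_eq_smul_one]
      exact smul_nonneg (by norm_num) zero_le_one))).conjugate_self (C.r_isSelfAdjoint _)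
  have hyb : ∀ c, C.n2sq (y c) ≤ η := fun c => by
    have hT1 : e c * T * e c ≤ algebraMap ℝ M 1 := by
      rw [map_one]
      refine (conjugate_le_conjugate_of_nonneg hP.pp_le (he0 c)).trans ?_
      rw [mul_one, hee c]; exact he1 c
    have hy2 : star (y c) * y c ≤ y c := by
      rw [(IsSelfAdjoint.cfc : IsSelfAdjoint (y c)).star_eq, hy, ← cfc_mul g g _]
      refine cfc_mono fun t ht => ?_
      have ht1 : t ≤ 1 := (le_algebraMap_iff_spectrum_le (hsa c)).1 hT1 t ht
      have h0 : 0 ≤ g t := le_max_right _ _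
      have h1 : g t ≤ 1 := max_le (by norm_num [u0]; linarith) zero_le_one
      nlinarith
    refine (C.tr_mono hy2).trans ?_
    -- compare with the potential
    set z := e c * p with hz
    have hzz : star z * z = p * e c * p := by
      rw [hz, star_mul, hps, (C.r_isSelfAdjoint (P c)).star_eq, mul_assoc, ← mul_assoc (e c),
        hee c, ← mul_assoc]
    have hzz' : z * star z = e c * T * e c := by
      rw [hz, star_mul, hps, (C.r_isSelfAdjoint (P c)).star_eq, hT]
      simp only [he, mul_assoc]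
    have hup : C.tr (cfc (f u0 σ l) (star z * z)) ≤ η := by
      rw [hzz]
      have hG := hs.G_nonneg c
      have hm : p * C.r (s.ass c) * p ≤ C.mat p (s.act c) (s.ass c) (s.b c) (s.G c) := by
        refine le_trans ?_ (le_add_of_nonneg_left (units_inv_nonneg hG))
        refine conjugate_le_conjugate_of_nonneg (C.r_mono ?_) hP.p_nonneg
        refine ContinuousMap.le_def.2 fun t => ?_
        rcases hs.act_01 c t with h | h
        · simp [wt, h]
        · simp [wt, h, φ_nonneg _ (hs.b_act c t h)]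
      have hA : IsSelfAdjoint (p * C.r (s.ass c) * p) :=
        (C.r_isSelfAdjoint _).conjugate_self (IsSelfAdjoint.of_nonneg hP.p_nonneg)
      have h1 := C.tr_f_mono hP.σ_pos hP.l_pos.le (C.mat_isSelfAdjoint hP.p_nonneg _ _ _ hG) hm
      have h2 : C.tr (cfc (f u0 σ l) (C.mat p (s.act c) (s.ass c) (s.b c) (s.G c)))
          ≤ C.Psi p σ l ν s := by
        refine le_trans ?_ (Finset.single_le_sum
          (fun d _ => C.pot_nonneg hP (hs.col d) (hs.G_nonneg d)) (Finset.mem_univ c))
        unfold pot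
        have := mul_nonneg hP.ν_pos.le (C.tr_nonneg hG)
        linarith
      have hU0 : 0 ≤ s.U := ContinuousMap.le_def.2 fun t => by
        rcases hs.U_01 t with h | h <;> simp [h]
      set E := p * C.r (if c = c0 then s.U else 0) * p
      have hE0 : 0 ≤ (if c = c0 then s.U else 0) := by split_ifs <;> simp [hU0]
      have h3 := C.tr_f_add_le (l := l) hP.σ_pos hA
        (conjugate_nonneg_of_nonneg (C.r_nonneg hE0) hP.p_nonneg)
      have h4 : C.tr E ≤ C.ig s.U := (C.tr_r_conj_le hP hE0).trans (C.ig_mono (by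
        split_ifs <;> simp [hU0]))
      have h5 : p * e c * p = p * C.r (s.ass c) * p + E := by
        simp only [E, he, hPdef, C.r_add, mul_add, add_mul]
      rw [h5]
      have h6 : (2 + l) * C.tr E ≤ 3 * C.ig s.U :=
        mul_le_mul (by linarith [hP.l_le]) h4
          (C.tr_nonneg (conjugate_nonneg_of_nonneg (C.r_nonneg hE0) hP.p_nonneg)) (by norm_num)
      linarith
    rw [C.tr_cfc_star_mul continuous_f z, hzz'] at hup
    refine le_trans ?_ hup
    refine C.tr_mono (cfc_mono (fun t ht => ?_) hgc.continuousOn continuous_f.continuousOn)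
    have hnn : 0 ≤ e c * T * e c :=
      conjugate_nonneg_of_nonneg
        (hP.pp_ge.trans' (by
          rw [Algebra.algebraMap_eq_smul_one]
          exact smul_nonneg (by norm_num) zero_le_one)) (he0 c)
    have ht0 := spectrum_nonneg_of_nonneg hnn ht
    have := f_ge_posPart (u := u0) (σ := σ) hP.l_pos.le ht0
    linarith [le_max_right (t - u0) 0]
  set S := ∑ c, e c * T * e c with hS
  set Z := ∑ c, e c * y c * e c with hZ
  have hSle : S ≤ algebraMap ℝ M u0 + Z := by
    have : ∀ c, e c * T * e c ≤ u0 • e c + e c * y c * e c := fun c => by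
      have h : e c * T * e c ≤ algebraMap ℝ M u0 + y c := by
        nth_rewrite 1 [← cfc_id' ℝ (e c * T * e c) (hsa c)]
        rw [hy, ← cfc_const_add u0 g _]
        exact cfc_mono fun t _ => by simp only [hg]; linarith [le_max_left (t - u0) 0]
      have h' := conjugate_le_conjugate_of_nonneg h (he0 c)
      have hl : e c * (e c * T * e c) * e c = e c * T * e c := by
        simp only [mul_assoc, hee c]
        simp only [← mul_assoc, hee c]
      rw [hl, mul_add, add_mul, Algebra.algebraMap_eq_smul_one, mul_smul_comm, mul_one,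
        smul_mul_assoc, hee c] at h'
      exact h'
    refine (Finset.sum_le_sum fun c _ => this c).trans_eq ?_
    rw [Finset.sum_add_distrib, ← Finset.smul_sum, ← C.r_sum, hPsum, C.r_one,
      Algebra.algebraMap_eq_smul_one]
  have hxT : x = (100 / 99 : ℝ) • ((2 : ℝ) • T - 1) := by
    rw [hpp, smul_smul, smul_sub, smul_smul, smul_add, smul_smul]
    norm_num
  set A := ∑ i, C.r (P i) * x * C.r (P i) with hA
  have hAS : A = (100 / 99 : ℝ) • ((2 : ℝ) • S - 1) := by
    rw [hA, Finset.sum_congr rfl (fun c (_ : c ∈ Finset.univ) =>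
      (show C.r (P c) * x * C.r (P c) = (100 / 99 : ℝ) • ((2 : ℝ) • (e c * T * e c) - e c) by
        rw [hxT]
        simp only [mul_sub, sub_mul, mul_smul_comm, smul_mul_assoc, mul_one]
        rw [show C.r (P c) * C.r (P c) = e c from hee c])),
      ← Finset.smul_sum, Finset.sum_sub_distrib, ← Finset.smul_sum, hS]
    rw [show (∑ c, e c) = (1 : M) by rw [← C.r_sum, hPsum, C.r_one]]
  set B := A - (200 / 99 : ℝ) • Z with hB
  have hBle : B ≤ algebraMap ℝ M (87 / 100) := by
    rw [hB, hAS, sub_le_iff_le_add]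
    calc (100 / 99 : ℝ) • ((2 : ℝ) • S - 1)
        ≤ (100 / 99 : ℝ) • ((2 : ℝ) • (algebraMap ℝ M u0 + Z) - 1) := by gcongr
      _ = ((100 / 99 : ℝ) * (2 * u0 - 1)) • (1 : M) + (200 / 99 : ℝ) • Z := by
          rw [Algebra.algebraMap_eq_smul_one]; module
      _ ≤ algebraMap ℝ M (87 / 100) + (200 / 99 : ℝ) • Z := by
          rw [Algebra.algebraMap_eq_smul_one]
          gcongr
          norm_num [u0]
  have hysa : ∀ c, IsSelfAdjoint (e c * y c * e c) := fun c =>
    (IsSelfAdjoint.cfc : IsSelfAdjoint (y c)).conjugate_self (C.r_isSelfAdjoint _)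
  have hAsa : IsSelfAdjoint A :=
    isSelfAdjoint_sum _ fun c _ => hx.conjugate_self (C.r_isSelfAdjoint _)
  have hZsa : IsSelfAdjoint Z := isSelfAdjoint_sum _ fun c _ => hysa c
  refine (C.n2sq_posPart_le hAsa hBle (hAsa.sub ((IsSelfAdjoint.all _).smul hZsa))).trans ?_
  rw [sub_sub_cancel]
  have hn : C.n2sq ((200 / 99 : ℝ) • Z) = (200 / 99) ^ 2 * C.n2sq Z := by
    simp [n2sq, C.tr_smul, smul_smul, sq]
  have hη0 : 0 ≤ η := by
    refine le_trans ?_ hη
    have := C.ig_nonneg (f := s.U) (ContinuousMap.le_def.2 fun t => by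
      rcases hs.U_01 t with h | h <;> simp [h])
    linarith [C.Psi_nonneg hP hs]
  have hZb : Real.sqrt (C.n2sq Z) ≤ r * Real.sqrt η := by
    refine (C.sqrt_n2sq_sum_le _ _).trans ((Finset.sum_le_sum fun c _ =>
      Real.sqrt_le_sqrt ((C.n2sq_conj_le_of_norm (hen c)).trans (hyb c))).trans_eq ?_)
    simp
  have hZb2 : C.n2sq Z ≤ (r : ℝ) ^ 2 * η := by
    calc C.n2sq Z = Real.sqrt (C.n2sq Z) ^ 2 :=
          (Real.sq_sqrt (C.tr_nonneg (star_mul_self_nonneg Z))).symm
      _ ≤ (r * Real.sqrt η) ^ 2 := pow_le_pow_left₀ (Real.sqrt_nonneg _) hZb 2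
      _ = (r : ℝ) ^ 2 * η := by rw [mul_pow, Real.sq_sqrt hη0]
  rw [hn]
  nlinarith [mul_nonneg (sq_nonneg (r : ℝ)) hη0]

end Core

end Vale.Agent.P078.Tracial
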