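import Vale.Agent.P078.Tracial.Core

/-! Elementary facts about the abstract core: real functions, expectation, trace. -/

namespace Vale.Agent.P078.Tracial

set_option linter.unusedSectionVars false

open Filter Topology ComplexOrder

variable {M X : Type*} [CStarAlgebra M] [PartialOrder M] [StarOrderedRing M]
variable [TopologicalSpace X] [CompactSpace X] [T2Space X] [TotallyDisconnectedSpace X]

@[simp] theorem toC_apply (f : C(X, ℝ)) (x : X) : toC f x = (f x : ℂ) := rfl

@[simp] theorem reC_apply (f : C(X, ℂ)) (x : X) : reC f x = (f x).re := rfl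

theorem toC_add (f g : C(X, ℝ)) : toC (f + g) = toC f + toC g := by ext x; simp

theorem toC_sub (f g : C(X, ℝ)) : toC (f - g) = toC f - toC g := by ext x; simp

theorem toC_neg (f : C(X, ℝ)) : toC (-f) = -toC f := by ext x; simp

theorem toC_mul (f g : C(X, ℝ)) : toC (f * g) = toC f * toC g := by ext x; simp

theorem toC_zero : toC (0 : C(X, ℝ)) = 0 := by ext x; simp

theorem toC_one : toC (1 : C(X, ℝ)) = 1 := by ext x; simp

theorem toC_smul (c : ℝ) (f : C(X, ℝ)) : toC (c • f) = c • toC f := by ext x; simp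

theorem star_toC (f : C(X, ℝ)) : star (toC f) = toC f := by ext x; simp

theorem toC_const (c : ℝ) :
    toC (ContinuousMap.const X c) = algebraMap ℝ C(X, ℂ) c := by
  ext x; simp [Algebra.algebraMap_eq_smul_one]

theorem reC_toC (f : C(X, ℝ)) : reC (toC f) = f := by ext x; simp

theorem cellFn_apply (π : DiscreteQuotient X) (i : π) (x : X) [Decidable (π.proj x = i)] :
    cellFn π i x = if π.proj x = i then 1 else 0 := by
  simp only [cellFn, ContinuousMap.coe_mk]
  congr

theorem cellFn_zero_or_one (π : DiscreteQuotient X) (i : π) (x : X) :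
    cellFn π i x = 0 ∨ cellFn π i x = 1 := by
  classical
  rw [cellFn_apply]
  split_ifs <;> simp

theorem cellFn_nonneg (π : DiscreteQuotient X) (i : π) : 0 ≤ cellFn π i := by
  refine ContinuousMap.le_def.2 fun x => ?_
  rcases cellFn_zero_or_one π i x with h | h <;> simp [h]

theorem sum_cellFn (π : DiscreteQuotient X) : ∑ i : π, cellFn π i = (1 : C(X, ℝ)) := by
  classical
  ext x
  simp [cellFn_apply]

theorem cellFn_mul_cellFn (π : DiscreteQuotient X) [DecidableEq π] (i j : π) :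
    cellFn π i * cellFn π j = if i = j then cellFn π i else 0 := by
  classical
  ext x
  by_cases h : i = j
  · subst h
    rcases cellFn_zero_or_one π i x with h | h <;> simp [h]
  · simp only [if_neg h, ContinuousMap.mul_apply, cellFn_apply, ContinuousMap.zero_apply]
    split_ifs with h1 h2
    · exact absurd (h1.symm.trans h2) h
    all_goals simp

namespace Core

variable (C : Core M X)

/-! Real functions inside the algebra. -/

theorem r_add (f g : C(X, ℝ)) : C.r (f + g) = C.r f + C.r g := by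
  simp [r, toC_add, map_add]

theorem r_sub (f g : C(X, ℝ)) : C.r (f - g) = C.r f - C.r g := by
  simp [r, toC_sub, map_sub]

theorem r_neg (f : C(X, ℝ)) : C.r (-f) = -C.r f := by simp [r, toC_neg, map_neg]

theorem r_mul (f g : C(X, ℝ)) : C.r (f * g) = C.r f * C.r g := by
  simp [r, toC_mul, map_mul]

theorem r_zero : C.r 0 = 0 := by simp [r, toC_zero]

theorem r_one : C.r 1 = 1 := by simp [r, toC_one]

theorem r_smul (c : ℝ) (f : C(X, ℝ)) : C.r (c • f) = c • C.r f := by
  simp only [r, toC_smul, ← Complex.coe_smul, map_smul]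

theorem r_sum {α : Type*} (s : Finset α) (f : α → C(X, ℝ)) :
    C.r (∑ i ∈ s, f i) = ∑ i ∈ s, C.r (f i) :=
  map_sum (AddMonoidHom.mk' (C.r) C.r_add) f s

theorem r_const (c : ℝ) : C.r (ContinuousMap.const X c) = algebraMap ℝ M c := by
  have h : (ContinuousMap.const X c) = c • (1 : C(X, ℝ)) := by ext x; simp
  rw [h, r_smul, r_one, Algebra.algebraMap_eq_smul_one]

theorem star_r (f : C(X, ℝ)) : star (C.r f) = C.r f := by
  simp only [r, ← map_star, star_toC]

theorem r_isSelfAdjoint (f : C(X, ℝ)) : IsSelfAdjoint (C.r f) := C.star_r f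

theorem r_comm (f g : C(X, ℝ)) : C.r f * C.r g = C.r g * C.r f := by
  rw [← r_mul, mul_comm, r_mul]

theorem r_nonneg {f : C(X, ℝ)} (hf : 0 ≤ f) : 0 ≤ C.r f := by
  let s : C(X, ℝ) := ⟨fun x => Real.sqrt (f x), by fun_prop⟩
  have h : f = s * s := by
    ext x
    exact (Real.mul_self_sqrt (ContinuousMap.le_def.1 hf x)).symm
  calc (0 : M) ≤ star (C.r s) * C.r s := star_mul_self_nonneg _
    _ = C.r f := by rw [star_r, ← r_mul, ← h]

theorem r_mono {f g : C(X, ℝ)} (h : f ≤ g) : C.r f ≤ C.r g := by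
  rw [← sub_nonneg, ← r_sub]
  exact C.r_nonneg (sub_nonneg.2 h)

theorem norm_r_le (f : C(X, ℝ)) : ‖C.r f‖ ≤ ‖f‖ := by
  refine (NonUnitalStarAlgHom.norm_apply_le C.ι (toC f)).trans ?_
  refine (ContinuousMap.norm_le _ (norm_nonneg f)).2 fun x => ?_
  simpa using f.norm_coe_le_norm x

theorem continuous_r : Continuous C.r := by
  refine AddMonoidHomClass.continuous_of_bound (AddMonoidHom.mk' C.r C.r_add) 1 ?_
  intro f
  simpa using C.norm_r_le f

/-! The expectation. -/

theorem Er_apply (z : M) (x : X) : C.Er z x = (C.E z x).re := rfl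

theorem Er_add (a b : M) : C.Er (a + b) = C.Er a + C.Er b := by ext x; simp [Er]

theorem Er_sub (a b : M) : C.Er (a - b) = C.Er a - C.Er b := by ext x; simp [Er]

theorem Er_neg (a : M) : C.Er (-a) = -C.Er a := by ext x; simp [Er]

theorem Er_zero : C.Er 0 = 0 := by ext x; simp [Er]

theorem Er_smul (c : ℝ) (a : M) : C.Er (c • a) = c • C.Er a := by
  ext x
  simp only [Er, reC_apply, ← Complex.coe_smul, map_smul, ContinuousMap.smul_apply]
  simp

theorem Er_sum {α : Type*} (s : Finset α) (f : α → M) :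
    C.Er (∑ i ∈ s, f i) = ∑ i ∈ s, C.Er (f i) :=
  map_sum (AddMonoidHom.mk' (C.Er) C.Er_add) f s

theorem Er_r (f : C(X, ℝ)) : C.Er (C.r f) = f := by
  rw [Er, r, C.E_ι, reC_toC]

theorem Er_one : C.Er 1 = 1 := by rw [← C.r_one, Er_r]

theorem Er_bimod (f g : C(X, ℝ)) (z : M) :
    C.Er (C.r f * z * C.r g) = f * C.Er z * g := by
  ext x
  simp only [Er, r, C.E_bimod, reC_apply, ContinuousMap.mul_apply, toC_apply,
    Complex.re_mul_ofReal, Complex.re_ofReal_mul]

theorem Er_r_mul (f : C(X, ℝ)) (z : M) : C.Er (C.r f * z) = f * C.Er z := by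
  simpa [r_one] using C.Er_bimod f 1 z

theorem Er_mul_r (z : M) (f : C(X, ℝ)) : C.Er (z * C.r f) = C.Er z * f := by
  simpa [r_one] using C.Er_bimod 1 f z

theorem Er_star (z : M) : C.Er (star z) = C.Er z := by
  ext x; simp [Er, C.E_star]

theorem E_im_eq_zero {z : M} (hz : IsSelfAdjoint z) (x : X) : (C.E z x).im = 0 := by
  have h := C.E_star z
  rw [hz.star_eq] at h
  have h2 := congrArg (fun f : C(X, ℂ) => (f x).im) h
  simp at h2
  linarith

theorem E_eq_toC_Er {z : M} (hz : IsSelfAdjoint z) : C.E z = toC (C.Er z) := by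
  ext x
  rw [toC_apply, Er_apply]
  apply Complex.ext <;> simp [C.E_im_eq_zero hz x]

theorem Er_nonneg {z : M} (hz : 0 ≤ z) : 0 ≤ C.Er z := by
  obtain ⟨s, rfl⟩ := CStarAlgebra.nonneg_iff_eq_star_mul_self.1 hz
  refine ContinuousMap.le_def.2 fun x => ?_
  simpa [Er] using (Complex.le_def.1 (C.E_pos s x)).1

theorem Er_mono {a b : M} (h : a ≤ b) : C.Er a ≤ C.Er b := by
  rw [← sub_nonneg, ← Er_sub]
  exact C.Er_nonneg (sub_nonneg.2 h)

theorem Er_algebraMap (c : ℝ) : C.Er (algebraMap ℝ M c) = ContinuousMap.const X c := by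
  rw [← C.r_const, Er_r]

theorem norm_Er_le {z : M} (hz : IsSelfAdjoint z) : ‖C.Er z‖ ≤ ‖z‖ := by
  refine (ContinuousMap.norm_le _ (norm_nonneg z)).2 fun x => abs_le.2 ⟨?_, ?_⟩
  · have h := ContinuousMap.le_def.1
      (C.Er_mono (IsSelfAdjoint.neg_algebraMap_norm_le_self hz)) x
    rw [Er_neg, Er_algebraMap] at h
    simpa using h
  · have h := ContinuousMap.le_def.1
      (C.Er_mono (IsSelfAdjoint.le_algebraMap_norm_self hz)) x
    rw [Er_algebraMap] at h
    simpa using h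

theorem continuous_Er : Continuous C.Er := by
  have h : Continuous (fun f : C(X, ℂ) => reC f) :=
    ContinuousMap.continuous_postcomp ⟨Complex.re, Complex.continuous_re⟩
  exact h.comp C.E.continuous

/-! The trace. -/

theorem tr_add (a b : M) : C.tr (a + b) = C.tr a + C.tr b := by simp [tr]

theorem tr_sub (a b : M) : C.tr (a - b) = C.tr a - C.tr b := by simp [tr]

theorem tr_neg (a : M) : C.tr (-a) = -C.tr a := by simp [tr]

theorem tr_zero : C.tr 0 = 0 := by simp [tr]

theorem tr_smul (c : ℝ) (a : M) : C.tr (c • a) = c * C.tr a := by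
  simp only [tr, ← Complex.coe_smul, map_smul, smul_eq_mul, Complex.re_ofReal_mul]

theorem tr_sum {α : Type*} (s : Finset α) (f : α → M) :
    C.tr (∑ i ∈ s, f i) = ∑ i ∈ s, C.tr (f i) :=
  map_sum (AddMonoidHom.mk' (C.tr) C.tr_add) f s

theorem tr_one : C.tr 1 = 1 := by simp [tr, C.τ_one]

theorem tr_algebraMap (c : ℝ) : C.tr (algebraMap ℝ M c) = c := by
  rw [Algebra.algebraMap_eq_smul_one, tr_smul, tr_one, mul_one]

theorem tr_comm (a b : M) : C.tr (a * b) = C.tr (b * a) := by rw [tr, C.τ_comm, ← tr]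

theorem tr_cycle (a b c : M) : C.tr (a * b * c) = C.tr (c * a * b) := by
  rw [C.tr_comm (a * b) c, mul_assoc]

theorem tr_nonneg {a : M} (ha : 0 ≤ a) : 0 ≤ C.tr a := by
  obtain ⟨s, rfl⟩ := CStarAlgebra.nonneg_iff_eq_star_mul_self.1 ha
  exact (Complex.le_def.1 (C.τ_pos s)).1

theorem tr_ι_E (z : M) : C.tr (C.ι (C.E z)) = C.tr z := by rw [tr, C.τ_E, ← tr]

theorem ig_Er {z : M} (hz : IsSelfAdjoint z) : C.ig (C.Er z) = C.tr z := by
  rw [ig, r, ← C.E_eq_toC_Er hz, tr_ι_E]

theorem tr_r_mul (f : C(X, ℝ)) {z : M} (hz : IsSelfAdjoint z) :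
    C.tr (C.r f * z) = C.ig (f * C.Er z) := by
  have h : C.E (C.r f * z) = toC (f * C.Er z) := by
    have h1 := C.E_bimod (toC f) 1 z
    rw [map_one, mul_one, mul_one] at h1
    rw [r, h1, toC_mul, C.E_eq_toC_Er hz]
  rw [← C.tr_ι_E, h]
  rfl

theorem ig_add (f g : C(X, ℝ)) : C.ig (f + g) = C.ig f + C.ig g := by
  rw [ig, r_add, tr_add]; rfl

theorem ig_sub (f g : C(X, ℝ)) : C.ig (f - g) = C.ig f - C.ig g := by
  rw [ig, r_sub, tr_sub]; rfl

theorem ig_neg (f : C(X, ℝ)) : C.ig (-f) = -C.ig f := by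
  rw [ig, r_neg, tr_neg]; rfl

theorem ig_zero : C.ig 0 = 0 := by rw [ig, r_zero, tr_zero]

theorem ig_one : C.ig 1 = 1 := by rw [ig, r_one, tr_one]

theorem ig_const (c : ℝ) : C.ig (ContinuousMap.const X c) = c := by
  rw [ig, r_const, tr_algebraMap]

theorem ig_smul (c : ℝ) (f : C(X, ℝ)) : C.ig (c • f) = c * C.ig f := by
  rw [ig, r_smul, tr_smul]; rfl

theorem ig_sum {α : Type*} (s : Finset α) (f : α → C(X, ℝ)) :
    C.ig (∑ i ∈ s, f i) = ∑ i ∈ s, C.ig (f i) :=
  map_sum (AddMonoidHom.mk' (C.ig) C.ig_add) f s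

theorem ig_nonneg {f : C(X, ℝ)} (hf : 0 ≤ f) : 0 ≤ C.ig f := C.tr_nonneg (C.r_nonneg hf)

theorem ig_mono {f g : C(X, ℝ)} (h : f ≤ g) : C.ig f ≤ C.ig g := by
  rw [← sub_nonneg, ← ig_sub]
  exact C.ig_nonneg (sub_nonneg.2 h)

theorem ig_le_of_le {f : C(X, ℝ)} {c : ℝ} (h : ∀ x, f x ≤ c) : C.ig f ≤ c := by
  rw [← C.ig_const c]
  exact C.ig_mono (ContinuousMap.le_def.2 fun x => by simpa using h x)

theorem abs_ig_le_norm (f : C(X, ℝ)) : |C.ig f| ≤ ‖f‖ := by
  refine abs_le.2 ⟨?_, C.ig_le_of_le fun x => (abs_le.1 (f.norm_coe_le_norm x)).2⟩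
  have h : C.ig (-f) ≤ ‖f‖ := C.ig_le_of_le fun x => by
    have := (abs_le.1 (f.norm_coe_le_norm x)).1
    simpa using neg_le.1 this
  rw [ig_neg] at h
  linarith

theorem continuous_tr : Continuous C.tr := Complex.continuous_re.comp C.τ.continuous

/-! The maps `K`. -/

theorem K_add (a : M) (f g : C(X, ℝ)) : C.K a (f + g) = C.K a f + C.K a g := by
  simp only [K, r_add, mul_add, add_mul, Er_add]

theorem K_sub (a : M) (f g : C(X, ℝ)) : C.K a (f - g) = C.K a f - C.K a g := by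
  simp only [K, r_sub, mul_sub, sub_mul, Er_sub]

theorem K_smul (a : M) (c : ℝ) (f : C(X, ℝ)) : C.K a (c • f) = c • C.K a f := by
  simp only [K, r_smul, mul_smul_comm, smul_mul_assoc, Er_smul]

theorem K_nonneg (a : M) {f : C(X, ℝ)} (hf : 0 ≤ f) : 0 ≤ C.K a f :=
  C.Er_nonneg (star_right_conjugate_nonneg (C.r_nonneg hf) a)

theorem K_mono (a : M) {f g : C(X, ℝ)} (h : f ≤ g) : C.K a f ≤ C.K a g := by
  rw [← sub_nonneg, ← K_sub]
  exact C.K_nonneg a (sub_nonneg.2 h)

theorem norm_K_le (a : M) (f : C(X, ℝ)) : ‖C.K a f‖ ≤ ‖a‖ ^ 2 * ‖f‖ := by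
  refine (C.norm_Er_le ?_).trans ?_
  · exact (C.r_isSelfAdjoint f).conjugate a
  · calc ‖a * C.r f * star a‖ ≤ ‖a‖ * ‖C.r f‖ * ‖star a‖ := by
          refine (norm_mul_le _ _).trans ?_
          exact mul_le_mul_of_nonneg_right (norm_mul_le _ _) (norm_nonneg _)
      _ ≤ ‖a‖ * ‖f‖ * ‖a‖ := by
          rw [norm_star]
          exact mul_le_mul_of_nonneg_right
            (mul_le_mul_of_nonneg_left (C.norm_r_le f) (norm_nonneg a)) (norm_nonneg a)
      _ = ‖a‖ ^ 2 * ‖f‖ := by ring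

theorem e_isSelfAdjoint (π : DiscreteQuotient X) (i : π) : IsSelfAdjoint (C.e π i) :=
  C.r_isSelfAdjoint _

theorem e_mul_e (π : DiscreteQuotient X) [DecidableEq π] (i j : π) :
    C.e π i * C.e π j = if i = j then C.e π i else 0 := by
  rw [e, e, ← r_mul, cellFn_mul_cellFn]
  split_ifs
  · rfl
  · exact C.r_zero

theorem sum_e (π : DiscreteQuotient X) : ∑ i : π, C.e π i = 1 := by
  rw [← C.r_one, ← sum_cellFn π, C.r_sum]; rfl

end Core

end Vale.Agent.P078.Tracial
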