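import Vale.Agent.P078.Tracial.Clip

/-! Assigning full budgets and dropping negative ones decreases the potential. -/

namespace Vale.Agent.P078.Tracial

set_option linter.unusedSectionVars false

open Filter Topology ComplexOrder Scalar

variable {M X : Type*} [CStarAlgebra M] [PartialOrder M] [StarOrderedRing M]
variable [TopologicalSpace X] [CompactSpace X] [T2Space X] [TotallyDisconnectedSpace X]

/-- The indicator of a clopen set. -/
noncomputable def ind (V : Set X) (hV : IsClopen V) : C(X, ℝ) :=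
  (LocallyConstant.charFn ℝ hV).toContinuousMap

open Classical in
theorem ind_apply {V : Set X} (hV : IsClopen V) (x : X) :
    ind V hV x = if x ∈ V then 1 else 0 := by
  simp [ind, LocallyConstant.charFn, Set.indicator_apply]

theorem ind_mem {V : Set X} (hV : IsClopen V) {x : X} (hx : x ∈ V) : ind V hV x = 1 := by
  simp [ind_apply, hx]

theorem ind_notMem {V : Set X} (hV : IsClopen V) {x : X} (hx : x ∉ V) : ind V hV x = 0 := by
  simp [ind_apply, hx]

theorem Config.U_apply {r : ℕ} (s : Config M X r) (x : X) : s.U x = 1 - ∑ c, s.ass c x := by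
  simp [Config.U]

theorem Config.Ok.ass_eq_zero {r : ℕ} {s : Config M X r} (h : s.Ok) {x : X} (hx : s.U x = 1)
    (c : Fin r) : s.ass c x = 0 := by
  have h0 : ∀ d ∈ (Finset.univ : Finset (Fin r)), 0 ≤ s.ass d x := fun d _ => by
    rcases h.ass_01 d x with h' | h' <;> simp [h']
  have h1 : ∑ d, s.ass d x = 0 := by rw [Config.U_apply] at hx; linarith
  exact (Finset.sum_eq_zero_iff_of_nonneg h0).1 h1 c (Finset.mem_univ c)

theorem Config.Ok.U_eq_one {r : ℕ} {s : Config M X r} (h : s.Ok) {x : X} {c : Fin r}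
    (hx : s.act c x = 1) : s.U x = 1 := by
  rcases h.U_01 x with h' | h'
  · have := h.act_le c x
    linarith
  · exact h'

/-- A state with active budgets inside the window. -/
structure Config.Clean {r : ℕ} (s : Config M X r) : Prop where
  low : ∀ c x, s.act c x = 1 → -b1 / 2 ≤ s.b c x
  high : ∀ c x, s.act c x = 1 → s.b c x ≤ 41 / 1000

/-- In the window there are many active colours at every unassigned point. -/
theorem Config.Ok.many_active {r : ℕ} {s : Config M X r} (h : s.Ok) (hc : s.Clean) (x : X) :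
    24 * s.U x ≤ ∑ c, s.act c x := by
  have h1 : ∑ c, s.b c x = s.U x := by
    have := congrArg (fun f : C(X, ℝ) => f x) h.b_sum
    simpa using this
  have h2 : ∑ c, s.b c x ≤ 41 / 1000 * ∑ c, s.act c x := by
    rw [Finset.mul_sum]
    refine Finset.sum_le_sum fun c _ => ?_
    rcases h.act_01 c x with h' | h'
    · simpa [h'] using h.b_drop c x h'
    · simpa [h'] using hc.high c x h'
  rcases h.U_01 x with h' | h' <;> rw [h'] at h1 ⊢ <;> linarith

/-- Disjointify a finite family of clopen sets. -/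
theorem exists_disjointify {r : ℕ} (S : Fin r → Set X) (hS : ∀ c, IsClopen (S c)) :
    ∃ s : Fin r → C(X, ℝ), (∀ c x, s c x = 0 ∨ s c x = 1) ∧ (∀ c x, s c x = 1 → x ∈ S c) ∧
      (∀ x, (∑ c, s c x = 0 ∧ ∀ c, x ∉ S c) ∨ ∑ c, s c x = 1) := by
  classical
  set T : Fin r → Set X := fun c => S c ∩ ⋂ d ∈ Finset.univ.filter (· < c), (S d)ᶜ with hT
  have hTc : ∀ c, IsClopen (T c) := fun c =>
    (hS c).inter (isClopen_biInter_finset fun d _ => (hS d).compl)
  refine ⟨fun c => ind (T c) (hTc c), fun c x => ?_, fun c x hx => ?_, fun x => ?_⟩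
  · simp only [ind_apply]; split_ifs <;> simp
  · simp only [ind_apply] at hx
    split_ifs at hx with h
    · exact h.1
    · norm_num at hx
  · by_cases he : ∃ c, x ∈ S c
    · refine Or.inr ?_
      obtain ⟨c0, hc0⟩ := he
      set A := Finset.univ.filter fun c => x ∈ S c
      have hA : A.Nonempty := ⟨c0, by simp [A, hc0]⟩
      have hmS : x ∈ S (A.min' hA) := (Finset.mem_filter.1 (A.min'_mem hA)).2
      rw [Finset.sum_eq_single (A.min' hA)]
      · refine ind_mem _ ⟨hmS, Set.mem_iInter₂.2 fun d hd hd' => ?_⟩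
        have := A.min'_le d (by simp [A, hd'])
        exact absurd (Finset.mem_filter.1 hd).2 (not_lt.2 this)
      · intro d _ hd
        refine ind_notMem _ fun hdx => ?_
        have hle := A.min'_le d (by simp [A, hdx.1])
        have hlt : A.min' hA < d := lt_of_le_of_ne hle (Ne.symm hd)
        exact Set.mem_iInter₂.1 hdx.2 _ (by simp [hlt]) hmS
      · simp
    · refine Or.inl ⟨?_, fun c hc => he ⟨c, hc⟩⟩
      exact Finset.sum_eq_zero fun c _ => ind_notMem _ fun h => he ⟨c, h.1⟩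

namespace Core

variable (C : Core M X) {p : M} {σ l ν : ℝ} {r : ℕ}

theorem exists_assign (hP : Par p σ l ν) (s : Config M X r) (hs : s.Ok) :
    ∃ s' : Config M X r, s'.Ok ∧ s'.G = s.G ∧ C.Psi p σ l ν s' ≤ C.Psi p σ l ν s ∧
      ∀ c x, s'.act c x = 1 → s'.b c x ≤ 41 / 1000 := by
  have hcl : ∀ c, ∃ V : Set X, IsClopen V ∧
      {x | 1 ≤ s.act c x ∧ 41 / 1000 ≤ s.b c x} ⊆ V ∧
      V ⊆ {x | 1 / 2 < s.act c x ∧ 81 / 2000 < s.b c x} := fun c => by
    refine exists_clopen_of_closed_subset_open ?_ ?_ ?_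
    · exact (isClosed_le continuous_const ((s.act c).continuous)).inter
        (isClosed_le continuous_const ((s.b c).continuous))
    · exact (isOpen_lt continuous_const ((s.act c).continuous)).inter
        (isOpen_lt continuous_const ((s.b c).continuous))
    · rintro x ⟨h1, h2⟩
      exact ⟨by linarith, by linarith⟩
  choose S hS hSge hSle using hcl
  obtain ⟨t, ht01, htS, htsum⟩ := exists_disjointify S hS
  have htact : ∀ c x, t c x = 1 → s.act c x = 1 ∧ 81 / 2000 ≤ s.b c x := fun c x h => by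
    obtain ⟨h1, h2⟩ := hSle c (htS c x h)
    rcases hs.act_01 c x with h' | h'
    · linarith
    · exact ⟨h', h2.le⟩
  set W : C(X, ℝ) := 1 - ∑ c, t c with hWdef
  have hW : ∀ x, (W x = 1 ∧ (∀ c, t c x = 0) ∧ ∀ c, x ∉ S c) ∨ (W x = 0 ∧ s.U x = 1) := by
    intro x
    rcases htsum x with ⟨h0, hn⟩ | h1
    · refine Or.inl ⟨by simp [hWdef, h0], fun c => ?_, hn⟩
      rcases ht01 c x with h | h
      · exact h
      · exact absurd (htS c x h) (hn c)
    · refine Or.inr ⟨by simp [hWdef, h1], ?_⟩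
      by_contra hU
      have : ∑ c, t c x = 0 := Finset.sum_eq_zero fun c _ => by
        rcases ht01 c x with h | h
        · exact h
        · exact absurd (hs.U_eq_one (htact c x h).1) hU
      linarith
  set s' : Config M X r :=
    ⟨fun c => s.ass c + t c, fun c => s.act c * W, fun c => s.b c * W, s.G⟩ with hs'def
  have hU' : s'.U = s.U * W := by
    ext x
    have hsum : (s'.U) x = s.U x - ∑ c, t c x := by
      simp [Config.U, hs'def, Finset.sum_add_distrib]; ring
    have hWx : W x = 1 - ∑ c, t c x := by simp [hWdef]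
    rw [hsum, ContinuousMap.mul_apply, hWx]
    rcases hW x with ⟨_, h, _⟩ | ⟨h, hU⟩
    · simp [h]
    · rw [hU]; ring
  refine ⟨s', ⟨fun c x => ?_, fun c x => ?_, fun x => ?_, fun c x => ?_, ?_, fun c x hx => ?_,
    fun c x hx => ?_, fun c x hx => ?_, hs.G_nonneg⟩, rfl, ?_, fun c x hx => ?_⟩
  · rcases ht01 c x with h | h
    · simpa [hs'def, h] using hs.ass_01 c x
    · simp [hs'def, h, hs.ass_eq_zero (hs.U_eq_one (htact c x h).1) c]
  · rcases hW x with ⟨h, _⟩ | ⟨h, _⟩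
    · simpa [hs'def, h] using hs.act_01 c x
    · simp [hs'def, h]
  · rw [hU']
    rcases hW x with ⟨h, _⟩ | ⟨h, _⟩
    · simpa [h] using hs.U_01 x
    · simp [h]
  · rw [hU']
    rcases hW x with ⟨h, _⟩ | ⟨h, _⟩
    · simpa [hs'def, h] using hs.act_le c x
    · simp [hs'def, h]
  · rw [hU', ← hs.b_sum, Finset.sum_mul]
  · rw [hU'] at hx
    rcases hW x with ⟨h, _⟩ | ⟨h, _⟩
    · simp [h] at hx
      simp [hs'def, h, hs.b_supp c x hx]
    · simp [hs'def, h]
  · rcases hW x with ⟨h, _⟩ | ⟨h, _⟩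
    · simp [hs'def, h] at hx
      simpa [hs'def, h] using hs.b_drop c x hx
    · simp [hs'def, h]
  · rcases hW x with ⟨h, _⟩ | ⟨h, _⟩
    · simp [hs'def, h] at hx
      simpa [hs'def, h] using hs.b_act c x hx
    · simp [hs'def, h] at hx
  · refine Finset.sum_le_sum fun c _ => C.pot_mono hP (hs.G_nonneg c) ?_
    refine ContinuousMap.le_def.2 fun x => ?_
    rcases hW x with ⟨h, h0, _⟩ | ⟨h, _⟩
    · simp [wt, hs'def, h, h0 c]
    · rcases ht01 c x with h' | h'
      · have : 0 ≤ s.act c x * φ (s.b c x) (C.gam p (s.G c) x) := by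
          rcases hs.act_01 c x with ha | ha
          · simp [ha]
          · rw [ha, one_mul]; exact φ_nonneg _ (hs.b_act c x ha)
        simp [wt, hs'def, h, h']
        linarith
      · obtain ⟨ha, hb⟩ := htact c x h'
        have := one_le_φ (C.gam p (s.G c) x) hb
        simp [wt, hs'def, h, h', ha]
        linarith
  · rcases hW x with ⟨h, _, hn⟩ | ⟨h, _⟩
    · simp [hs'def, h] at hx ⊢
      by_contra hb
      exact hn c (hSge c ⟨hx.ge, le_of_lt (not_le.1 hb)⟩)
    · simp [hs'def, h] at hx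

theorem exists_drop (hP : Par p σ l ν) (s : Config M X r) (hs : s.Ok)
    (hhigh : ∀ c x, s.act c x = 1 → s.b c x ≤ 41 / 1000) :
    ∃ s' : Config M X r, s'.Ok ∧ s'.Clean ∧ s'.G = s.G ∧
      C.Psi p σ l ν s' ≤ C.Psi p σ l ν s := by
  have hcl : ∀ c, ∃ V : Set X, IsClopen V ∧
      {x | 1 ≤ s.act c x ∧ s.b c x ≤ -b1 / 2} ⊆ V ∧
      V ⊆ {x | 1 / 2 < s.act c x ∧ s.b c x < 0} := fun c => by
    refine exists_clopen_of_closed_subset_open ?_ ?_ ?_
    · exact (isClosed_le continuous_const ((s.act c).continuous)).inter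
        (isClosed_le ((s.b c).continuous) continuous_const)
    · exact (isOpen_lt continuous_const ((s.act c).continuous)).inter
        (isOpen_lt ((s.b c).continuous) continuous_const)
    · rintro x ⟨h1, h2⟩
      exact ⟨by linarith, lt_of_le_of_lt h2 (by norm_num [b1])⟩
  choose D hD hDge hDle using hcl
  set d : Fin r → C(X, ℝ) := fun c => ind (D c) (hD c) with hd
  set s' : Config M X r :=
    ⟨s.ass, fun c => s.act c * (1 - d c), s.b, s.G⟩ with hs'def
  have hcase : ∀ c x, (x ∈ D c ∧ s'.act c x = 0 ∧ s.b c x < 0) ∨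
      (x ∉ D c ∧ s'.act c x = s.act c x) := fun c x => by
    by_cases h : x ∈ D c
    · exact Or.inl ⟨h, by simp [hs'def, hd, ind_mem _ h], (hDle c h).2⟩
    · exact Or.inr ⟨h, by simp [hs'def, hd, ind_notMem _ h]⟩
  refine ⟨s', ⟨hs.ass_01, fun c x => ?_, hs.U_01, fun c x => ?_, hs.b_sum, hs.b_supp,
    fun c x hx => ?_, fun c x hx => ?_, hs.G_nonneg⟩, ⟨fun c x hx => ?_, fun c x hx => ?_⟩,
    rfl, ?_⟩
  · rcases hcase c x with ⟨_, h, _⟩ | ⟨_, h⟩ <;> rw [h]
    · exact Or.inl rfl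
    · exact hs.act_01 c x
  · show s'.act c x ≤ s.U x
    rcases hcase c x with ⟨_, h, _⟩ | ⟨_, h⟩ <;> rw [h]
    · rcases hs.U_01 x with h' | h' <;> simp [h']
    · exact hs.act_le c x
  · rcases hcase c x with ⟨_, _, h⟩ | ⟨_, h⟩
    · exact h.le
    · rw [h] at hx; exact hs.b_drop c x hx
  · rcases hcase c x with ⟨_, h, _⟩ | ⟨_, h⟩ <;> rw [h] at hx
    · norm_num at hx
    · exact hs.b_act c x hx
  · rcases hcase c x with ⟨_, h, _⟩ | ⟨hn, h⟩ <;> rw [h] at hx
    · norm_num at hx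
    · by_contra hb
      exact hn (hDge c ⟨hx.ge, le_of_lt (not_le.1 hb)⟩)
  · rcases hcase c x with ⟨_, h, _⟩ | ⟨_, h⟩ <;> rw [h] at hx
    · norm_num at hx
    · exact hhigh c x hx
  · refine Finset.sum_le_sum fun c _ => C.pot_mono hP (hs.G_nonneg c) ?_
    refine ContinuousMap.le_def.2 fun x => ?_
    have h0 : 0 ≤ s.act c x * φ (s.b c x) (C.gam p (s.G c) x) := by
      rcases hs.act_01 c x with ha | ha
      · simp [ha]
      · rw [ha, one_mul]; exact φ_nonneg _ (hs.b_act c x ha)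
    show s'.act c x * φ (s.b c x) (C.gam p (s.G c) x) + s.ass c x
      ≤ s.act c x * φ (s.b c x) (C.gam p (s.G c) x) + s.ass c x
    rcases hcase c x with ⟨_, h, _⟩ | ⟨_, h⟩ <;> rw [h]
    linarith

/-- Every state can be made clean and bounded without increasing the potential. -/
theorem exists_improve (hP : Par p σ l ν) {g Λ : ℝ} (hg : 0 < g) (hgΛ : g ≤ Λ)
    (hνΛ : (2 + l) / Λ ^ 2 ≤ ν) (hlg : 2 * (2 + l) + ν ≤ l / g ^ 2)
    (s : Config M X r) (hs : s.Ok) :
    ∃ s' : Config M X r, s'.Ok ∧ s'.Clean ∧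
      (∀ c, algebraMap ℝ M g ≤ (s'.G c : M) ∧ (s'.G c : M) ≤ algebraMap ℝ M Λ) ∧
      C.Psi p σ l ν s' ≤ C.Psi p σ l ν s := by
  have hG : ∀ c, ∃ G' : Mˣ, 0 ≤ (G' : M) ∧ algebraMap ℝ M g ≤ (G' : M) ∧
      (G' : M) ≤ algebraMap ℝ M Λ ∧ C.pot p σ l ν (s.act c) (s.ass c) (s.b c) G'
        ≤ C.pot p σ l ν (s.act c) (s.ass c) (s.b c) (s.G c) := fun c => by
    obtain ⟨G1, h10, h1Λ, h1p⟩ := C.exists_clip_above hP (hg.trans_le hgΛ) hνΛ (hs.col c)
      (hs.G_nonneg c)
    obtain ⟨G2, h20, h2g, h2Λ, h2p⟩ := C.exists_clip_below hP hg hlg (hs.col c) h10 hgΛ h1Λ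
    exact ⟨G2, h20, h2g, h2Λ, h2p.trans h1p⟩
  choose G' hG0 hGg hGΛ hGp using hG
  set s1 : Config M X r := ⟨s.ass, s.act, s.b, G'⟩
  have hs1 : s1.Ok := ⟨hs.ass_01, hs.act_01, hs.U_01, hs.act_le, hs.b_sum, hs.b_supp,
    hs.b_drop, hs.b_act, hG0⟩
  obtain ⟨s2, hs2, hG2, hP2, hhigh⟩ := C.exists_assign hP s1 hs1
  obtain ⟨s3, hs3, hcl, hG3, hP3⟩ := C.exists_drop hP s2 hs2 hhigh
  refine ⟨s3, hs3, hcl, fun c => ?_, ?_⟩
  · rw [hG3, hG2]; exact ⟨hGg c, hGΛ c⟩
  · exact hP3.trans (hP2.trans (Finset.sum_le_sum fun c _ => hGp c))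

/-- Approximate minimisers below a given state exist. -/
theorem exists_near_min (hP : Par p σ l ν) (s0 : Config M X r) (h0 : s0.Ok) {ζ : ℝ}
    (hζ : 0 < ζ) :
    ∃ s : Config M X r, s.Ok ∧ C.Psi p σ l ν s ≤ C.Psi p σ l ν s0 ∧
      ∀ t : Config M X r, t.Ok → C.Psi p σ l ν s ≤ C.Psi p σ l ν t + ζ := by
  set V := {v : ℝ | ∃ t : Config M X r, t.Ok ∧ C.Psi p σ l ν t = v}
  have hne : V.Nonempty := ⟨_, s0, h0, rfl⟩
  have hbd : BddBelow V := ⟨0, by rintro v ⟨t, ht, rfl⟩; exact C.Psi_nonneg hP ht⟩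
  obtain ⟨v, ⟨t, ht, rfl⟩, hv⟩ := exists_lt_of_csInf_lt hne (lt_add_of_pos_right (sInf V) hζ)
  by_cases hle : C.Psi p σ l ν t ≤ C.Psi p σ l ν s0
  · exact ⟨t, ht, hle, fun t' ht' => by linarith [csInf_le hbd ⟨t', ht', rfl⟩]⟩
  · exact ⟨s0, h0, le_rfl, fun t' ht' => by linarith [csInf_le hbd ⟨t', ht', rfl⟩]⟩

end Core

end Vale.Agent.P078.Tracial
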