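import Vale.Agent.P078.Tracial.Config

/-! Clipping the resolvent to a fixed interval decreases the potential. -/

namespace Vale.Agent.P078.Tracial.Core

set_option linter.unusedSectionVars false

open Filter Topology ComplexOrder Scalar

variable {M X : Type*} [CStarAlgebra M] [PartialOrder M] [StarOrderedRing M]
variable [TopologicalSpace X] [CompactSpace X] [T2Space X] [TotallyDisconnectedSpace X]
variable (C : Core M X) {p : M} {σ l ν : ℝ}

theorem spectrum_unit_pos {G : Mˣ} (hG : 0 ≤ (G : M)) {t : ℝ}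
    (ht : t ∈ spectrum ℝ (G : M)) : 0 < t := by
  refine lt_of_le_of_ne (spectrum_nonneg_of_nonneg hG ht) ?_
  rintro rfl
  exact spectrum.zero_notMem ℝ G.isUnit ht

theorem exists_clip_above (hP : Par p σ l ν) {Λ : ℝ} (hΛ : 0 < Λ)
    (hνΛ : (2 + l) / Λ ^ 2 ≤ ν) {a e b : C(X, ℝ)} (h : ColOk a e b) {G : Mˣ}
    (hG : 0 ≤ (G : M)) :
    ∃ G' : Mˣ, 0 ≤ (G' : M) ∧ (G' : M) ≤ algebraMap ℝ M Λ ∧
      C.pot p σ l ν a e b G' ≤ C.pot p σ l ν a e b G := by
  have hsa : IsSelfAdjoint (G : M) := IsSelfAdjoint.of_nonneg hG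
  have hpos := fun t (ht : t ∈ spectrum ℝ (G : M)) => spectrum_unit_pos hG ht
  have hne : ∀ t ∈ spectrum ℝ (G : M), min t Λ ≠ 0 :=
    fun t ht => (lt_min (hpos t ht) hΛ).ne'
  set G' := cfcUnits (fun t => min t Λ) (G : M) hne
  have hG'v : (G' : M) = cfc (fun t => min t Λ) (G : M) := val_cfcUnits _ _ hne
  have hG'i : (↑G'⁻¹ : M) = cfc (fun t => (min t Λ)⁻¹) (G : M) := val_inv_cfcUnits _ _ hne
  have hcI : ContinuousOn (fun t : ℝ => (min t Λ)⁻¹) (spectrum ℝ (G : M)) :=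
    ContinuousOn.inv₀ (by fun_prop) hne
  have hcG : ContinuousOn (fun t : ℝ => t⁻¹) (spectrum ℝ (G : M)) :=
    ContinuousOn.inv₀ continuousOn_id fun t ht => (hpos t ht).ne'
  have hG'0 : 0 ≤ (G' : M) := by
    rw [hG'v]; exact cfc_nonneg fun t ht => (lt_min (hpos t ht) hΛ).le
  have hle : (G' : M) ≤ G := by
    rw [hG'v]
    calc cfc (fun t => min t Λ) (G : M) ≤ cfc (fun t => t) (G : M) :=
          cfc_mono fun t _ => min_le_left _ _
      _ = G := cfc_id' ℝ (G : M)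
  have hinv : (↑G⁻¹ : M) = cfc (fun t : ℝ => t⁻¹) (G : M) := (cfc_inv_id G hsa).symm
  have hD0 : 0 ≤ (↑G'⁻¹ : M) - ↑G⁻¹ := by
    rw [hG'i, hinv, ← cfc_sub _ _ _ hcI hcG]
    exact cfc_nonneg fun t ht =>
      sub_nonneg.2 (inv_anti₀ (lt_min (hpos t ht) hΛ) (min_le_left _ _))
  have hD : (↑G'⁻¹ : M) - ↑G⁻¹ ≤ (1 / Λ ^ 2) • ((G : M) - G') := by
    rw [hG'i, hinv, hG'v, ← cfc_sub _ _ _ hcI hcG]
    nth_rewrite 2 [← cfc_id' ℝ (G : M)]
    rw [← cfc_sub (fun t : ℝ => t) (fun t => min t Λ) (G : M), ← cfc_smul (1 / Λ ^ 2) _ (G : M)]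
    refine cfc_mono (fun t ht => ?_) (hcI.sub hcG)
    have ht0 := hpos t ht
    rcases le_total t Λ with h1 | h1
    · simp [min_eq_left h1]
    · rw [min_eq_right h1, smul_eq_mul, inv_sub_inv hΛ.ne' ht0.ne', one_div_mul_eq_div]
      refine div_le_div_of_nonneg_left (by linarith) (by positivity) ?_
      rw [sq]; exact mul_le_mul_of_nonneg_left h1 hΛ.le
  refine ⟨G', hG'0, ?_, ?_⟩
  · rw [hG'v]
    exact cfc_le_algebraMap _ _ _ fun t _ => min_le_right _ _
  · set D := (↑G'⁻¹ : M) - ↑G⁻¹ with hDdef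
    have hA := C.mat_isSelfAdjoint hP.p_nonneg a e b hG
    have hw : C.wt p a e b G' ≤ C.wt p a e b G := by
      refine ContinuousMap.le_def.2 fun x => ?_
      have h1 := ContinuousMap.le_def.1 (C.gam_mono hP.p_nonneg hle) x
      have h0 := ContinuousMap.le_def.1 (C.gam_nonneg hP.p_nonneg hG'0) x
      have h2 : φ (b x) (C.gam p G' x) ≤ φ (b x) (C.gam p G x) := φ_mono_γ _ h0 h1
      rcases h.a_01 x with h' | h' <;> simp [wt, h', h2]
    have hm : C.mat p a e b G' ≤ C.mat p a e b G + D := by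
      unfold mat
      rw [show (↑G⁻¹ : M) + p * C.r (C.wt p a e b G) * p + D
        = ↑G'⁻¹ + p * C.r (C.wt p a e b G) * p by rw [hDdef]; abel]
      gcongr
      exact conjugate_le_conjugate_of_nonneg (C.r_mono hw) hP.p_nonneg
    have h1 := C.tr_f_mono hP.σ_pos hP.l_pos.le
      (hA.add (IsSelfAdjoint.of_nonneg hD0)) hm
    have h2 := C.tr_f_add_le (l := l) hP.σ_pos hA hD0
    have h3 : C.tr D ≤ 1 / Λ ^ 2 * (C.tr (G : M) - C.tr (G' : M)) := by
      rw [← C.tr_sub, ← C.tr_smul]; exact C.tr_mono hD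
    have h4 : (2 + l) * C.tr D ≤ ν * (C.tr (G : M) - C.tr (G' : M)) := by
      calc (2 + l) * C.tr D ≤ (2 + l) * (1 / Λ ^ 2 * (C.tr (G : M) - C.tr (G' : M))) :=
            mul_le_mul_of_nonneg_left h3 (by linarith [hP.l_pos])
        _ = (2 + l) / Λ ^ 2 * (C.tr (G : M) - C.tr (G' : M)) := by ring
        _ ≤ ν * (C.tr (G : M) - C.tr (G' : M)) := by
            refine mul_le_mul_of_nonneg_right hνΛ ?_
            rw [← C.tr_sub]; exact C.tr_nonneg (sub_nonneg.2 hle)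
    unfold pot
    linarith

theorem exists_clip_below (hP : Par p σ l ν) {g : ℝ} (hg : 0 < g)
    (hlg : 2 * (2 + l) + ν ≤ l / g ^ 2) {a e b : C(X, ℝ)} (h : ColOk a e b) {G : Mˣ}
    (hG : 0 ≤ (G : M)) {Λ : ℝ} (hgΛ : g ≤ Λ) (hGΛ : (G : M) ≤ algebraMap ℝ M Λ) :
    ∃ G' : Mˣ, 0 ≤ (G' : M) ∧ algebraMap ℝ M g ≤ (G' : M) ∧ (G' : M) ≤ algebraMap ℝ M Λ ∧
      C.pot p σ l ν a e b G' ≤ C.pot p σ l ν a e b G := by
  have hsa : IsSelfAdjoint (G : M) := IsSelfAdjoint.of_nonneg hG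
  have hpos := fun t (ht : t ∈ spectrum ℝ (G : M)) => spectrum_unit_pos hG ht
  have hne : ∀ t ∈ spectrum ℝ (G : M), max t g ≠ 0 :=
    fun t _ => (lt_max_of_lt_right hg).ne'
  set G' := cfcUnits (fun t => max t g) (G : M) hne
  have hG'v : (G' : M) = cfc (fun t => max t g) (G : M) := val_cfcUnits _ _ hne
  have hG'i : (↑G'⁻¹ : M) = cfc (fun t => (max t g)⁻¹) (G : M) := val_inv_cfcUnits _ _ hne
  have hcI : ContinuousOn (fun t : ℝ => (max t g)⁻¹) (spectrum ℝ (G : M)) :=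
    ContinuousOn.inv₀ (by fun_prop) hne
  have hcG : ContinuousOn (fun t : ℝ => t⁻¹) (spectrum ℝ (G : M)) :=
    ContinuousOn.inv₀ continuousOn_id fun t ht => (hpos t ht).ne'
  have hle : (G : M) ≤ G' := by
    rw [hG'v]
    calc (G : M) = cfc (fun t : ℝ => t) (G : M) := (cfc_id' ℝ (G : M)).symm
      _ ≤ cfc (fun t => max t g) (G : M) := cfc_mono fun t _ => le_max_left _ _
  have hG'0 : 0 ≤ (G' : M) := hG.trans hle
  have hinv : (↑G⁻¹ : M) = cfc (fun t : ℝ => t⁻¹) (G : M) := (cfc_inv_id G hsa).symm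
  have hD : (1 / g ^ 2) • ((G' : M) - G) ≤ (↑G⁻¹ : M) - ↑G'⁻¹ := by
    rw [hG'i, hinv, hG'v, ← cfc_sub _ _ _ hcG hcI]
    nth_rewrite 2 [← cfc_id' ℝ (G : M)]
    rw [← cfc_sub (fun t => max t g) (fun t : ℝ => t) (G : M), ← cfc_smul (1 / g ^ 2) _ (G : M)]
    refine cfc_mono (fun t ht => ?_) ?_ (hcG.sub hcI)
    swap; · fun_prop
    have ht0 := hpos t ht
    rcases le_total g t with h1 | h1
    · simp [max_eq_left h1]
    · rw [max_eq_right h1, smul_eq_mul, inv_sub_inv ht0.ne' hg.ne', one_div_mul_eq_div]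
      refine div_le_div_of_nonneg_left (by linarith) (by positivity) ?_
      rw [sq]; exact mul_le_mul_of_nonneg_right h1 hg.le
  refine ⟨G', hG'0, ?_, ?_, ?_⟩
  · rw [hG'v]
    exact algebraMap_le_cfc _ _ _ fun t _ => le_max_right _ _
  · rw [hG'v]
    refine cfc_le_algebraMap _ _ _ fun t ht => max_le ?_ hgΛ
    exact (le_algebraMap_iff_spectrum_le hsa).1 hGΛ t ht
  · set D := (↑G⁻¹ : M) - ↑G'⁻¹ with hDdef
    have hd : 0 ≤ (G' : M) - G := sub_nonneg.2 hle
    have hD0 : 0 ≤ D := le_trans (smul_nonneg (by positivity) hd) hD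
    have hA := C.mat_isSelfAdjoint hP.p_nonneg a e b hG
    set q := C.Er (p * ((G' : M) - G) * p) + C.Er (p * ((G' : M) - G) * p) with hqdef
    have hq0 : 0 ≤ C.Er (p * ((G' : M) - G) * p) :=
      C.Er_nonneg (conjugate_nonneg_of_nonneg hd hP.p_nonneg)
    have hq : 0 ≤ q := add_nonneg hq0 hq0
    have hw : C.wt p a e b G' ≤ C.wt p a e b G + q := by
      refine ContinuousMap.le_def.2 fun x => ?_
      have h1 := ContinuousMap.le_def.1 (C.gam_mono hP.p_nonneg hle) x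
      have h2 : q x = 2 * (C.gam p G' x - C.gam p G x) := by
        simp [hqdef, gam, mul_sub, sub_mul, C.Er_sub]; ring
      rcases h.a_01 x with h' | h'
      · simp [wt, h', h2]; linarith
      · have := φ_lip (h.a_b x h') h1
        simp [wt, h', h2]; linarith
    have hm : C.mat p a e b G' ≤ C.mat p a e b G - D + p * C.r q * p := by
      unfold mat
      rw [show (↑G⁻¹ : M) + p * C.r (C.wt p a e b G) * p - D + p * C.r q * p
        = ↑G'⁻¹ + p * C.r (C.wt p a e b G + q) * p by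
          rw [hDdef, C.r_add (C.wt p a e b G) q, mul_add, add_mul]; abel]
      gcongr
      exact conjugate_le_conjugate_of_nonneg (C.r_mono hw) hP.p_nonneg
    have hE0 := conjugate_nonneg_of_nonneg (C.r_nonneg hq) hP.p_nonneg
    have h1 := C.tr_f_mono hP.σ_pos hP.l_pos.le
      ((hA.sub (IsSelfAdjoint.of_nonneg hD0)).add (IsSelfAdjoint.of_nonneg hE0)) hm
    have h2 := C.tr_f_sub_add_le (l := l) hP.σ_pos hA hD0 hE0
    have h3 : 1 / g ^ 2 * (C.tr (G' : M) - C.tr (G : M)) ≤ C.tr D := by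
      rw [← C.tr_sub, ← C.tr_smul]; exact C.tr_mono hD
    have h4 : C.tr (p * C.r q * p) ≤ 2 * (C.tr (G' : M) - C.tr (G : M)) := by
      refine (C.tr_r_conj_le hP hq).trans ?_
      rw [hqdef, C.ig_add, C.ig_Er ((IsSelfAdjoint.of_nonneg hd).conjugate_self
        (IsSelfAdjoint.of_nonneg hP.p_nonneg)), ← C.tr_sub]
      linarith [C.tr_conj_le hP hd]
    have h5 : 0 ≤ C.tr (G' : M) - C.tr (G : M) := by rw [← C.tr_sub]; exact C.tr_nonneg hd
    have h6 := mul_le_mul_of_nonneg_right hlg h5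
    have h7 : l / g ^ 2 * (C.tr (G' : M) - C.tr (G : M)) ≤ l * C.tr D := by
      calc l / g ^ 2 * (C.tr (G' : M) - C.tr (G : M))
          = l * (1 / g ^ 2 * (C.tr (G' : M) - C.tr (G : M))) := by ring
        _ ≤ l * C.tr D := mul_le_mul_of_nonneg_left h3 hP.l_pos.le
    have h8 := mul_le_mul_of_nonneg_left h4 (by linarith [hP.l_pos] : 0 ≤ 2 + l)
    unfold pot
    linarith

end Vale.Agent.P078.Tracial.Core
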