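import Mathlib

/-! The scalar functions of the potential: the weight function and the soft barrier. -/

namespace Vale.Agent.P078.Tracial.Scalar

/-- Height of the weight function. -/
noncomputable def A0 : ℝ := 11 / 10

/-- Depth of the weight function. -/
noncomputable def B0 : ℝ := 9 / 10

/-- Shift of the weight function. -/
noncomputable def c0 : ℝ := 81 / 121 + 1 / 1000

/-- Scale of the budget variable. -/
noncomputable def α : ℝ := 1 / 2000

/-- The lower limit of an active budget. -/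
noncomputable def b1 : ℝ := 1 / 2000000

/-- The profile of the weight function. -/
noncomputable def F (s : ℝ) : ℝ := A0 - B0 / √s

/-- The weight function. -/
noncomputable def φ (b γ : ℝ) : ℝ := F (max (b / α + γ ^ 2 + c0) (1 / 2))

/-- The argument of the profile on active points. -/
noncomputable def arg (b γ : ℝ) : ℝ := b / α + γ ^ 2 + c0

/-- The derivative of the profile at `s`. -/
noncomputable def F' (s : ℝ) : ℝ := B0 / (2 * √s ^ 3)

/-- The curvature coefficient. -/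
noncomputable def coef (s : ℝ) : ℝ := 3 * √s / (2 * B0)

/-- Derivative of the weight in the budget. -/
noncomputable def φb (b γ : ℝ) : ℝ := F' (max (b / α + γ ^ 2 + c0) (1 / 2)) / α

/-- Derivative of the weight in the compressed resolvent. -/
noncomputable def φγ (b γ : ℝ) : ℝ := 2 * γ * F' (max (b / α + γ ^ 2 + c0) (1 / 2))

theorem sqrt_half_gt {s : ℝ} (hs : 1 / 2 ≤ s) : 7 / 10 ≤ √s := by
  rw [show (7 : ℝ) / 10 = √((7 / 10) ^ 2) from (Real.sqrt_sq (by norm_num)).symm]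
  exact Real.sqrt_le_sqrt (by linarith)

theorem sqrt_half_pos {s : ℝ} (hs : 1 / 2 ≤ s) : 0 < √s := by linarith [sqrt_half_gt hs]

theorem F_mono {s t : ℝ} (hs : 1 / 2 ≤ s) (hst : s ≤ t) : F s ≤ F t := by
  unfold F
  have h := Real.sqrt_le_sqrt hst
  have : B0 / √t ≤ B0 / √s :=
    div_le_div_of_nonneg_left (by norm_num [B0]) (sqrt_half_pos hs) h
  linarith

theorem F'_pos {s : ℝ} (hs : 1 / 2 ≤ s) : 0 < F' s := by
  have := sqrt_half_pos hs
  unfold F' B0
  positivity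

theorem coef_pos {s : ℝ} (hs : 1 / 2 ≤ s) : 0 < coef s := by
  have := sqrt_half_pos hs
  unfold coef B0
  positivity

theorem continuous_max_arg :
    Continuous (fun q : ℝ × ℝ => max (q.1 / α + q.2 ^ 2 + c0) (1 / 2)) := by fun_prop

theorem continuous_φ : Continuous (fun q : ℝ × ℝ => φ q.1 q.2) := by
  unfold φ F
  refine continuous_const.sub (continuous_const.div continuous_max_arg.sqrt fun q => ?_)
  exact (sqrt_half_pos (le_max_right _ _)).ne'

theorem continuous_F'_max :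
    Continuous (fun q : ℝ × ℝ => F' (max (q.1 / α + q.2 ^ 2 + c0) (1 / 2))) := by
  unfold F'
  refine continuous_const.div (continuous_const.mul (continuous_max_arg.sqrt.pow 3)) fun q => ?_
  have := sqrt_half_pos (le_max_right (q.1 / α + q.2 ^ 2 + c0) (1 / 2))
  positivity

theorem continuous_φb : Continuous (fun q : ℝ × ℝ => φb q.1 q.2) :=
  continuous_F'_max.div_const _

theorem continuous_φγ : Continuous (fun q : ℝ × ℝ => φγ q.1 q.2) :=
  (continuous_const.mul continuous_snd).mul continuous_F'_max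

theorem φb_pos (b γ : ℝ) : 0 < φb b γ :=
  div_pos (F'_pos (le_max_right _ _)) (by norm_num [α])

theorem arg_ge {b : ℝ} (γ : ℝ) (hb : -b1 ≤ b) : 81 / 121 + γ ^ 2 ≤ arg b γ := by
  unfold arg c0 α b1 at *
  rw [div_div_eq_mul_div, div_one]
  linarith

theorem half_le_arg {b : ℝ} (γ : ℝ) (hb : -b1 ≤ b) : 1 / 2 ≤ arg b γ := by
  nlinarith [arg_ge γ hb, sq_nonneg γ]

theorem max_arg_eq {b : ℝ} (γ : ℝ) (hb : -b1 ≤ b) :
    max (b / α + γ ^ 2 + c0) (1 / 2) = arg b γ :=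
  max_eq_left (half_le_arg γ hb)

theorem sqrt_arg_ge {b γ : ℝ} (hb : -b1 ≤ b) : γ ≤ √(arg b γ) := by
  refine (le_abs_self γ).trans ?_
  rw [← Real.sqrt_sq_eq_abs]
  exact Real.sqrt_le_sqrt (by linarith [arg_ge γ hb])

theorem φ_nonneg {b : ℝ} (γ : ℝ) (hb : -b1 ≤ b) : 0 ≤ φ b γ := by
  have h : F (81 / 121) ≤ φ b γ := by
    unfold φ
    exact F_mono (by norm_num) ((by nlinarith [arg_ge γ hb, sq_nonneg γ] :
      (81 : ℝ) / 121 ≤ arg b γ).trans (le_max_left _ _))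
  have h0 : F (81 / 121) = 0 := by
    unfold F
    rw [show (81 : ℝ) / 121 = (9 / 11) ^ 2 by norm_num, Real.sqrt_sq (by norm_num)]
    norm_num [A0, B0]
  linarith

theorem one_le_φ {b : ℝ} (γ : ℝ) (hb : 81 / 2000 ≤ b) : 1 ≤ φ b γ := by
  have h : F 81 ≤ φ b γ := by
    refine F_mono (by norm_num) (le_trans ?_ (le_max_left _ _))
    unfold c0 α
    rw [div_div_eq_mul_div, div_one]
    nlinarith [sq_nonneg γ]
  have h0 : F 81 = 1 := by
    unfold F
    rw [show (81 : ℝ) = 9 ^ 2 by norm_num, Real.sqrt_sq (by norm_num)]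
    norm_num [A0, B0]
  linarith

theorem φ_mono_γ (b : ℝ) {γ γ' : ℝ} (h0 : 0 ≤ γ) (h : γ ≤ γ') : φ b γ ≤ φ b γ' :=
  F_mono (le_max_right _ _) (max_le_max (by nlinarith) le_rfl)

theorem φ_le (b γ : ℝ) : φ b γ ≤ A0 := by
  have := sqrt_half_pos (le_max_right (b / α + γ ^ 2 + c0) (1 / 2))
  unfold φ F B0
  have : 0 ≤ 9 / 10 / √(max (b / α + γ ^ 2 + c0) (1 / 2)) := by positivity
  linarith

theorem φ_lip {b γ γ' : ℝ} (hb : -b1 ≤ b) (h : γ ≤ γ') :
    φ b γ' ≤ φ b γ + 2 * (γ' - γ) := by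
  rw [φ, φ, max_arg_eq γ hb, max_arg_eq γ' hb]
  set p := √(arg b γ)
  set q := √(arg b γ')
  have hp : 7 / 10 ≤ p := sqrt_half_gt (half_le_arg γ hb)
  have hq : 7 / 10 ≤ q := sqrt_half_gt (half_le_arg γ' hb)
  have hpg : γ ≤ p := sqrt_arg_ge hb
  have hqg : q ≤ p + (γ' - γ) := by
    refine Real.sqrt_le_iff.2 ⟨by linarith, ?_⟩
    have hp2 : p ^ 2 = arg b γ := Real.sq_sqrt (by linarith [half_le_arg γ hb])
    have : arg b γ' = arg b γ + (γ' ^ 2 - γ ^ 2) := by unfold arg; ring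
    nlinarith
  unfold F B0
  have hdiff : 9 / 10 / p - 9 / 10 / q = 9 / 10 * (q - p) / (p * q) := by field_simp
  have hpq : (49 : ℝ) / 100 ≤ p * q := by nlinarith
  have : 9 / 10 * (q - p) / (p * q) ≤ 2 * (γ' - γ) := by
    rw [div_le_iff₀ (by positivity)]
    nlinarith [mul_nonneg (sub_nonneg.2 h) (sub_nonneg.2 hpq)]
  linarith

/-- Second order upper bound for the profile. -/
theorem F_taylor {s d : ℝ} (hs : 1 / 2 ≤ s) (hsd : 1 / 2 ≤ s + d) :
    F (s + d) ≤ F s + F' s * d - coef s * (F' s * d) ^ 2 + 7 * |d| ^ 3 := by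
  obtain ⟨p, hp, rfl⟩ : ∃ p, 7 / 10 ≤ p ∧ s = p ^ 2 :=
    ⟨√s, sqrt_half_gt hs, (Real.sq_sqrt (by linarith)).symm⟩
  obtain ⟨q, hq, hq2⟩ : ∃ q, 7 / 10 ≤ q ∧ p ^ 2 + d = q ^ 2 :=
    ⟨√(p ^ 2 + d), sqrt_half_gt hsd, (Real.sq_sqrt (by linarith)).symm⟩
  have hd : d = q ^ 2 - p ^ 2 := by linarith
  have hp0 : (0 : ℝ) < p := by linarith
  have hq0 : (0 : ℝ) < q := by linarith
  have hFq : F (p ^ 2 + d) = A0 - B0 / q := by rw [F, hq2, Real.sqrt_sq hq0.le]
  have hsp : √(p ^ 2) = p := Real.sqrt_sq hp0.le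
  rw [hFq]
  simp only [F, F', coef, hsp, hd]
  have key : (A0 - B0 / q) - (A0 - B0 / p + B0 / (2 * p ^ 3) * (q ^ 2 - p ^ 2)
      - 3 * p / (2 * B0) * (B0 / (2 * p ^ 3) * (q ^ 2 - p ^ 2)) ^ 2)
      = B0 * (q - p) ^ 3 * (3 * q ^ 2 + 9 * p * q + 8 * p ^ 2) / (8 * p ^ 5 * q) := by
    have : B0 ≠ 0 := by norm_num [B0]
    field_simp
    ring
  have hb : B0 * (q - p) ^ 3 * (3 * q ^ 2 + 9 * p * q + 8 * p ^ 2) / (8 * p ^ 5 * q)
      ≤ 7 * |q ^ 2 - p ^ 2| ^ 3 := by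
    rw [div_le_iff₀ (by positivity)]
    have h1 : |q ^ 2 - p ^ 2| = |q - p| * (q + p) := by
      rw [show q ^ 2 - p ^ 2 = (q - p) * (q + p) by ring, abs_mul, abs_of_pos (by linarith : 0 < q + p)]
    rw [h1, mul_pow]
    have h2 : (q - p) ^ 3 ≤ |q - p| ^ 3 := by
      rw [← abs_pow]; exact le_abs_self _
    have h3 : 3 * q ^ 2 + 9 * p * q + 8 * p ^ 2 ≤ 9 * (q + p) ^ 2 := by nlinarith
    have hp5 : (7 / 10 : ℝ) ^ 5 ≤ p ^ 5 := pow_le_pow_left₀ (by norm_num) hp 5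
    have h4 : B0 * 9 ≤ 7 * (q + p) * (8 * p ^ 5 * q) := by
      have : (7 / 5 : ℝ) * (7 / 10) * (7 / 10) ^ 5 ≤ (q + p) * q * p ^ 5 :=
        mul_le_mul (mul_le_mul (by linarith) hq (by norm_num) (by linarith)) hp5
          (by positivity) (by positivity)
      unfold B0
      nlinarith
    calc B0 * (q - p) ^ 3 * (3 * q ^ 2 + 9 * p * q + 8 * p ^ 2)
        ≤ B0 * |q - p| ^ 3 * (3 * q ^ 2 + 9 * p * q + 8 * p ^ 2) :=
          mul_le_mul_of_nonneg_right
            (mul_le_mul_of_nonneg_left h2 (by norm_num [B0])) (by positivity)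
      _ ≤ B0 * |q - p| ^ 3 * (9 * (q + p) ^ 2) :=
          mul_le_mul_of_nonneg_left h3 (mul_nonneg (by norm_num [B0]) (by positivity))
      _ = |q - p| ^ 3 * (q + p) ^ 2 * (B0 * 9) := by ring
      _ ≤ |q - p| ^ 3 * (q + p) ^ 2 * (7 * (q + p) * (8 * p ^ 5 * q)) :=
          mul_le_mul_of_nonneg_left h4 (by positivity)
      _ = 7 * (|q - p| ^ 3 * (q + p) ^ 3) * (8 * p ^ 5 * q) := by ring
  linarith

/-- The change of the weight in one step. -/
theorem φ_step {b db γ k ρ K η R : ℝ} (hb : -b1 ≤ b) (hb' : -b1 ≤ b + db)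
    (hη : 0 ≤ η) (hη1 : η ≤ 1)
    (hdb : φb b γ * db + φγ b γ * (η * K) = η * (k - ρ))
    (hR : |k - ρ| ≤ R) (hK : K ^ 2 ≤ R) (hp : √(arg b γ) ≤ R) :
    φ (b + db) (γ + η * K) ≤ φ b γ + η * (k - ρ)
      + η ^ 2 * (F' (arg b γ) * K ^ 2 - coef (arg b γ) * (k - ρ) ^ 2)
      + η ^ 3 * (12 * R ^ 3 + 7 * (3 * R ^ 4 + R) ^ 3) := by
  rw [φ, φ, max_arg_eq γ hb, max_arg_eq (γ + η * K) hb']
  have hs := half_le_arg γ hb
  have hs' := half_le_arg (γ + η * K) hb'
  set s := arg b γ with hsdef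
  set d := db / α + 2 * γ * (η * K) + η ^ 2 * K ^ 2 with hddef
  have hsd : arg (b + db) (γ + η * K) = s + d := by
    rw [hsdef, hddef]; unfold arg; ring
  rw [hsd] at hs' ⊢
  have hFd : F' s * d = η * (k - ρ) + η ^ 2 * (F' s * K ^ 2) := by
    rw [φb, φγ, max_arg_eq γ hb, ← hsdef] at hdb
    rw [← hdb, hddef]; ring
  have hR0 : 7 / 10 ≤ R := (sqrt_half_gt hs).trans hp
  have hF' : F' s ≤ 2 := by
    unfold F' B0
    rw [div_le_iff₀ (by have := sqrt_half_pos hs; positivity)]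
    have := pow_le_pow_left₀ (by norm_num) (sqrt_half_gt hs) 3
    nlinarith
  have hF'inv : 1 ≤ F' s * (3 * R ^ 3) := by
    unfold F' B0
    rw [div_mul_eq_mul_div, le_div_iff₀ (by have := sqrt_half_pos hs; positivity)]
    have := pow_le_pow_left₀ (Real.sqrt_nonneg s) hp 3
    nlinarith [pow_nonneg (Real.sqrt_nonneg s) 3]
  have hF0 := F'_pos hs
  have hcR : coef s ≤ 2 * R := by
    unfold coef B0
    rw [div_le_iff₀ (by norm_num)]
    linarith
  have hdabs : |d| ≤ η * (3 * R ^ 4 + R) := by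
    have hd1 : d = η * (k - ρ) / F' s + η ^ 2 * K ^ 2 := by
      field_simp
      linarith [hFd]
    rw [hd1]
    refine (abs_add_le _ _).trans ?_
    rw [mul_add]
    refine add_le_add ?_ ?_
    · rw [abs_div, abs_of_pos hF0, abs_mul, abs_of_nonneg hη, div_le_iff₀ hF0]
      calc η * |k - ρ| ≤ η * R := mul_le_mul_of_nonneg_left hR hη
        _ = η * R * 1 := (mul_one _).symm
        _ ≤ η * R * (F' s * (3 * R ^ 3)) :=
          mul_le_mul_of_nonneg_left hF'inv (mul_nonneg hη (by linarith))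
        _ = η * (3 * R ^ 4) * F' s := by ring
    · rw [abs_of_nonneg (by positivity), sq η, mul_assoc]
      refine mul_le_mul_of_nonneg_left ?_ hη
      nlinarith [sq_nonneg K]
  have hd3 : |d| ^ 3 ≤ η ^ 3 * (3 * R ^ 4 + R) ^ 3 := by
    rw [← mul_pow]; exact pow_le_pow_left₀ (abs_nonneg d) hdabs 3
  have hquad : -(coef s * (F' s * d) ^ 2)
      ≤ -(η ^ 2 * (coef s * (k - ρ) ^ 2)) + η ^ 3 * (12 * R ^ 3) := by
    rw [hFd]
    have hz : |(k - ρ) * (F' s * K ^ 2)| ≤ 2 * R ^ 2 := by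
      rw [abs_mul, abs_of_nonneg (mul_nonneg hF0.le (sq_nonneg K))]
      have : F' s * K ^ 2 ≤ 2 * R := mul_le_mul hF' hK (sq_nonneg K) (by norm_num)
      calc |k - ρ| * (F' s * K ^ 2) ≤ R * (2 * R) :=
            mul_le_mul hR this (by positivity) (by linarith)
        _ = 2 * R ^ 2 := by ring
    have h1 : -(2 * coef s * ((k - ρ) * (F' s * K ^ 2))) ≤ 12 * R ^ 3 := by
      have hc := (coef_pos hs).le
      have h2 : -((k - ρ) * (F' s * K ^ 2)) ≤ 2 * R ^ 2 := le_trans (neg_le_abs _) hz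
      have h3 : coef s * (2 * R ^ 2) ≤ 2 * R * (2 * R ^ 2) :=
        mul_le_mul_of_nonneg_right hcR (by positivity)
      nlinarith [mul_le_mul_of_nonneg_left h2 hc, pow_nonneg (by linarith : (0:ℝ) ≤ R) 3]
    have h4 := mul_le_mul_of_nonneg_left h1 (pow_nonneg hη 3)
    nlinarith [mul_nonneg (coef_pos hs).le (sq_nonneg (η ^ 2 * (F' s * K ^ 2)))]
  have h := F_taylor hs hs'
  nlinarith

/-! The soft barrier. -/

/-- The barrier function. -/
noncomputable def f (u σ l : ℝ) (t : ℝ) : ℝ := √((t - u) ^ 2 + σ ^ 2) + (t - u) + l * t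

/-- Its derivative. -/
noncomputable def f' (u σ l : ℝ) (t : ℝ) : ℝ := (t - u) / √((t - u) ^ 2 + σ ^ 2) + 1 + l

variable {u σ l : ℝ}

theorem root_pos (hσ : 0 < σ) (t : ℝ) : 0 < √((t - u) ^ 2 + σ ^ 2) :=
  Real.sqrt_pos.2 (by positivity)

theorem continuous_f : Continuous (f u σ l) := by unfold f; fun_prop

theorem continuous_f' (hσ : 0 < σ) : Continuous (f' u σ l) := by
  unfold f'
  exact ((Continuous.div (by fun_prop) (by fun_prop) fun t => (root_pos hσ t).ne').add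
    continuous_const).add continuous_const

theorem le_f' (hσ : 0 < σ) (t : ℝ) : l ≤ f' u σ l t := by
  have h : -1 ≤ (t - u) / √((t - u) ^ 2 + σ ^ 2) := by
    rw [le_div_iff₀ (root_pos hσ t)]
    nlinarith [Real.abs_le_sqrt (show (t - u) ^ 2 ≤ (t - u) ^ 2 + σ ^ 2 by nlinarith),
      neg_abs_le (t - u)]
  unfold f'; linarith

theorem f'_le (hσ : 0 < σ) (t : ℝ) : f' u σ l t ≤ 2 + l := by
  have h : (t - u) / √((t - u) ^ 2 + σ ^ 2) ≤ 1 := by
    rw [div_le_one (root_pos hσ t)]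
    exact (le_abs_self _).trans (Real.abs_le_sqrt (by nlinarith))
  unfold f'; linarith

theorem f_convex (hσ : 0 < σ) (s t : ℝ) : f u σ l s + f' u σ l s * (t - s) ≤ f u σ l t := by
  set R := √((s - u) ^ 2 + σ ^ 2) with hR
  set Q := √((t - u) ^ 2 + σ ^ 2) with hQ
  have hR0 : 0 < R := root_pos hσ s
  have hQ0 : 0 < Q := root_pos hσ t
  have hcs : (s - u) * (t - u) + σ ^ 2 ≤ R * Q := by
    rw [hR, hQ, ← Real.sqrt_mul (by positivity)]
    refine (le_abs_self _).trans (Real.abs_le_sqrt ?_)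
    nlinarith [sq_nonneg ((s - u) * σ - σ * (t - u))]
  have h : R + (s - u) / R * (t - s) ≤ Q := by
    rw [div_mul_eq_mul_div, ← le_sub_iff_add_le', div_le_iff₀ hR0]
    have hR2 : R * R = (s - u) ^ 2 + σ ^ 2 := Real.mul_self_sqrt (by positivity)
    nlinarith
  unfold f f'
  rw [← hR, ← hQ]
  nlinarith

theorem f_quad (hσ : 0 < σ) (s t : ℝ) :
    f u σ l t ≤ f u σ l s + f' u σ l s * (t - s) + 1 / σ / 2 * (t - s) ^ 2 := by
  set R := √((s - u) ^ 2 + σ ^ 2) with hR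
  set Q := √((t - u) ^ 2 + σ ^ 2) with hQ
  have hR0 : 0 < R := root_pos hσ s
  have hσR : σ ≤ R := Real.le_sqrt_of_sq_le (by nlinarith)
  have hR2 : R * R = (s - u) ^ 2 + σ ^ 2 := Real.mul_self_sqrt (by positivity)
  have hQ2 : Q * Q = (t - u) ^ 2 + σ ^ 2 := Real.mul_self_sqrt (by positivity)
  have h : Q ≤ R + (s - u) / R * (t - s) + 1 / R / 2 * (t - s) ^ 2 := by
    have e : R + (s - u) / R * (t - s) + 1 / R / 2 * (t - s) ^ 2
        = (R * R + Q * Q) / (2 * R) := by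
      rw [hR2, hQ2]
      field_simp
      rw [show R ^ 2 = R * R from sq R, hR2]
      ring
    rw [e, le_div_iff₀ (by positivity)]
    nlinarith [sq_nonneg (Q - R)]
  have h2 : 1 / R / 2 * (t - s) ^ 2 ≤ 1 / σ / 2 * (t - s) ^ 2 :=
    mul_le_mul_of_nonneg_right
      (div_le_div_of_nonneg_right (one_div_le_one_div_of_le hσ hσR) (by norm_num)) (sq_nonneg _)
  unfold f f'
  rw [← hR, ← hQ]
  nlinarith

theorem f_le_of_le (hσ : 0 ≤ σ) (hl : 0 ≤ l) {t : ℝ} (ht : t ≤ u) :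
    f u σ l t ≤ σ + l * u := by
  have h : √((t - u) ^ 2 + σ ^ 2) ≤ (u - t) + σ :=
    Real.sqrt_le_iff.2 ⟨by linarith, by nlinarith⟩
  unfold f
  nlinarith

theorem f_ge_posPart (hl : 0 ≤ l) {t : ℝ} (ht : 0 ≤ t) : 2 * max (t - u) 0 ≤ f u σ l t := by
  have h : |t - u| ≤ √((t - u) ^ 2 + σ ^ 2) := Real.abs_le_sqrt (by nlinarith)
  unfold f
  rcases le_total (t - u) 0 with h0 | h0
  · rw [max_eq_right h0]; nlinarith [abs_of_nonpos h0, mul_nonneg hl ht]
  · rw [max_eq_left h0]; nlinarith [abs_of_nonneg h0, mul_nonneg hl ht]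

theorem f_nonneg (hl : 0 ≤ l) {t : ℝ} (ht : 0 ≤ t) : 0 ≤ f u σ l t :=
  le_trans (by positivity) (f_ge_posPart hl ht)

end Vale.Agent.P078.Tracial.Scalar
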