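import Vale.Agent.P078.Tracial.Basic
import Vale.Agent.P078.Tracial.Scalar
import Vale.Agent.P078.Tracial.TraceFun

/-! The potential of a colouring in progress, and its basic properties. -/

namespace Vale.Agent.P078.Tracial

set_option linter.unusedSectionVars false

open Filter Topology ComplexOrder Scalar

variable {M X : Type*} [CStarAlgebra M] [PartialOrder M] [StarOrderedRing M]
variable [TopologicalSpace X] [CompactSpace X] [T2Space X] [TotallyDisconnectedSpace X]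

/-- The level of the barrier. -/
noncomputable def u0 : ℝ := 93 / 100

/-- The weight function on continuous functions. -/
noncomputable def φc (b γ : C(X, ℝ)) : C(X, ℝ) :=
  ⟨fun x => φ (b x) (γ x),
    continuous_φ.comp ((map_continuous b).prodMk (map_continuous γ))⟩

@[simp] theorem φc_apply (b γ : C(X, ℝ)) (x : X) : φc b γ x = φ (b x) (γ x) := rfl

/-- A colouring in progress: assigned and active sets, budgets and resolvents. -/
structure Config (M X : Type*) [Monoid M] [TopologicalSpace X] (r : ℕ) where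
  ass : Fin r → C(X, ℝ)
  act : Fin r → C(X, ℝ)
  b : Fin r → C(X, ℝ)
  G : Fin r → Mˣ

/-- The unassigned set. -/
noncomputable def Config.U {r : ℕ} (s : Config M X r) : C(X, ℝ) := 1 - ∑ c, s.ass c

/-- Validity of a colouring in progress. -/
structure Config.Ok {r : ℕ} (s : Config M X r) : Prop where
  ass_01 : ∀ c x, s.ass c x = 0 ∨ s.ass c x = 1
  act_01 : ∀ c x, s.act c x = 0 ∨ s.act c x = 1
  U_01 : ∀ x, s.U x = 0 ∨ s.U x = 1
  act_le : ∀ c x, s.act c x ≤ s.U x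
  b_sum : ∑ c, s.b c = s.U
  b_supp : ∀ c x, s.U x = 0 → s.b c x = 0
  b_drop : ∀ c x, s.act c x = 0 → s.b c x ≤ 0
  b_act : ∀ c x, s.act c x = 1 → -b1 ≤ s.b c x
  G_nonneg : ∀ c, 0 ≤ (s.G c : M)

/-- Validity of the data of one colour. -/
structure ColOk (a e b : C(X, ℝ)) : Prop where
  a_01 : ∀ x, a x = 0 ∨ a x = 1
  e_01 : ∀ x, e x = 0 ∨ e x = 1
  a_b : ∀ x, a x = 1 → -b1 ≤ b x

theorem Config.Ok.col {r : ℕ} {s : Config M X r} (h : s.Ok) (c : Fin r) :
    ColOk (s.act c) (s.ass c) (s.b c) :=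
  ⟨h.act_01 c, h.ass_01 c, h.b_act c⟩

/-- The hypotheses on the parameters: `p` is a square root of the compression. -/
structure Par (p : M) (σ l ν : ℝ) : Prop where
  p_nonneg : 0 ≤ p
  pp_le : p * p ≤ 1
  pp_ge : algebraMap ℝ M (1 / 200) ≤ p * p
  σ_pos : 0 < σ
  l_pos : 0 < l
  l_le : l ≤ 1
  ν_pos : 0 < ν

namespace Core

variable (C : Core M X)

/-- The compressed resolvent. -/
noncomputable def gam (p : M) (G : Mˣ) : C(X, ℝ) := C.Er (p * (G : M) * p)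

/-- The weight of one colour. -/
noncomputable def wt (p : M) (a e b : C(X, ℝ)) (G : Mˣ) : C(X, ℝ) :=
  a * φc b (C.gam p G) + e

/-- The matrix of one colour. -/
noncomputable def mat (p : M) (a e b : C(X, ℝ)) (G : Mˣ) : M :=
  (↑G⁻¹ : M) + p * C.r (C.wt p a e b G) * p

/-- The potential of one colour. -/
noncomputable def pot (p : M) (σ l ν : ℝ) (a e b : C(X, ℝ)) (G : Mˣ) : ℝ :=
  C.tr (cfc (f u0 σ l) (C.mat p a e b G)) + ν * C.tr (G : M)

/-- The total potential. -/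
noncomputable def Psi (p : M) (σ l ν : ℝ) {r : ℕ} (s : Config M X r) : ℝ :=
  ∑ c, C.pot p σ l ν (s.act c) (s.ass c) (s.b c) (s.G c)

variable {p : M} {σ l ν : ℝ}

theorem r_comp_le_one {f : C(X, ℝ)} (hf : ∀ x, f x ≤ 1) : C.r f ≤ 1 := by
  rw [← C.r_one]
  exact C.r_mono (ContinuousMap.le_def.2 fun x => by simpa using hf x)

theorem units_inv_nonneg {G : Mˣ} (hG : 0 ≤ (G : M)) : 0 ≤ (↑G⁻¹ : M) := by
  rw [← cfc_inv_id (R := ℝ) G (IsSelfAdjoint.of_nonneg hG)]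
  exact cfc_nonneg fun x hx => inv_nonneg.2 (spectrum_nonneg_of_nonneg hG hx)

theorem gam_nonneg (hp : 0 ≤ p) {G : Mˣ} (hG : 0 ≤ (G : M)) : 0 ≤ C.gam p G :=
  C.Er_nonneg (conjugate_nonneg_of_nonneg hG hp)

theorem gam_mono (hp : 0 ≤ p) {G G' : Mˣ} (h : (G : M) ≤ G') : C.gam p G ≤ C.gam p G' :=
  C.Er_mono (conjugate_le_conjugate_of_nonneg h hp)

theorem wt_nonneg {a e b : C(X, ℝ)} (h : ColOk a e b) (G : Mˣ) : 0 ≤ C.wt p a e b G := by
  refine ContinuousMap.le_def.2 fun x => ?_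
  have he : 0 ≤ e x := by rcases h.e_01 x with h' | h' <;> simp [h']
  rcases h.a_01 x with h' | h'
  · simpa [wt, h'] using he
  · simpa [wt, h'] using add_nonneg (φ_nonneg _ (h.a_b x h')) he

theorem wt_le {a e b : C(X, ℝ)} (h : ColOk a e b) (G : Mˣ) (x : X) :
    C.wt p a e b G x ≤ A0 + 1 := by
  have he : e x ≤ 1 := by rcases h.e_01 x with h' | h' <;> simp [h']
  rcases h.a_01 x with h' | h'
  · simp [wt, h', A0]; linarith
  · simp [wt, h']; linarith [φ_le (b x) (C.gam p G x)]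

theorem mat_isSelfAdjoint (hp : 0 ≤ p) (a e b : C(X, ℝ)) {G : Mˣ} (hG : 0 ≤ (G : M)) :
    IsSelfAdjoint (C.mat p a e b G) := by
  refine (IsSelfAdjoint.of_nonneg (units_inv_nonneg hG)).add ?_
  exact (C.r_isSelfAdjoint _).conjugate_self (IsSelfAdjoint.of_nonneg hp)

theorem mat_nonneg (hp : 0 ≤ p) {a e b : C(X, ℝ)} (h : ColOk a e b) {G : Mˣ}
    (hG : 0 ≤ (G : M)) : 0 ≤ C.mat p a e b G :=
  add_nonneg (units_inv_nonneg hG)
    (conjugate_nonneg_of_nonneg (C.r_nonneg (C.wt_nonneg h G)) hp)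

theorem tr_cfc_f'_mul_ge (hσ : 0 < σ) {A D : M} (hA : IsSelfAdjoint A) (hD : 0 ≤ D) :
    l * C.tr D ≤ C.tr (cfc (f' u0 σ l) A * D) := by
  have h : algebraMap ℝ M l ≤ cfc (f' u0 σ l) A :=
    algebraMap_le_cfc _ _ _ (fun x _ => le_f' hσ x) (continuous_f' hσ).continuousOn hA
  have := C.tr_mul_nonneg (sub_nonneg.2 h) hD
  rw [sub_mul, C.tr_sub, Algebra.algebraMap_eq_smul_one, smul_mul_assoc, one_mul,
    C.tr_smul] at this
  linarith

theorem tr_cfc_f'_mul_le (hσ : 0 < σ) {A D : M} (hA : IsSelfAdjoint A) (hD : 0 ≤ D) :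
    C.tr (cfc (f' u0 σ l) A * D) ≤ (2 + l) * C.tr D := by
  have h : cfc (f' u0 σ l) A ≤ algebraMap ℝ M (2 + l) :=
    cfc_le_algebraMap _ _ _ (fun x _ => f'_le hσ x) (continuous_f' hσ).continuousOn hA
  have := C.tr_mul_nonneg (sub_nonneg.2 h) hD
  rw [sub_mul, C.tr_sub, Algebra.algebraMap_eq_smul_one, smul_mul_assoc, one_mul,
    C.tr_smul] at this
  linarith

/-- Moving down by `D` and up by `E` changes the barrier by at most this much. -/
theorem tr_f_sub_add_le (hσ : 0 < σ) {A D E : M} (hA : IsSelfAdjoint A) (hD : 0 ≤ D)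
    (hE : 0 ≤ E) :
    C.tr (cfc (f u0 σ l) (A - D + E))
      ≤ C.tr (cfc (f u0 σ l) A) - l * C.tr D + (2 + l) * C.tr E := by
  have hA' : IsSelfAdjoint (A - D + E) :=
    (hA.sub (IsSelfAdjoint.of_nonneg hD)).add (IsSelfAdjoint.of_nonneg hE)
  have h := C.klein_lower continuous_f (continuous_f' (l := l) hσ)
    (f_convex (u := u0) (l := l) hσ) hA' hA
  rw [show A - (A - D + E) = D - E by abel, mul_sub, C.tr_sub] at h
  linarith [C.tr_cfc_f'_mul_ge (l := l) hσ hA' hD, C.tr_cfc_f'_mul_le (l := l) hσ hA' hE]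

theorem tr_f_mono (hσ : 0 < σ) (hl : 0 ≤ l) {A B : M}
    (hB : IsSelfAdjoint B) (h : A ≤ B) :
    C.tr (cfc (f u0 σ l) A) ≤ C.tr (cfc (f u0 σ l) B) := by
  have h' := C.tr_f_sub_add_le (l := l) hσ hB (sub_nonneg.2 h) (le_refl (0 : M))
  rw [show B - (B - A) + 0 = A by abel, C.tr_zero, mul_zero, add_zero] at h'
  nlinarith [C.tr_nonneg (sub_nonneg.2 h)]

theorem tr_f_add_le (hσ : 0 < σ) {A E : M} (hA : IsSelfAdjoint A) (hE : 0 ≤ E) :
    C.tr (cfc (f u0 σ l) (A + E)) ≤ C.tr (cfc (f u0 σ l) A) + (2 + l) * C.tr E := by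
  have h' := C.tr_f_sub_add_le (l := l) hσ hA (le_refl (0 : M)) hE
  rw [show A - 0 + E = A + E by abel, C.tr_zero, mul_zero, sub_zero] at h'
  exact h'

theorem pot_nonneg (hP : Par p σ l ν) {a e b : C(X, ℝ)} (h : ColOk a e b) {G : Mˣ}
    (hG : 0 ≤ (G : M)) : 0 ≤ C.pot p σ l ν a e b G := by
  refine add_nonneg (C.tr_nonneg (cfc_nonneg fun x hx => ?_))
    (mul_nonneg hP.ν_pos.le (C.tr_nonneg hG))
  exact f_nonneg hP.l_pos.le (spectrum_nonneg_of_nonneg (C.mat_nonneg hP.p_nonneg h hG) hx)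

theorem Psi_nonneg (hP : Par p σ l ν) {r : ℕ} {s : Config M X r} (hs : s.Ok) :
    0 ≤ C.Psi p σ l ν s :=
  Finset.sum_nonneg fun c _ => C.pot_nonneg hP (hs.col c) (hs.G_nonneg c)

/-- A smaller weight gives a smaller potential. -/
theorem pot_mono (hP : Par p σ l ν) {a e b a' e' b' : C(X, ℝ)} {G : Mˣ} (hG : 0 ≤ (G : M))
    (h : C.wt p a' e' b' G ≤ C.wt p a e b G) :
    C.pot p σ l ν a' e' b' G ≤ C.pot p σ l ν a e b G := by
  unfold pot
  gcongr
  refine C.tr_f_mono hP.σ_pos hP.l_pos.le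
    (C.mat_isSelfAdjoint hP.p_nonneg _ _ _ hG) ?_
  unfold mat
  gcongr
  exact conjugate_le_conjugate_of_nonneg (C.r_mono h) hP.p_nonneg

theorem tr_conj_le (hP : Par p σ l ν) {D : M} (hD : 0 ≤ D) : C.tr (p * D * p) ≤ C.tr D := by
  have h := C.tr_mul_nonneg hD (sub_nonneg.2 hP.pp_le)
  rw [mul_sub, mul_one, C.tr_sub] at h
  rw [C.tr_cycle, C.tr_comm]
  linarith

theorem tr_r_conj_le (hP : Par p σ l ν) {f : C(X, ℝ)} (hf : 0 ≤ f) :
    C.tr (p * C.r f * p) ≤ C.ig f :=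
  C.tr_conj_le hP (C.r_nonneg hf)

end Core

end Vale.Agent.P078.Tracial
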