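import Mathlib

/-! Abstract data used by the proof of so-paving for MASAs of tracial von Neumann algebras:
a C-star algebra with trace, a commutative subalgebra `C(X)` with `X` totally disconnected, a
conditional expectation onto it, and convergence of pinchings to the expectation. -/

namespace Vale.Agent.P078.Tracial

open Filter Topology ComplexOrder

variable {M X : Type*} [CStarAlgebra M] [PartialOrder M] [StarOrderedRing M]
variable [TopologicalSpace X] [CompactSpace X] [T2Space X] [TotallyDisconnectedSpace X]

/-- Real functions as complex functions. -/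
noncomputable def toC (f : C(X, ℝ)) : C(X, ℂ) := ⟨fun x => (f x : ℂ), by fun_prop⟩

/-- Real part of a complex function. -/
noncomputable def reC (f : C(X, ℂ)) : C(X, ℝ) := ⟨fun x => (f x).re, by fun_prop⟩

open Classical in
/-- The indicator of one cell of a finite clopen partition. -/
noncomputable def cellFn (π : DiscreteQuotient X) (i : π) : C(X, ℝ) :=
  ⟨fun x => if π.proj x = i then 1 else 0,
    (continuous_of_discreteTopology
      (f := fun j : π => if j = i then (1 : ℝ) else 0)).comp π.proj_continuous⟩

/-- The finite type of cells. -/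
noncomputable instance cellFintype (π : DiscreteQuotient X) : Fintype π :=
  Fintype.ofFinite _

/-- The data of a tracial inclusion with the diagonal property. -/
structure Core (M X : Type*) [CStarAlgebra M] [PartialOrder M] [StarOrderedRing M]
    [TopologicalSpace X] [CompactSpace X] [T2Space X] [TotallyDisconnectedSpace X] where
  τ : M →L[ℂ] ℂ
  ι : C(X, ℂ) →⋆ₐ[ℂ] M
  E : M →L[ℂ] C(X, ℂ)
  τ_one : τ 1 = 1
  τ_comm : ∀ a b, τ (a * b) = τ (b * a)
  τ_pos : ∀ a, 0 ≤ τ (star a * a)
  E_ι : ∀ f, E (ι f) = f
  E_bimod : ∀ f g z, E (ι f * z * ι g) = f * E z * g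
  E_star : ∀ z, E (star z) = star (E z)
  E_pos : ∀ a x, 0 ≤ E (star a * a) x
  τ_E : ∀ z, τ (ι (E z)) = τ z
  pinch_tendsto : ∀ z : M, Tendsto (fun π : DiscreteQuotient X =>
      (τ (star ((∑ i : π, ι (toC (cellFn π i)) * z * ι (toC (cellFn π i))) - ι (E z)) *
        ((∑ i : π, ι (toC (cellFn π i)) * z * ι (toC (cellFn π i))) - ι (E z)))).re)
      atBot (𝓝 0)

namespace Core

variable (C : Core M X)

/-- Real functions inside the algebra. -/
noncomputable def r (f : C(X, ℝ)) : M := C.ι (toC f)

/-- Real part of the expectation. -/
noncomputable def Er (z : M) : C(X, ℝ) := reC (C.E z)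

/-- Real part of the trace. -/
noncomputable def tr (z : M) : ℝ := (C.τ z).re

/-- The integral of a real function. -/
noncomputable def ig (f : C(X, ℝ)) : ℝ := C.tr (C.r f)

/-- Squared two-norm. -/
noncomputable def n2sq (z : M) : ℝ := C.tr (star z * z)

/-- The projection of a cell. -/
noncomputable def e (π : DiscreteQuotient X) (i : π) : M := C.r (cellFn π i)

/-- Pinching along a partition. -/
noncomputable def pinch (π : DiscreteQuotient X) (z : M) : M :=
  ∑ i : π, C.e π i * z * C.e π i

/-- The positive map `f ↦ E (a f star a)`. -/
noncomputable def K (a : M) (f : C(X, ℝ)) : C(X, ℝ) := C.Er (a * C.r f * star a)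

/-- Composition of the maps `K` along a word; the head is applied last. -/
noncomputable def Kword : List M → C(X, ℝ) → C(X, ℝ)
  | [], f => f
  | a :: w, f => C.K a (Kword w f)

/-- Iterated pinched conjugation along a word with one partition for each letter. -/
noncomputable def pword : List (M × DiscreteQuotient X) → M → M
  | [], z => z
  | q :: w, z => C.pinch q.2 (q.1 * pword w z * star q.1)

end Core

end Vale.Agent.P078.Tracial
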