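import Vale.Agent.P078.Tracial.Diag
import Vale.Agent.P078.Tracial.TraceFun

/-! The algebra generated by the maps `f ↦ E (a f star a)` and its diagonal trace. -/

namespace Vale.Agent.P078.Tracial.Core

open Filter Topology ComplexOrder

variable {M X : Type*} [CStarAlgebra M] [PartialOrder M] [StarOrderedRing M]
variable [TopologicalSpace X] [CompactSpace X] [T2Space X] [TotallyDisconnectedSpace X]
variable (C : Core M X)

/-! ### Real functions inside the algebra -/

lemma cov_r_add (f g : C(X, ℝ)) : C.r (f + g) = C.r f + C.r g := by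
  rw [r, r, r, ← map_add]; congr 1; ext x; simp [toC]

lemma cov_r_smul (a : ℝ) (f : C(X, ℝ)) : C.r (a • f) = a • C.r f := by
  rw [r, r, ← Complex.coe_smul, ← map_smul]; congr 1; ext x; simp [toC]

lemma cov_r_mul (f g : C(X, ℝ)) : C.r (f * g) = C.r f * C.r g := by
  rw [r, r, r, ← map_mul]; congr 1; ext x; simp [toC]

lemma cov_r_one : C.r 1 = 1 := by
  rw [r, show toC (1 : C(X, ℝ)) = 1 by ext x; simp [toC], map_one]

lemma cov_r_star (f : C(X, ℝ)) : star (C.r f) = C.r f := by
  rw [r, ← map_star]; congr 1; ext x; simp [toC]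

lemma cov_Er_add (a b : M) : C.Er (a + b) = C.Er a + C.Er b := by
  ext x; simp [Er, reC]

lemma cov_Er_smul (c : ℝ) (a : M) : C.Er (c • a) = c • C.Er a := by
  rw [← Complex.coe_smul]; ext x; simp [Er, reC]

lemma cov_Er_sub (a b : M) : C.Er (a - b) = C.Er a - C.Er b := by
  ext x; simp [Er, reC]

lemma cov_Er_bimod (f g : C(X, ℝ)) (z : M) :
    C.Er (C.r f * z * C.r g) = f * C.Er z * g := by
  ext x
  simp only [Er, reC, r, C.E_bimod, ContinuousMap.coe_mk, ContinuousMap.mul_apply, toC]
  simp [Complex.mul_re]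

lemma cov_Er_r_mul (f : C(X, ℝ)) (z : M) : C.Er (C.r f * z) = f * C.Er z := by
  simpa [cov_r_one] using C.cov_Er_bimod f 1 z

lemma cov_tr_add (a b : M) : C.tr (a + b) = C.tr a + C.tr b := by simp [tr]

lemma cov_tr_sub (a b : M) : C.tr (a - b) = C.tr a - C.tr b := by simp [tr]

lemma cov_tr_smul (c : ℝ) (a : M) : C.tr (c • a) = c * C.tr a := by
  rw [← Complex.coe_smul]; simp [tr]

lemma cov_tr_comm (a b : M) : C.tr (a * b) = C.tr (b * a) := by simp [tr, C.τ_comm a b]

lemma cov_tr_star (a : M) : C.tr (star a) = C.tr a := by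
  have h : ∀ b : M, (C.τ (star b * b)).im = 0 := fun b =>
    (Complex.le_def.1 (C.τ_pos b)).2.symm.trans Complex.zero_im
  have h1 := h (1 + Complex.I • a)
  have h2 := h a
  have e : star (1 + Complex.I • a) * (1 + Complex.I • a) =
      1 + Complex.I • a + (-Complex.I) • star a + star a * a := by
    simp only [star_add, star_one, star_smul, Complex.star_def, Complex.conj_I, add_mul, mul_add,
      one_mul, mul_one, smul_mul_assoc, mul_smul_comm, smul_add, smul_smul, mul_neg,
      Complex.I_mul_I, neg_neg, one_smul]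
    abel
  rw [e] at h1
  simp [C.τ_one, h2] at h1
  simp only [tr]
  linarith

lemma cov_ig_Er (z : M) : C.ig (C.Er z) = C.tr z := by
  have e : toC (C.Er z) = C.E ((1 / 2 : ℂ) • (z + star z)) := by
    ext x
    rw [map_smul, map_add, C.E_star]
    simp only [toC, Er, reC, ContinuousMap.coe_mk, ContinuousMap.smul_apply,
      ContinuousMap.add_apply, ContinuousMap.star_apply, smul_eq_mul]
    rw [Complex.re_eq_add_conj]
    simp only [Complex.star_def]
    ring
  have h := C.cov_tr_star z
  simp only [ig, tr, r, e, C.τ_E] at h ⊢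
  simp [h]
  ring

lemma cov_tr_r_mul (f : C(X, ℝ)) (z : M) : C.tr (C.r f * z) = C.ig (f * C.Er z) := by
  rw [← C.cov_Er_r_mul, cov_ig_Er]

lemma cov_ig_nonneg {f : C(X, ℝ)} (hf : ∀ x, 0 ≤ f x) : 0 ≤ C.ig f := by
  set g : C(X, ℝ) := ⟨fun x => Real.sqrt (f x), by fun_prop⟩ with hg
  have e : C.r f = star (C.r g) * C.r g := by
    rw [cov_r_star, ← cov_r_mul]; congr 1; ext x; simp [hg, Real.mul_self_sqrt (hf x)]
  rw [ig, tr, e]
  exact (Complex.le_def.1 (C.τ_pos _)).1

/-- Integration as a linear map. -/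
noncomputable def igL : C(X, ℝ) →ₗ[ℝ] ℝ where
  toFun := C.ig
  map_add' f g := by rw [ig, cov_r_add, cov_tr_add]; rfl
  map_smul' a f := by rw [ig, cov_r_smul, cov_tr_smul]; rfl

@[simp] lemma igL_apply (f : C(X, ℝ)) : C.igL f = C.ig f := rfl

lemma cov_ig_mono {f g : C(X, ℝ)} (h : ∀ x, f x ≤ g x) : C.ig f ≤ C.ig g := by
  have := C.cov_ig_nonneg (f := g - f) fun x => by simpa using h x
  rw [← igL_apply, map_sub] at this
  simp only [igL_apply] at this
  linarith

lemma cov_ig_one : C.ig 1 = 1 := by simp [ig, cov_r_one, tr, C.τ_one]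

omit [T2Space X] [TotallyDisconnectedSpace X] in
lemma cov_sum_cellFn (π : DiscreteQuotient X) : ∑ i : π, cellFn π i = 1 := by
  ext x
  simp [cellFn]

omit [CompactSpace X] [T2Space X] [TotallyDisconnectedSpace X] in
lemma cov_cellFn_sq (π : DiscreteQuotient X) (i : π) : cellFn π i * cellFn π i = cellFn π i := by
  ext x
  simp [cellFn]

/-! ### The maps as linear operators -/

/-- `K a` as a linear map. -/
noncomputable def Kop (a : M) : Module.End ℝ C(X, ℝ) where
  toFun := C.K a
  map_add' f g := by simp only [K, cov_r_add, mul_add, add_mul, cov_Er_add]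
  map_smul' c f := by
    simp only [K, cov_r_smul, mul_smul_comm, smul_mul_assoc, cov_Er_smul, RingHom.id_apply]

/-- Multiplication by a function. -/
noncomputable def mulOp (f : C(X, ℝ)) : Module.End ℝ C(X, ℝ) := LinearMap.mulLeft ℝ f

omit [CompactSpace X] [TotallyDisconnectedSpace X] [T2Space X] in
@[simp] lemma mulOp_apply (f g : C(X, ℝ)) : mulOp f g = f * g := rfl

@[simp] lemma Kop_apply (a : M) (f : C(X, ℝ)) : C.Kop a f = C.K a f := rfl

/-- The algebra generated by all the maps `K a`. -/
noncomputable def alg : Subalgebra ℝ (Module.End ℝ C(X, ℝ)) :=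
  Algebra.adjoin ℝ (Set.range C.Kop)

lemma Kop_mem_alg (a : M) : C.Kop a ∈ C.alg := Algebra.subset_adjoin ⟨a, rfl⟩

lemma mulOp_mem_alg (f : C(X, ℝ)) : mulOp f ∈ C.alg := by
  set g : C(X, ℝ) := ⟨fun x => Real.sqrt (max (f x) 0), by fun_prop⟩ with hg
  set h : C(X, ℝ) := ⟨fun x => Real.sqrt (max (-f x) 0), by fun_prop⟩ with hh
  have e : mulOp f = C.Kop (C.r g) - C.Kop (C.r h) := by
    refine LinearMap.ext fun u => ?_
    have hid : ∀ w : C(X, ℝ), C.K (C.r w) u = w * u * w := fun w => by
      have hu : C.Er (C.r u) = u := by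
        ext x; simp [Er, reC, r, C.E_ι, toC]
      rw [K, cov_r_star, cov_Er_bimod, hu]
    ext x
    simp only [LinearMap.sub_apply, Kop_apply, hid, mulOp_apply, ContinuousMap.sub_apply,
      ContinuousMap.mul_apply, hg, hh, ContinuousMap.coe_mk]
    have h1 := Real.mul_self_sqrt (le_max_right (f x) 0)
    have h2 := Real.mul_self_sqrt (le_max_right (-f x) 0)
    have h3 : max (f x) 0 - max (-f x) 0 = f x := by
      rcases le_total 0 (f x) with h | h
      · rw [max_eq_left h, max_eq_right (by linarith)]; ring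
      · rw [max_eq_right h, max_eq_left (by linarith)]; ring
    linear_combination (-(u x)) * h1 + (u x) * h2 - (u x) * h3
  rw [e]
  exact C.alg.sub_mem (C.Kop_mem_alg _) (C.Kop_mem_alg _)

/-- The diagonal functional. -/
noncomputable def diag (π : DiscreteQuotient X) : Module.End ℝ C(X, ℝ) →ₗ[ℝ] ℝ where
  toFun T := ∑ i : π, C.ig (cellFn π i * T (cellFn π i))
  map_add' S T := by
    simp only [← igL_apply, LinearMap.add_apply, mul_add, map_add, Finset.sum_add_distrib]
  map_smul' c T := by
    simp only [← igL_apply, LinearMap.smul_apply, mul_smul_comm, map_smul, smul_eq_mul,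
      Finset.mul_sum, RingHom.id_apply]

lemma diag_apply (π : DiscreteQuotient X) (T : Module.End ℝ C(X, ℝ)) :
    C.diag π T = ∑ i : π, C.ig (cellFn π i * T (cellFn π i)) := rfl

/-- A word as an operator. -/
noncomputable def wordOp (w : List M) : Module.End ℝ C(X, ℝ) := (w.map C.Kop).prod

lemma wordOp_apply (w : List M) (f : C(X, ℝ)) : C.wordOp w f = C.Kword w f := by
  induction w with
  | nil => simp [wordOp, Kword]
  | cons a w ih =>
    simp only [wordOp, List.map_cons, List.prod_cons, Module.End.mul_apply, Kop_apply, Kword] at ih ⊢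
    rw [ih]

lemma alg_induction {p : Module.End ℝ C(X, ℝ) → Prop} (hw : ∀ w, p (C.wordOp w))
    (h0 : p 0) (ha : ∀ S T, p S → p T → p (S + T)) (hc : ∀ (c : ℝ) S, p S → p (c • S))
    {S : Module.End ℝ C(X, ℝ)} (hS : S ∈ C.alg) : p S := by
  rw [← Subalgebra.mem_toSubmodule, alg, Algebra.adjoin_eq_span] at hS
  induction hS using Submodule.span_induction with
  | mem x hx =>
    obtain ⟨l, hl, rfl⟩ := Submonoid.exists_list_of_mem_closure hx
    choose! f hf using hl
    have e : l = (l.map f).map C.Kop := by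
      rw [List.map_map]
      conv_lhs => rw [← List.map_id l]
      exact List.map_congr_left fun x hx => by simp [hf x hx]
    rw [e]
    exact hw _
  | zero => exact h0
  | add x y _ _ hx hy => exact ha x y hx hy
  | smul c x _ hx => exact hc c x hx

/-- The diagonal is tracial on the algebra. -/
lemma tendsto_diag_comm {S T : Module.End ℝ C(X, ℝ)} (hS : S ∈ C.alg) (hT : T ∈ C.alg) :
    Tendsto (fun π => C.diag π (S * T) - C.diag π (T * S)) atBot (𝓝 0) := by
  refine C.alg_induction (p := fun S => Tendsto (fun π => C.diag π (S * T) - C.diag π (T * S))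
    atBot (𝓝 0)) (fun v => ?_) (by simp) (fun A B hA hB => by
      simpa [mul_add, add_mul, add_sub_add_comm] using hA.add hB)
    (fun c A hA => by simpa [mul_sub] using hA.const_mul c) hS
  refine C.alg_induction (p := fun T => Tendsto (fun π => C.diag π (C.wordOp v * T) -
    C.diag π (T * C.wordOp v)) atBot (𝓝 0)) (fun w => ?_) (by simp) (fun A B hA hB => by
      simpa [mul_add, add_mul, add_sub_add_comm] using hA.add hB)
    (fun c A hA => by simpa [mul_sub] using hA.const_mul c) hT
  refine (C.word_cyclic v w).congr fun π => ?_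
  simp only [diag_apply, ← Finset.sum_sub_distrib, ← wordOp_apply]
  simp [wordOp]

/-! ### Tuples -/

section Tuples

variable {r : ℕ}

/-- The entry of an operator on tuples. -/
noncomputable def entry (T : Module.End ℝ (Fin r → C(X, ℝ))) (a b : Fin r) :
    Module.End ℝ C(X, ℝ) :=
  LinearMap.proj a ∘ₗ T ∘ₗ LinearMap.single ℝ (fun _ : Fin r => C(X, ℝ)) b

/-- Operators with all entries in the algebra. -/
def Good (T : Module.End ℝ (Fin r → C(X, ℝ))) : Prop := ∀ a b, entry T a b ∈ C.alg

omit [CompactSpace X] [TotallyDisconnectedSpace X] [T2Space X] in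
lemma entry_mul (S T : Module.End ℝ (Fin r → C(X, ℝ))) (a b : Fin r) :
    entry (S * T) a b = ∑ e, entry S a e * entry T e b := by
  refine LinearMap.ext fun f => ?_
  simp only [entry, LinearMap.comp_apply, Module.End.mul_apply, LinearMap.coe_sum,
    Finset.sum_apply, LinearMap.coe_proj, Function.eval, LinearMap.coe_single]
  set v := T (Pi.single b f)
  conv_lhs => rw [← Finset.univ_sum_single v, map_sum, Finset.sum_apply]

lemma good_one : C.Good (1 : Module.End ℝ (Fin r → C(X, ℝ))) := fun a b => by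
  by_cases h : a = b
  · have : entry (1 : Module.End ℝ (Fin r → C(X, ℝ))) a b = 1 := by
      refine LinearMap.ext fun f => ?_
      simp [entry, h]
    rw [this]; exact C.alg.one_mem
  · have : entry (1 : Module.End ℝ (Fin r → C(X, ℝ))) a b = 0 := by
      refine LinearMap.ext fun f => ?_
      simp [entry, h]
    rw [this]; exact C.alg.zero_mem

variable {S T : Module.End ℝ (Fin r → C(X, ℝ))}

lemma Good.add (hS : C.Good S) (hT : C.Good T) : C.Good (S + T) := fun a b => by
  simpa [entry, LinearMap.add_comp, LinearMap.comp_add] using C.alg.add_mem (hS a b) (hT a b)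

lemma Good.smul (hS : C.Good S) (c : ℝ) : C.Good (c • S) := fun a b => by
  simpa [entry, LinearMap.smul_comp, LinearMap.comp_smul] using C.alg.smul_mem (hS a b) c

lemma Good.sub (hS : C.Good S) (hT : C.Good T) : C.Good (S - T) := by
  rw [sub_eq_add_neg, ← neg_one_smul ℝ T]
  exact hS.add C (hT.smul C _)

lemma Good.mul (hS : C.Good S) (hT : C.Good T) : C.Good (S * T) := fun a b => by
  rw [entry_mul]
  exact C.alg.sum_mem fun e _ => C.alg.mul_mem (hS a e) (hT e b)

lemma Good.pow (hS : C.Good S) (n : ℕ) : C.Good (S ^ n) := by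
  induction n with
  | zero => simpa using C.good_one
  | succ n ih => rw [pow_succ]; exact ih.mul C hS

/-- The diagonal functional on tuples. -/
noncomputable def diagV (π : DiscreteQuotient X) :
    Module.End ℝ (Fin r → C(X, ℝ)) →ₗ[ℝ] ℝ where
  toFun T := ∑ a, C.diag π (entry T a a)
  map_add' S T := by
    rw [← Finset.sum_add_distrib]
    refine Finset.sum_congr rfl fun a _ => ?_
    rw [← map_add]
    congr 1
  map_smul' c T := by
    rw [RingHom.id_apply, smul_eq_mul, Finset.mul_sum]
    refine Finset.sum_congr rfl fun a _ => ?_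
    rw [← smul_eq_mul, ← map_smul]
    congr 1

lemma tendsto_diagV_comm (hS : C.Good S) (hT : C.Good T) :
    Tendsto (fun π => C.diagV π (S * T) - C.diagV π (T * S)) atBot (𝓝 0) := by
  have h : Tendsto (fun π => ∑ a, ∑ b, (C.diag π (entry S a b * entry T b a) -
      C.diag π (entry T b a * entry S a b))) atBot (𝓝 0) := by
    have h0 := tendsto_finsetSum (Finset.univ : Finset (Fin r)) fun a _ =>
      tendsto_finsetSum (Finset.univ : Finset (Fin r)) fun b _ =>
        C.tendsto_diag_comm (hS a b) (hT b a)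
    simpa using h0
  refine h.congr fun π => ?_
  simp only [diagV, LinearMap.coe_mk, AddHom.coe_mk, entry_mul, map_sum, Finset.sum_sub_distrib]
  congr 1
  exact Finset.sum_comm

/-- Moving a factor through one copy. -/
lemma tendsto_diagV_rect (L : C(X, ℝ) →ₗ[ℝ] (Fin r → C(X, ℝ)))
    (Q : (Fin r → C(X, ℝ)) →ₗ[ℝ] C(X, ℝ)) (hL : ∀ a, LinearMap.proj a ∘ₗ L ∈ C.alg)
    (hQ : ∀ a, Q ∘ₗ LinearMap.single ℝ (fun _ : Fin r => C(X, ℝ)) a ∈ C.alg) :
    Tendsto (fun π => C.diagV π (L ∘ₗ Q) - C.diag π (Q ∘ₗ L)) atBot (𝓝 0) := by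
  have e : Q ∘ₗ L = ∑ a, (Q ∘ₗ LinearMap.single ℝ (fun _ : Fin r => C(X, ℝ)) a) *
      (LinearMap.proj a ∘ₗ L) := by
    refine LinearMap.ext fun f => ?_
    simp only [LinearMap.comp_apply, LinearMap.coe_sum, Finset.sum_apply, Module.End.mul_apply,
      LinearMap.coe_proj, Function.eval, LinearMap.coe_single]
    conv_lhs => rw [← Finset.univ_sum_single (L f), map_sum]
  have h0 := tendsto_finsetSum (Finset.univ : Finset (Fin r)) fun a _ =>
    C.tendsto_diag_comm (hL a) (hQ a)
  simp only [Finset.sum_const_zero] at h0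
  refine h0.congr fun π => ?_
  rw [e, map_sum, Finset.sum_sub_distrib]
  rfl

/-- The form on tuples. -/
noncomputable def ipV : (Fin r → C(X, ℝ)) →ₗ[ℝ] (Fin r → C(X, ℝ)) →ₗ[ℝ] ℝ :=
  LinearMap.mk₂ ℝ (fun u v => ∑ c, C.ig (u c * v c))
    (fun u u' v => by simp [← igL_apply, add_mul, map_add, Finset.sum_add_distrib])
    (fun a u v => by simp [← igL_apply, map_smul, Finset.mul_sum])
    (fun u v v' => by simp [← igL_apply, mul_add, map_add, Finset.sum_add_distrib])
    (fun a u v => by simp [← igL_apply, map_smul, Finset.mul_sum])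

@[simp] lemma ipV_apply (u v : Fin r → C(X, ℝ)) : C.ipV u v = ∑ c, C.ig (u c * v c) := rfl

lemma diagV_eq (π : DiscreteQuotient X) (T : Module.End ℝ (Fin r → C(X, ℝ))) :
    C.diagV π T = ∑ a, ∑ i : π, C.ipV (Pi.single a (cellFn π i)) (T (Pi.single a (cellFn π i))) := by
  simp only [diagV, diag, LinearMap.coe_mk, AddHom.coe_mk, entry, ipV_apply]
  refine Finset.sum_congr rfl fun a _ => Finset.sum_congr rfl fun i _ => ?_
  rw [Finset.sum_eq_single a]
  · rw [Pi.single_eq_same]; rfl
  · intro b _ hb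
    rw [Pi.single_eq_of_ne hb, zero_mul, ← igL_apply, map_zero]
  · simp

lemma diagV_one (π : DiscreteQuotient X) :
    C.diagV π (1 : Module.End ℝ (Fin r → C(X, ℝ))) = r := by
  have h : ∀ a : Fin r, entry (1 : Module.End ℝ (Fin r → C(X, ℝ))) a a = 1 := fun a =>
    LinearMap.ext fun f => by simp [entry]
  have h1 : C.diag π 1 = 1 := by
    simp only [diag_apply, Module.End.one_apply, cov_cellFn_sq, ← igL_apply, ← map_sum,
      cov_sum_cellFn]
    exact C.cov_ig_one
  simp [diagV, h, h1]

end Tuples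

end Vale.Agent.P078.Tracial.Core
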