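import Vale.Agent.P078.Tracial.CovForm
import Vale.Agent.P078.Tracial.CovOps

/-! The covariance lemma: white noise projected to an approximate kernel of the constraint. -/

namespace Vale.Agent.P078.Tracial.Core

open Filter Topology ComplexOrder

variable {M X : Type*} [CStarAlgebra M] [PartialOrder M] [StarOrderedRing M]
variable [TopologicalSpace X] [CompactSpace X] [T2Space X] [TotallyDisconnectedSpace X]
variable (C : Core M X)

/-- The data of one step. -/
structure StepData (M X : Type*) [TopologicalSpace X] (r : ℕ) where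
  act : Fin r → C(X, ℝ)
  U : C(X, ℝ)
  μ : Fin r → C(X, ℝ)
  m : Fin r → C(X, ℝ)
  n : Fin r → C(X, ℝ)
  G : Fin r → M
  W : Fin r → M

/-- Validity and a uniform bound. -/
structure StepData.Ok {r : ℕ} (d : StepData M X r) (N : ℝ) : Prop where
  act_01 : ∀ c x, d.act c x = 0 ∨ d.act c x = 1
  U_01 : ∀ x, d.U x = 0 ∨ d.U x = 1
  act_le : ∀ c x, d.act c x ≤ d.U x
  μ_act : ∀ c, d.μ c * d.act c = d.μ c
  m_act : ∀ c, d.m c * d.act c = d.m c
  n_act : ∀ c, d.n c * d.act c = d.n c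
  bdd : ∀ c, ‖d.μ c‖ ≤ N ∧ ‖d.m c‖ ≤ N ∧ ‖d.n c‖ ≤ N ∧ ‖d.G c‖ ≤ N ∧ ‖d.W c‖ ≤ N
  G_nonneg : ∀ c, 0 ≤ d.G c
  W_nonneg : ∀ c, 0 ≤ d.W c

/-- The linear constraint. -/
noncomputable def constr {r : ℕ} (d : StepData M X r) (u : Fin r → C(X, ℝ)) : C(X, ℝ) :=
  ∑ c, (d.m c * (d.μ c * u c) - d.n c * C.K (d.G c) (d.μ c * u c))

/-- The loss form of colour `c`. -/
noncomputable def lossB {r : ℕ} (d : StepData M X r) (c : Fin r) (v : C(X, ℝ)) : ℝ :=
  C.tr (C.r (d.μ c * v) * d.G c * C.r (d.μ c * v) * d.W c)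

/-- The unit vector of colour `c` and cell `i`. -/
noncomputable def unitVec {r : ℕ} (π : DiscreteQuotient X) (c : Fin r) (i : π) :
    Fin r → C(X, ℝ) := fun c' => if c' = c then cellFn π i else 0

section Aux

variable {r : ℕ} {d : StepData M X r} {N : ℝ}

lemma cov_ig_K_symm {G : M} (hG : IsSelfAdjoint G) (f g : C(X, ℝ)) :
    C.ig (f * C.K G g) = C.ig (C.K G f * g) := by
  rw [mul_comm (C.K G f) g, K, K, ← cov_tr_r_mul, ← cov_tr_r_mul, hG.star_eq]
  simp only [← mul_assoc]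
  rw [mul_assoc (C.r f * G), C.cov_tr_comm]
  simp only [mul_assoc]

lemma cov_n2sq_r (f : C(X, ℝ)) : C.n2sq (C.r f) = C.ig (f * f) := by
  rw [n2sq, cov_r_star, ← cov_r_mul]; rfl

lemma cov_sq_K_le {G : M} (hG : IsSelfAdjoint G) (f : C(X, ℝ)) :
    C.ig (C.K G f * C.K G f) ≤ ‖G‖ ^ 4 * C.ig (f * f) := by
  set h := C.K G f with hh
  have e : C.ig (h * h) = C.tr (C.r h * (G * C.r f * G)) := by
    rw [cov_tr_r_mul, hh, K, hG.star_eq]
  have h1 := (le_abs_self _).trans (C.abs_tr_mul_le (C.r h) (G * C.r f * G))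
  rw [← e, cov_n2sq_r] at h1
  have h2 : C.n2sq (G * C.r f * G) ≤ ‖G‖ ^ 4 * C.ig (f * f) := by
    refine (C.n2sq_mul_le G (G * C.r f)).2.trans ?_
    rw [show ‖G‖ ^ 4 = ‖G‖ ^ 2 * ‖G‖ ^ 2 by ring, mul_assoc, ← cov_n2sq_r]
    exact mul_le_mul_of_nonneg_left (C.n2sq_mul_le G (C.r f)).1 (sq_nonneg _)
  have h0 : 0 ≤ C.ig (h * h) := C.cov_ig_nonneg fun x => mul_self_nonneg _
  refine le_trans ?_ h2
  have h3 := Real.sqrt_nonneg (C.ig (h * h))
  have h4 := Real.mul_self_sqrt h0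
  have h5 : 0 ≤ C.n2sq (G * C.r f * G) := (Complex.le_def.1 (C.τ_pos _)).1
  have h6 := Real.mul_self_sqrt h5
  nlinarith [sq_nonneg (Real.sqrt (C.ig (h * h)) - Real.sqrt (C.n2sq (G * C.r f * G))),
    Real.sqrt_nonneg (C.n2sq (G * C.r f * G))]

lemma cov_sq_mul_le {g : C(X, ℝ)} (hg : ‖g‖ ≤ N) (f : C(X, ℝ)) :
    C.ig ((g * f) * (g * f)) ≤ N ^ 2 * C.ig (f * f) := by
  rw [← igL_apply, ← igL_apply, show N ^ 2 * C.igL (f * f) = C.igL (N ^ 2 • (f * f)) by
    rw [map_smul, smul_eq_mul]]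
  refine C.cov_ig_mono fun x => ?_
  have h1 : |g x| ≤ N := (g.norm_coe_le_norm x).trans hg
  have h2 : g x ^ 2 ≤ N ^ 2 := by rw [← sq_abs (g x)]; gcongr
  simp only [ContinuousMap.mul_apply, ContinuousMap.smul_apply, smul_eq_mul]
  nlinarith [mul_self_nonneg (f x)]

lemma cov_norm_K_le (a : M) (f : C(X, ℝ)) : ‖C.K a f‖ ≤ ‖C.E‖ * ‖a‖ ^ 2 * ‖f‖ := by
  refine (ContinuousMap.norm_le _ (by positivity)).2 fun x => ?_
  have h1 : ‖toC f‖ ≤ ‖f‖ := (ContinuousMap.norm_le _ (norm_nonneg _)).2 fun y => by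
    simpa [toC] using f.norm_coe_le_norm y
  have h2 : ‖C.r f‖ ≤ ‖f‖ := (NonUnitalStarAlgHom.norm_apply_le C.ι (toC f)).trans h1
  have h3 : ‖a * C.r f * star a‖ ≤ ‖a‖ ^ 2 * ‖f‖ := by
    refine (norm_mul_le _ _).trans ?_
    rw [norm_star, sq, mul_right_comm]
    exact mul_le_mul_of_nonneg_right ((norm_mul_le _ _).trans
      (mul_le_mul_of_nonneg_left h2 (norm_nonneg _))) (norm_nonneg _)
  calc ‖C.K a f x‖ ≤ ‖C.E (a * C.r f * star a) x‖ := by
        simpa [K, Er, reC] using Complex.abs_re_le_norm (C.E (a * C.r f * star a) x)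
    _ ≤ ‖C.E (a * C.r f * star a)‖ := ContinuousMap.norm_coe_le_norm _ x
    _ ≤ ‖C.E‖ * ‖a * C.r f * star a‖ := C.E.le_opNorm _
    _ ≤ _ := by rw [mul_assoc ‖C.E‖]; exact mul_le_mul_of_nonneg_left h3 (norm_nonneg C.E)

/-- One column of the constraint. -/
noncomputable def colL (d : StepData M X r) (c : Fin r) : Module.End ℝ C(X, ℝ) :=
  mulOp (d.m c) * mulOp (d.μ c) - mulOp (d.n c) * C.Kop (d.G c) * mulOp (d.μ c)

/-- One row of its adjoint. -/
noncomputable def rowL (d : StepData M X r) (c : Fin r) : Module.End ℝ C(X, ℝ) :=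
  mulOp (d.μ c) * mulOp (d.m c) - mulOp (d.μ c) * C.Kop (d.G c) * mulOp (d.n c)

lemma colL_apply (c : Fin r) (f : C(X, ℝ)) :
    C.colL d c f = d.m c * (d.μ c * f) - d.n c * C.K (d.G c) (d.μ c * f) := rfl

lemma rowL_apply (c : Fin r) (f : C(X, ℝ)) :
    C.rowL d c f = d.μ c * (d.m c * f) - d.μ c * C.K (d.G c) (d.n c * f) := rfl

lemma colL_mem (c : Fin r) : C.colL d c ∈ C.alg :=
  C.alg.sub_mem (C.alg.mul_mem (C.mulOp_mem_alg _) (C.mulOp_mem_alg _))
    (C.alg.mul_mem (C.alg.mul_mem (C.mulOp_mem_alg _) (C.Kop_mem_alg _)) (C.mulOp_mem_alg _))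

lemma rowL_mem (c : Fin r) : C.rowL d c ∈ C.alg :=
  C.alg.sub_mem (C.alg.mul_mem (C.mulOp_mem_alg _) (C.mulOp_mem_alg _))
    (C.alg.mul_mem (C.alg.mul_mem (C.mulOp_mem_alg _) (C.Kop_mem_alg _)) (C.mulOp_mem_alg _))

/-- The constraint as a linear map. -/
noncomputable def constrL (d : StepData M X r) : (Fin r → C(X, ℝ)) →ₗ[ℝ] C(X, ℝ) :=
  ∑ c, C.colL d c ∘ₗ LinearMap.proj c

lemma constrL_apply (u : Fin r → C(X, ℝ)) : C.constrL d u = C.constr d u := by
  simp [constrL, constr, colL_apply]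

/-- Its adjoint. -/
noncomputable def adjL (d : StepData M X r) : C(X, ℝ) →ₗ[ℝ] (Fin r → C(X, ℝ)) :=
  LinearMap.pi (C.rowL d)

lemma adjoint_constrL (hd : d.Ok N) (u : Fin r → C(X, ℝ)) (y : C(X, ℝ)) :
    C.ig (C.constrL d u * y) = C.ipV u (C.adjL d y) := by
  simp only [constrL, LinearMap.coe_sum, Finset.sum_apply, LinearMap.comp_apply,
    LinearMap.coe_proj, Function.eval, Finset.sum_mul, ← igL_apply, map_sum, ipV_apply, adjL,
    LinearMap.pi_apply]
  refine Finset.sum_congr rfl fun c _ => ?_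
  simp only [colL_apply, rowL_apply, sub_mul, mul_sub, map_sub, igL_apply]
  have h := C.cov_ig_K_symm (IsSelfAdjoint.of_nonneg (hd.G_nonneg c)) (d.μ c * u c) (d.n c * y)
  rw [show d.m c * (d.μ c * u c) * y = u c * (d.μ c * (d.m c * y)) by ring,
    show d.n c * C.K (d.G c) (d.μ c * u c) * y = C.K (d.G c) (d.μ c * u c) * (d.n c * y) by ring,
    ← h, mul_assoc, mul_left_comm (d.μ c) (u c)]

/-- The diagonal blocks with operators `F`. -/
noncomputable def blockV (F : Fin r → Module.End ℝ C(X, ℝ)) :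
    Module.End ℝ (Fin r → C(X, ℝ)) :=
  LinearMap.pi fun c => F c ∘ₗ LinearMap.proj c

omit [CompactSpace X] [T2Space X] [TotallyDisconnectedSpace X] in
@[simp] lemma blockV_apply (F : Fin r → Module.End ℝ C(X, ℝ)) (u : Fin r → C(X, ℝ)) (c : Fin r) :
    blockV F u c = F c (u c) := rfl

lemma good_blockV {F : Fin r → Module.End ℝ C(X, ℝ)} (hF : ∀ c, F c ∈ C.alg) :
    C.Good (blockV F) := fun a b => by
  by_cases h : a = b
  · subst h
    have : entry (blockV F) a a = F a := LinearMap.ext fun f => by simp [entry]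
    rw [this]; exact hF a
  · have : entry (blockV F) a b = 0 := LinearMap.ext fun f => by simp [entry, h]
    rw [this]; exact C.alg.zero_mem

/-- Multiplication by the activity. -/
noncomputable def actV (d : StepData M X r) : Module.End ℝ (Fin r → C(X, ℝ)) :=
  blockV fun c => mulOp (d.act c)

/-- The loss as an operator. -/
noncomputable def lossV (d : StepData M X r) : Module.End ℝ (Fin r → C(X, ℝ)) :=
  blockV fun c => mulOp (d.μ c) *
    ((1 / 4 : ℝ) • (C.Kop (d.G c + d.W c) - C.Kop (d.G c - d.W c))) * mulOp (d.μ c)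

lemma good_lossV : C.Good (C.lossV d) :=
  C.good_blockV fun _ => C.alg.mul_mem (C.alg.mul_mem (C.mulOp_mem_alg _)
    (C.alg.smul_mem (C.alg.sub_mem (C.Kop_mem_alg _) (C.Kop_mem_alg _)) _)) (C.mulOp_mem_alg _)

lemma lossV_apply (u : Fin r → C(X, ℝ)) (c : Fin r) :
    C.lossV d u c = d.μ c * ((1 / 4 : ℝ) •
      (C.K (d.G c + d.W c) (d.μ c * u c) - C.K (d.G c - d.W c) (d.μ c * u c))) := rfl

lemma cov_ig_mul_lossV (u v : Fin r → C(X, ℝ)) (c : Fin r) :
    C.ig (u c * C.lossV d v c) = 1 / 4 * (C.ig (d.μ c * u c * C.K (d.G c + d.W c) (d.μ c * v c)) -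
      C.ig (d.μ c * u c * C.K (d.G c - d.W c) (d.μ c * v c))) := by
  rw [lossV_apply, mul_left_comm, ← mul_assoc, mul_smul_comm, mul_sub, ← igL_apply, map_smul,
    map_sub, smul_eq_mul]
  rfl

lemma lossV_symm (hd : d.Ok N) (u v : Fin r → C(X, ℝ)) :
    C.ipV (C.lossV d u) v = C.ipV u (C.lossV d v) := by
  simp only [ipV_apply]
  refine Finset.sum_congr rfl fun c _ => ?_
  have hG := IsSelfAdjoint.of_nonneg (hd.G_nonneg c)
  have hW := IsSelfAdjoint.of_nonneg (hd.W_nonneg c)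
  rw [mul_comm, C.cov_ig_mul_lossV, C.cov_ig_mul_lossV, C.cov_ig_K_symm (hG.add hW),
    C.cov_ig_K_symm (hG.sub hW)]
  simp only [mul_comm (C.K _ _)]

lemma ig_mul_lossV (hd : d.Ok N) (u : Fin r → C(X, ℝ)) (c : Fin r) :
    C.ig (u c * C.lossV d u c) = C.lossB d c (u c) := by
  have hG := IsSelfAdjoint.of_nonneg (hd.G_nonneg c)
  have hW := IsSelfAdjoint.of_nonneg (hd.W_nonneg c)
  rw [C.cov_ig_mul_lossV, lossB]
  simp only [K, ← cov_tr_r_mul, (hG.add hW).star_eq, (hG.sub hW).star_eq]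
  set g := C.r (d.μ c * u c)
  set G := d.G c
  set W := d.W c
  have e : g * ((G + W) * g * (G + W)) - g * ((G - W) * g * (G - W)) =
      (g * G * g * W + g * W * g * G) + (g * G * g * W + g * W * g * G) := by noncomm_ring
  rw [← cov_tr_sub, e, cov_tr_add, cov_tr_add]
  have h : C.tr (g * W * g * G) = C.tr (g * G * g * W) := by
    rw [mul_assoc (g * W), C.cov_tr_comm]; simp [mul_assoc]
  rw [h]; ring

lemma lossB_nonneg (hd : d.Ok N) (c : Fin r) (f : C(X, ℝ)) : 0 ≤ C.lossB d c f := by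
  refine C.tr_mul_nonneg ?_ (hd.W_nonneg c)
  have := star_left_conjugate_nonneg (hd.G_nonneg c) (C.r (d.μ c * f))
  rwa [cov_r_star] at this

lemma ipV_lossV (hd : d.Ok N) (u : Fin r → C(X, ℝ)) :
    C.ipV u (C.lossV d u) = ∑ c, C.lossB d c (u c) := by
  simp only [ipV_apply, C.ig_mul_lossV hd]

lemma cov_sq_add_le (a b : C(X, ℝ)) :
    C.ig ((a - b) * (a - b)) ≤ 2 * (C.ig (a * a) + C.ig (b * b)) := by
  rw [← igL_apply, ← igL_apply, ← igL_apply, ← map_add,
    show 2 * C.igL (a * a + b * b) = C.igL ((2 : ℝ) • (a * a + b * b)) by rw [map_smul, smul_eq_mul]]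
  refine C.cov_ig_mono fun x => ?_
  simp only [ContinuousMap.mul_apply, ContinuousMap.smul_apply, ContinuousMap.add_apply,
    ContinuousMap.sub_apply, smul_eq_mul]
  nlinarith [sq_nonneg (a x + b x)]

lemma lossV_bound (hd : d.Ok N) (hN : 0 ≤ N) (u : Fin r → C(X, ℝ)) :
    CovForm.nrm C.ipV (C.lossV d u) ≤ 2 * N ^ 4 * CovForm.nrm C.ipV u := by
  rw [CovForm.nrm, CovForm.nrm, ← Real.sqrt_mul_self (by positivity : 0 ≤ 2 * N ^ 4),
    ← Real.sqrt_mul (by positivity)]
  refine Real.sqrt_le_sqrt ?_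
  simp only [ipV_apply, Finset.mul_sum]
  refine Finset.sum_le_sum fun c _ => ?_
  obtain ⟨hμ, -, -, hG, hW⟩ := hd.bdd c
  have sG := IsSelfAdjoint.of_nonneg (hd.G_nonneg c)
  have sW := IsSelfAdjoint.of_nonneg (hd.W_nonneg c)
  rw [lossV_apply]
  refine (C.cov_sq_mul_le hμ _).trans ?_
  rw [smul_mul_smul_comm, ← igL_apply, map_smul, smul_eq_mul, igL_apply]
  have h1 := C.cov_sq_K_le (sG.add sW) (d.μ c * u c)
  have h2 := C.cov_sq_K_le (sG.sub sW) (d.μ c * u c)
  have h3 : ‖d.G c + d.W c‖ ^ 4 ≤ (2 * N) ^ 4 := by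
    gcongr; linarith [norm_add_le (d.G c) (d.W c)]
  have h4 : ‖d.G c - d.W c‖ ^ 4 ≤ (2 * N) ^ 4 := by
    gcongr; linarith [norm_sub_le (d.G c) (d.W c)]
  have h5 := C.cov_sq_mul_le hμ (u c)
  have h6 : 0 ≤ C.ig (d.μ c * u c * (d.μ c * u c)) := C.cov_ig_nonneg fun x => mul_self_nonneg _
  have h7 := C.cov_sq_add_le (C.K (d.G c + d.W c) (d.μ c * u c))
    (C.K (d.G c - d.W c) (d.μ c * u c))
  nlinarith [mul_le_mul_of_nonneg_right h3 h6, mul_le_mul_of_nonneg_right h4 h6,
    mul_le_mul_of_nonneg_left h5 (sq_nonneg N), pow_nonneg hN 4]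

lemma constrL_bound (hd : d.Ok N) (hN : 0 ≤ N) (u : Fin r → C(X, ℝ)) :
    C.ig (C.constrL d u * C.constrL d u) ≤ 2 * r * (N ^ 4 + N ^ 8) * C.ipV u u := by
  set a : Fin r → C(X, ℝ) := fun c => d.m c * (d.μ c * u c)
  set b : Fin r → C(X, ℝ) := fun c => d.n c * C.K (d.G c) (d.μ c * u c)
  have e : C.constrL d u = ∑ c, (a c - b c) := by simp [constrL, colL_apply, a, b]
  have h1 : C.ig (C.constrL d u * C.constrL d u) ≤
      r * ∑ c, C.ig ((a c - b c) * (a c - b c)) := by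
    rw [e]
    simp only [← igL_apply]
    rw [← map_sum, show (r : ℝ) * C.igL (∑ c, (a c - b c) * (a c - b c)) =
      C.igL ((r : ℝ) • ∑ c, (a c - b c) * (a c - b c)) by rw [map_smul, smul_eq_mul]]
    refine C.cov_ig_mono fun x => ?_
    have := sq_sum_le_card_mul_sum_sq (s := Finset.univ) (f := fun c => a c x - b c x)
    simpa [sq] using this
  refine h1.trans ?_
  simp only [ipV_apply, Finset.mul_sum]
  refine Finset.sum_le_sum fun c _ => ?_
  obtain ⟨hμ, hm, hn, hG, -⟩ := hd.bdd c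
  have h0 := C.cov_sq_add_le (a c) (b c)
  have h5 := C.cov_sq_mul_le hμ (u c)
  have h2 := (C.cov_sq_mul_le hm (d.μ c * u c)).trans
    (mul_le_mul_of_nonneg_left h5 (sq_nonneg N))
  have h3 := (C.cov_sq_mul_le hn (C.K (d.G c) (d.μ c * u c))).trans (mul_le_mul_of_nonneg_left
    (C.cov_sq_K_le (IsSelfAdjoint.of_nonneg (hd.G_nonneg c)) (d.μ c * u c)) (sq_nonneg N))
  have h6 : ‖d.G c‖ ^ 4 ≤ N ^ 4 := by gcongr
  have h7 : 0 ≤ C.ig (d.μ c * u c * (d.μ c * u c)) := C.cov_ig_nonneg fun x => mul_self_nonneg _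
  have h8 := mul_le_mul h6 h5 h7 (pow_nonneg hN 4)
  have hr : (0 : ℝ) ≤ r := Nat.cast_nonneg r
  calc (r : ℝ) * C.ig ((a c - b c) * (a c - b c))
      ≤ r * (2 * (N ^ 2 * (N ^ 2 * C.ig (u c * u c)) +
          N ^ 2 * (N ^ 4 * (N ^ 2 * C.ig (u c * u c))))) := by
        refine mul_le_mul_of_nonneg_left (h0.trans ?_) hr
        have := mul_le_mul_of_nonneg_left h8 (sq_nonneg N)
        linarith
    _ = _ := by ring

/-- A crude uniform bound. -/
lemma adjL_constrL_norm (hd : d.Ok N) (hN : 0 ≤ N) (u : Fin r → C(X, ℝ)) :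
    ‖C.adjL d (C.constrL d u)‖ ≤ r * (N ^ 2 + ‖C.E‖ * N ^ 4) ^ 2 * ‖u‖ := by
  set L := N ^ 2 + ‖C.E‖ * N ^ 4
  have hE := norm_nonneg C.E
  have hL : 0 ≤ L := by positivity
  have key : ∀ c f, ‖C.colL d c f‖ ≤ L * ‖f‖ ∧ ‖C.rowL d c f‖ ≤ L * ‖f‖ := by
    intro c f
    obtain ⟨hμ, hm, hn, hG, -⟩ := hd.bdd c
    have hK : ∀ g, ‖C.K (d.G c) g‖ ≤ ‖C.E‖ * N ^ 2 * ‖g‖ := fun g =>
      (C.cov_norm_K_le _ g).trans (by gcongr)
    have hmul : ∀ (g h : C(X, ℝ)) (b : ℝ), ‖g‖ ≤ N → ‖h‖ ≤ b → ‖g * h‖ ≤ N * b :=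
      fun g h b hg hh => (norm_mul_le g h).trans (mul_le_mul hg hh (norm_nonneg _) hN)
    rw [colL_apply, rowL_apply]
    constructor
    · refine (norm_sub_le _ _).trans ((add_le_add (hmul _ _ _ hm (hmul _ _ _ hμ le_rfl))
        (hmul _ _ _ hn ((hK _).trans (mul_le_mul_of_nonneg_left (hmul _ _ _ hμ le_rfl)
          (by positivity))))).trans (le_of_eq ?_))
      ring
    · refine (norm_sub_le _ _).trans ((add_le_add (hmul _ _ _ hμ (hmul _ _ _ hm le_rfl))
        (hmul _ _ _ hμ ((hK _).trans (mul_le_mul_of_nonneg_left (hmul _ _ _ hn le_rfl)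
          (by positivity))))).trans (le_of_eq ?_))
      ring
  refine (pi_norm_le_iff_of_nonneg (by positivity)).2 fun c => ((key c _).2).trans ?_
  have h1 : ‖C.constrL d u‖ ≤ r * (L * ‖u‖) := by
    simp only [constrL, LinearMap.coe_sum, Finset.sum_apply, LinearMap.comp_apply,
      LinearMap.coe_proj, Function.eval]
    refine (norm_sum_le _ _).trans ((Finset.sum_le_sum fun c _ => ((key c _).1).trans
      (mul_le_mul_of_nonneg_left (norm_le_pi_norm u c) hL)).trans (le_of_eq ?_))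
    simp
  exact (mul_le_mul_of_nonneg_left h1 hL).trans (le_of_eq (by ring))

omit [CompactSpace X] [T2Space X] [TotallyDisconnectedSpace X] in
lemma unitVec_eq (π : DiscreteQuotient X) (c : Fin r) (i : π) :
    unitVec π c i = Pi.single c (cellFn π i) := by
  funext c'
  simp only [unitVec, Pi.single_apply]

/-! ### The contraction and its powers -/

variable {T : ℝ} {n : ℕ}

/-- The normalised square of the constraint. -/
noncomputable def covX (d : StepData M X r) (T : ℝ) : Module.End ℝ (Fin r → C(X, ℝ)) :=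
  T⁻¹ • (C.adjL d ∘ₗ C.constrL d)

/-- The normalised square on the single copy. -/
noncomputable def covX' (d : StepData M X r) (T : ℝ) : Module.End ℝ C(X, ℝ) :=
  T⁻¹ • (C.constrL d ∘ₗ C.adjL d)

/-- The approximate projection to the kernel. -/
noncomputable def covY (d : StepData M X r) (T : ℝ) (n : ℕ) :
    Module.End ℝ (Fin r → C(X, ℝ)) := (1 - C.covX d T) ^ n

omit [StarOrderedRing M] [T2Space X] [TotallyDisconnectedSpace X] in
lemma act_sq (hd : d.Ok N) (c : Fin r) : d.act c * d.act c = d.act c := by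
  ext x; rcases hd.act_01 c x with h | h <;> simp [h]

omit [StarOrderedRing M] [T2Space X] [TotallyDisconnectedSpace X] in
lemma U_mul_act (hd : d.Ok N) (c : Fin r) : d.U * d.act c = d.act c := by
  ext x
  rcases hd.U_01 x with h | h
  · have h1 := hd.act_le c x
    rcases hd.act_01 c x with h' | h'
    · simp [h, h']
    · linarith
  · simp [h]

omit [StarOrderedRing M] [T2Space X] [TotallyDisconnectedSpace X] in
lemma U_mul_m (hd : d.Ok N) (c : Fin r) : d.U * d.m c = d.m c := by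
  rw [← hd.m_act c, mul_left_comm, U_mul_act hd]

omit [StarOrderedRing M] [T2Space X] [TotallyDisconnectedSpace X] in
lemma U_mul_n (hd : d.Ok N) (c : Fin r) : d.U * d.n c = d.n c := by
  rw [← hd.n_act c, mul_left_comm, U_mul_act hd]

omit [StarOrderedRing M] [T2Space X] [TotallyDisconnectedSpace X] in
lemma mul_μ_absorb (hd : d.Ok N) (c : Fin r) (f : C(X, ℝ)) :
    d.μ c * (d.act c * f) = d.μ c * f := by rw [← mul_assoc, hd.μ_act]

omit [StarOrderedRing M] [T2Space X] [TotallyDisconnectedSpace X] in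
lemma act_mul_μ (hd : d.Ok N) (c : Fin r) (f : C(X, ℝ)) :
    d.act c * (d.μ c * f) = d.μ c * f := by rw [mul_left_comm, mul_μ_absorb hd]

lemma constrL_act (hd : d.Ok N) (u : Fin r → C(X, ℝ)) :
    C.constrL d (actV d u) = C.constrL d u := by
  simp only [constrL, LinearMap.comp_apply, LinearMap.coe_sum, Finset.sum_apply,
    LinearMap.coe_proj, Function.eval, actV, blockV_apply, colL_apply, mulOp_apply]
  exact Finset.sum_congr rfl fun c _ => by rw [mul_μ_absorb hd]

lemma act_adjL (hd : d.Ok N) (y : C(X, ℝ)) : actV d (C.adjL d y) = C.adjL d y := by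
  funext c
  show d.act c * C.rowL d c y = C.rowL d c y
  rw [rowL_apply, mul_sub, act_mul_μ hd, act_mul_μ hd]

lemma U_mul_constrL (hd : d.Ok N) (u : Fin r → C(X, ℝ)) :
    d.U * C.constrL d u = C.constrL d u := by
  simp only [constrL, LinearMap.coe_sum, Finset.sum_apply, LinearMap.comp_apply,
    LinearMap.coe_proj, Function.eval, colL_apply, Finset.mul_sum, mul_sub, ← mul_assoc,
    U_mul_m hd, U_mul_n hd]

lemma adjL_U_mul (hd : d.Ok N) (y : C(X, ℝ)) : C.adjL d (d.U * y) = C.adjL d y := by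
  funext c
  show C.rowL d c (d.U * y) = C.rowL d c y
  rw [rowL_apply, rowL_apply, ← mul_assoc (d.m c), mul_comm (d.m c) d.U, U_mul_m hd,
    ← mul_assoc (d.n c), mul_comm (d.n c) d.U, U_mul_n hd]

omit [StarOrderedRing M] [T2Space X] [TotallyDisconnectedSpace X] in
lemma actV_sq (hd : d.Ok N) : actV d * actV d = actV d :=
  LinearMap.ext fun u => funext fun c => by
    show d.act c * (d.act c * u c) = d.act c * u c
    rw [← mul_assoc, act_sq hd]

lemma lossV_act (hd : d.Ok N) : C.lossV d * actV d = C.lossV d :=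
  LinearMap.ext fun u => funext fun c => by
    simp only [Module.End.mul_apply, lossV_apply, actV, blockV_apply, mulOp_apply,
      mul_μ_absorb hd]

lemma act_lossV (hd : d.Ok N) : actV d * C.lossV d = C.lossV d :=
  LinearMap.ext fun u => funext fun c => by
    simp only [Module.End.mul_apply, lossV_apply, actV, blockV_apply, mulOp_apply,
      act_mul_μ hd]

lemma isSemi_ipV : CovForm.IsSemi (C.ipV (r := r)) :=
  ⟨fun u v => by simp [mul_comm], fun v => by
    simp only [ipV_apply]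
    exact Finset.sum_nonneg fun c _ => C.cov_ig_nonneg fun x => mul_self_nonneg _⟩

lemma ipV_covX (hd : d.Ok N) (u v : Fin r → C(X, ℝ)) :
    C.ipV u (C.covX d T v) = T⁻¹ * C.ig (C.constrL d u * C.constrL d v) := by
  rw [covX, LinearMap.smul_apply, map_smul, smul_eq_mul, LinearMap.comp_apply,
    ← C.adjoint_constrL hd]

lemma isPosContr_covX (hd : d.Ok N) (hN : 0 ≤ N) (hT0 : 0 < T)
    (hT : 2 * r * (N ^ 4 + N ^ 8) ≤ T) : CovForm.IsPosContr (C.ipV (r := r)) (C.covX d T) := by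
  refine ⟨fun u v => ?_, fun v => ?_, fun v => ?_⟩
  · rw [C.isSemi_ipV.symm, C.ipV_covX hd, C.ipV_covX hd, mul_comm (C.constrL d v)]
  · rw [C.ipV_covX hd]
    exact mul_nonneg (by positivity) (C.cov_ig_nonneg fun y => mul_self_nonneg _)
  · rw [C.ipV_covX hd, inv_mul_le_iff₀ hT0]
    exact (C.constrL_bound hd hN v).trans (mul_le_mul_of_nonneg_right hT (C.isSemi_ipV.nonneg v))

lemma act_covX (hd : d.Ok N) : actV d * C.covX d T = C.covX d T :=
  LinearMap.ext fun u => by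
    simp only [covX, Module.End.mul_apply, LinearMap.smul_apply, LinearMap.comp_apply, map_smul,
      C.act_adjL hd]

lemma covX_act (hd : d.Ok N) : C.covX d T * actV d = C.covX d T :=
  LinearMap.ext fun u => by
    simp only [covX, Module.End.mul_apply, LinearMap.smul_apply, LinearMap.comp_apply,
      C.constrL_act hd]

lemma commute_act_covY (hd : d.Ok N) : Commute (actV d) (C.covY d T n) :=
  ((Commute.one_right _).sub_right (by
    show actV d * C.covX d T = C.covX d T * actV d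
    rw [C.act_covX hd, C.covX_act hd])).pow_right n

lemma covY_sq : C.covY d T n * C.covY d T n = (1 - C.covX d T) ^ (2 * n) := by
  rw [covY, ← pow_add, two_mul]

lemma covY_symm (hd : d.Ok N) (hN : 0 ≤ N) (hT0 : 0 < T) (hT : 2 * r * (N ^ 4 + N ^ 8) ≤ T)
    (u v : Fin r → C(X, ℝ)) : C.ipV (C.covY d T n u) v = C.ipV u (C.covY d T n v) :=
  CovForm.symm_pow (C.isPosContr_covX hd hN hT0 hT).compl.symm n u v

lemma good_covX : C.Good (C.covX d T) := by
  refine Good.smul C (fun a b => ?_) _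
  have e : entry (C.adjL d ∘ₗ C.constrL d) a b = C.rowL d a * C.colL d b :=
    LinearMap.ext fun f => by simp [entry, adjL, constrL, Pi.single_apply, apply_ite]
  rw [e]; exact C.alg.mul_mem (C.rowL_mem a) (C.colL_mem b)

lemma good_covY : C.Good (C.covY d T n) := (C.good_one.sub C C.good_covX).pow C n

lemma good_rootSeq {A : Module.End ℝ (Fin r → C(X, ℝ))} (hA : C.Good A) :
    ∀ k, C.Good (CovForm.rootSeq A k)
  | 0 => fun a b => by simp [CovForm.rootSeq, entry]
  | k + 1 => (hA.add C ((good_rootSeq hA k).mul C (good_rootSeq hA k))).smul C _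

lemma ipV_sum_eq (hd : d.Ok N) (hN : 0 ≤ N) (hT0 : 0 < T) (hT : 2 * r * (N ^ 4 + N ^ 8) ≤ T)
    (π : DiscreteQuotient X) (Q : Module.End ℝ (Fin r → C(X, ℝ))) :
    ∑ c, ∑ i : π, C.ipV ((C.covY d T n * actV d) (unitVec π c i))
        (Q ((C.covY d T n * actV d) (unitVec π c i))) =
      C.diagV π (actV d * (C.covY d T n * Q * C.covY d T n) * actV d) := by
  rw [diagV_eq]
  refine Finset.sum_congr rfl fun c _ => Finset.sum_congr rfl fun i _ => ?_
  simp only [unitVec_eq, Module.End.mul_apply]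
  rw [C.covY_symm hd hN hT0 hT]
  simp only [ipV_apply, actV, blockV_apply, mulOp_apply]
  exact Finset.sum_congr rfl fun b _ => by congr 1; ring

/-- The limit of the diagonal of the loss. -/
lemma tendsto_diagV_lossV (hd : d.Ok N) :
    Tendsto (fun π => C.diagV π (C.lossV d)) atBot
      (𝓝 (∑ c, C.ig (d.μ c ^ 2 * d.act c * C.Er (d.G c) * C.Er (d.W c)))) := by
  have h0 := tendsto_finsetSum (Finset.univ : Finset (Fin r)) fun c _ =>
    C.tendsto_diag (C.r (d.μ c) * d.G c * C.r (d.μ c)) (d.W c)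
  have e0 : ∀ c, C.tr (C.ι (C.E (C.r (d.μ c) * d.G c * C.r (d.μ c)) * C.E (d.W c))) =
      C.ig (d.μ c ^ 2 * d.act c * C.Er (d.G c) * C.Er (d.W c)) := by
    intro c
    have real : ∀ a : M, IsSelfAdjoint a → C.E a = toC (C.Er a) := fun a ha => by
      have h1 : star (C.E a) = C.E a := by rw [← C.E_star, ha.star_eq]
      ext t
      have h2 := congrArg (fun f : C(X, ℂ) => f t) h1
      simp only [ContinuousMap.star_apply, Complex.star_def] at h2
      exact (Complex.conj_eq_iff_re.1 h2).symm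
    rw [sq, mul_assoc (d.μ c) (d.μ c) (d.act c), hd.μ_act]
    simp only [Core.ig, Core.r]
    rw [C.E_bimod, real _ (IsSelfAdjoint.of_nonneg (hd.G_nonneg c)),
      real _ (IsSelfAdjoint.of_nonneg (hd.W_nonneg c))]
    congr 2
    ext t
    simp only [ContinuousMap.mul_apply, toC, ContinuousMap.coe_mk]
    push_cast
    ring
  simp only [e0] at h0
  refine h0.congr fun π => ?_
  rw [diagV_eq]
  refine Finset.sum_congr rfl fun c _ => Finset.sum_congr rfl fun i _ => ?_
  rw [C.ipV_lossV hd, Finset.sum_eq_single c, Pi.single_eq_same, lossB, e]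
  · rw [cov_r_mul]
    congr 1
    have hc : C.r (d.μ c) * C.r (cellFn π i) = C.r (cellFn π i) * C.r (d.μ c) := by
      rw [← cov_r_mul, ← cov_r_mul, mul_comm]
    conv_rhs => arg 1; arg 1; arg 1; rw [hc]
    simp only [mul_assoc]
  · intro b _ hb
    rw [Pi.single_eq_of_ne hb, lossB, mul_zero]
    simp [Core.r, tr, toC]
    rw [show (⟨fun _ => (0 : ℂ), continuous_const⟩ : C(X, ℂ)) = 0 from rfl, map_zero]
    simp
  · simp

/-- The loss after projection. -/
lemma eventually_loss (hd : d.Ok N) (hN : 0 ≤ N) (hT0 : 0 < T) (hT : 2 * r * (N ^ 4 + N ^ 8) ≤ T)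
    {ε : ℝ} (hε : 0 < ε) : ∀ᶠ π : DiscreteQuotient X in atBot,
      ∑ c, ∑ i : π, ∑ c', C.lossB d c' ((C.covY d T n * actV d) (unitVec π c i) c') ≤
        (∑ c, C.ig (d.μ c ^ 2 * d.act c * C.Er (d.G c) * C.Er (d.W c))) + ε := by
  set A := actV d
  set B := C.lossV d
  set y := C.covY d T n with hy
  obtain ⟨k, hk⟩ := CovForm.exists_small_step (δ := ε / (24 * (N ^ 4 * r + 1))) (by positivity)
  set Rt := 1 - CovForm.rootSeq (y * y) k with hRt
  set D := CovForm.rootSeq (y * y) (k + 1) - CovForm.rootSeq (y * y) k with hD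
  have gy : C.Good y := C.good_covY
  have gR : C.Good Rt := C.good_one.sub C (C.good_rootSeq (gy.mul C gy) k)
  have l1 := (C.tendsto_diagV_lossV hd).eventually
    (Iio_mem_nhds (lt_add_of_pos_right _ (show 0 < ε / 4 by positivity)))
  have l2 := (C.tendsto_diagV_comm gy (C.good_lossV (d := d) |>.mul C gy)).eventually
    (Iio_mem_nhds (show 0 < ε / 4 by positivity))
  have l3 := (C.tendsto_diagV_comm gR (C.good_lossV (d := d) |>.mul C gR)).eventually
    (Iio_mem_nhds (show 0 < ε / 4 by positivity))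
  filter_upwards [l1, l2, l3] with π h1 h2 h3
  have hys := C.covY_symm (n := n) hd hN hT0 hT
  have hyy : ∀ u v, C.ipV ((y * y) u) v = C.ipV u ((y * y) v) := fun u v => by
    simp only [hy, Module.End.mul_apply]
    rw [hys, hys]
  have nrmy : ∀ v, CovForm.nrm C.ipV ((y * y) v) ≤ CovForm.nrm C.ipV v := fun v => by
    rw [hy, covY_sq]
    exact (C.isPosContr_covX hd hN hT0 hT).compl.nrm_pow_le C.isSemi_ipV _ v
  have e1 : ∑ c, ∑ i : π, ∑ c', C.lossB d c' ((y * A) (unitVec π c i) c') =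
      C.diagV π (y * (B * y)) := by
    simp only [← C.ipV_lossV hd]
    rw [C.ipV_sum_eq hd hN hT0 hT π B]
    congr 1
    calc A * (y * B * y) * A = (A * y) * B * (y * A) := by simp only [mul_assoc]
      _ = (y * A) * B * (A * y) := by rw [(C.commute_act_covY hd).eq]
      _ = y * ((A * B) * A) * y := by simp only [mul_assoc]
      _ = y * (B * y) := by rw [C.act_lossV hd, C.lossV_act hd, mul_assoc]
  have e2 : C.diagV π (B * y * y) = C.diagV π B - C.diagV π (B * Rt * Rt) +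
      2 * C.diagV π (B * D) := by
    have : B * y * y = B - B * Rt * Rt + (2 : ℝ) • (B * D) := by
      rw [mul_assoc B Rt Rt, hRt, CovForm.rootSeq_square, mul_add, mul_smul_comm, mul_sub,
        mul_one, mul_assoc]
      simp only [hD]
      abel
    rw [this, map_add, map_sub, map_smul, smul_eq_mul]
  have e3 : 0 ≤ C.diagV π (Rt * (B * Rt)) := by
    rw [diagV_eq]
    refine Finset.sum_nonneg fun a _ => Finset.sum_nonneg fun i _ => ?_
    have hRs : ∀ u v, C.ipV (Rt u) v = C.ipV u (Rt v) := fun u v => by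
      have := CovForm.rootSeq_symm hyy k u v
      simp only [hRt, LinearMap.sub_apply, Module.End.one_apply, map_sub, this]
    rw [Module.End.mul_apply, Module.End.mul_apply, ← hRs, C.ipV_lossV hd]
    exact Finset.sum_nonneg fun c _ => C.lossB_nonneg hd c _
  set δ := ε / (24 * (N ^ 4 * r + 1)) with hδ
  have e4 : C.diagV π (B * D) ≤ 2 * N ^ 4 * δ * r := by
    rw [← C.diagV_one (r := r) π, diagV_eq, diagV_eq, Finset.mul_sum]
    refine Finset.sum_le_sum fun a _ => ?_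
    rw [Finset.mul_sum]
    refine Finset.sum_le_sum fun i _ => ?_
    set v := (Pi.single a (cellFn π i) : Fin r → C(X, ℝ))
    rw [Module.End.mul_apply, ← C.lossV_symm hd, Module.End.one_apply,
      ← CovForm.nrm_sq C.isSemi_ipV v]
    refine ((le_abs_self _).trans (CovForm.abs_le_nrm C.isSemi_ipV _ _)).trans ?_
    refine (mul_le_mul (C.lossV_bound hd hN v) ((CovForm.nrm_step_le C.isSemi_ipV nrmy k v).trans
      (mul_le_mul_of_nonneg_right hk.le (CovForm.nrm_nonneg v))) (CovForm.nrm_nonneg _)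
      (mul_nonneg (by positivity) (CovForm.nrm_nonneg v))).trans (le_of_eq ?_)
    ring
  have e5 : 2 * N ^ 4 * δ * r ≤ ε / 12 := by
    rw [hδ, ← mul_div_assoc, div_mul_eq_mul_div, div_le_iff₀ (by positivity)]
    nlinarith
  rw [e1]
  linarith

/-- The rank of the projected part. -/
lemma eventually_rank (hd : d.Ok N) (hN : 0 ≤ N) (hT0 : 0 < T) (hT : 2 * r * (N ^ 4 + N ^ 8) ≤ T)
    {ε : ℝ} (hε : 0 < ε) : ∀ᶠ π : DiscreteQuotient X in atBot,
      (∑ c, C.ig (d.act c)) - C.ig d.U - ε ≤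
        ∑ c, ∑ i : π, ∑ c', C.ig ((C.covY d T n * actV d) (unitVec π c i) c' ^ 2) := by
  set z' := 1 - C.covX' d T with hz'
  set S := ∑ i ∈ Finset.range (2 * n), z' ^ i with hS
  set Q := (T⁻¹ • S) ∘ₗ C.constrL d with hQ
  have inter : ∀ (i : ℕ) f, ((1 - C.covX d T) ^ i) (C.adjL d f) = C.adjL d ((z' ^ i) f) := by
    intro i
    induction i with
    | zero => intro f; rfl
    | succ i ih =>
      intro f
      rw [pow_succ, pow_succ, Module.End.mul_apply, Module.End.mul_apply,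
        show (1 - C.covX d T) (C.adjL d f) = C.adjL d (z' f) by simp [hz', covX, covX'], ih]
  have eh : 1 - C.covY d T n * C.covY d T n = C.adjL d ∘ₗ Q := by
    rw [covY_sq, ← geom_sum_mul_neg, sub_sub_cancel]
    refine LinearMap.ext fun u => ?_
    conv_lhs => rw [Module.End.mul_apply, covX, LinearMap.smul_apply, LinearMap.comp_apply,
      map_smul, LinearMap.coe_sum, Finset.sum_apply]
    rw [hQ, LinearMap.comp_apply, LinearMap.comp_apply, LinearMap.smul_apply, map_smul, hS,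
      LinearMap.coe_sum, Finset.sum_apply, map_sum]
    congr 1
    exact Finset.sum_congr rfl fun i _ => inter i _
  have hx'mem : C.covX' d T ∈ C.alg := by
    have : C.constrL d ∘ₗ C.adjL d = ∑ c, C.colL d c * C.rowL d c := LinearMap.ext fun f => by
      simp [constrL, adjL]
    rw [covX', this]
    exact C.alg.smul_mem (C.alg.sum_mem fun c _ => C.alg.mul_mem (C.colL_mem c) (C.rowL_mem c)) _
  have hYmem : T⁻¹ • S ∈ C.alg := C.alg.smul_mem (C.alg.sum_mem fun i _ =>
    C.alg.pow_mem (C.alg.sub_mem C.alg.one_mem hx'mem) i) _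
  have l4 := (C.tendsto_diagV_rect (C.adjL d) Q (fun c => by
    simpa [adjL, LinearMap.proj_pi] using C.rowL_mem c) (fun c => by
    have : Q ∘ₗ LinearMap.single ℝ (fun _ : Fin r => C(X, ℝ)) c = (T⁻¹ • S) * C.colL d c :=
      LinearMap.ext fun f => by simp [hQ, constrL, Pi.single_apply, apply_ite]
    rw [this]; exact C.alg.mul_mem hYmem (C.colL_mem c))).eventually (Iio_mem_nhds hε)
  filter_upwards [l4] with π h4
  set A := actV d
  set h := 1 - C.covY d T n * C.covY d T n with hh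
  have ehA : A * h * A = h := by
    have h1 : A * h = h := by
      rw [hh, covY_sq, ← mul_neg_geom_sum, sub_sub_cancel, ← mul_assoc, C.act_covX hd]
    rw [h1, hh, covY_sq, ← geom_sum_mul_neg, sub_sub_cancel, mul_assoc, C.covX_act hd]
  have e1 : ∑ c, ∑ i : π, ∑ c', C.ig ((C.covY d T n * A) (unitVec π c i) c' ^ 2) =
      C.diagV π A - C.diagV π h := by
    have : A * (C.covY d T n * 1 * C.covY d T n) * A = A - h := by
      rw [mul_one, show C.covY d T n * C.covY d T n = 1 - h by rw [hh, sub_sub_cancel], mul_sub,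
        sub_mul, mul_one, actV_sq hd, ehA]
    rw [← map_sub, ← this, ← C.ipV_sum_eq hd hN hT0 hT π 1]
    simp [sq, A]
  have e2 : C.diagV π A = ∑ c, C.ig (d.act c) := by
    rw [diagV_eq]
    refine Finset.sum_congr rfl fun a _ => ?_
    have : ∀ i : π, C.ipV (Pi.single a (cellFn π i)) (A (Pi.single a (cellFn π i))) =
        C.igL (cellFn π i * d.act a) := fun i => by
      rw [ipV_apply, Finset.sum_eq_single a]
      · simp only [A, actV, blockV_apply, Pi.single_eq_same, mulOp_apply, igL_apply]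
        rw [mul_comm (d.act a), ← mul_assoc, cov_cellFn_sq]
      · intro b _ hb
        rw [Pi.single_eq_of_ne hb, zero_mul, ← igL_apply, map_zero]
      · simp
    rw [Finset.sum_congr rfl fun i _ => this i, ← map_sum, ← Finset.sum_mul, cov_sum_cellFn,
      one_mul, igL_apply]
  have hx's : ∀ f g, C.ig (C.covX' d T f * g) = C.ig (f * C.covX' d T g) := fun f g => by
    simp only [covX', LinearMap.smul_apply, LinearMap.comp_apply, smul_mul_assoc, mul_smul_comm,
      ← igL_apply, map_smul]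
    congr 1
    rw [igL_apply, igL_apply, C.adjoint_constrL hd, mul_comm f (C.constrL d _),
      C.adjoint_constrL hd, C.isSemi_ipV.symm]
  have eH2 : Q ∘ₗ C.adjL d = 1 - z' ^ (2 * n) := by
    rw [← geom_sum_mul_neg z', hz', sub_sub_cancel, hQ]
    exact LinearMap.ext fun f => by simp [covX', hS, hz']
  have e3 : C.diag π (Q ∘ₗ C.adjL d) ≤ C.ig d.U := by
    have hz's : ∀ f g, C.ig ((z' ^ n) f * g) = C.ig (f * (z' ^ n) g) := fun f g =>
      CovForm.symm_pow (ip := (LinearMap.mul ℝ C(X, ℝ)).compr₂ C.igL) (fun u v => by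
        simp [hz']
        rw [← C.igL_apply (u * (v - _)), mul_sub, map_sub, igL_apply, igL_apply, hx's u v]) n f g
    rw [diag_apply]
    have hsum : C.ig d.U = ∑ i : π, C.ig (d.U * cellFn π i) := by
      simp only [← igL_apply, ← map_sum, ← Finset.mul_sum, cov_sum_cellFn, mul_one]
    rw [hsum]
    refine Finset.sum_le_sum fun i _ => ?_
    set f := cellFn π i
    have k1 : (Q ∘ₗ C.adjL d) (d.U * f) = (Q ∘ₗ C.adjL d) f := by
      rw [LinearMap.comp_apply, C.adjL_U_mul hd]; rfl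
    have k2 : d.U * (Q ∘ₗ C.adjL d) f = (Q ∘ₗ C.adjL d) f := by
      rw [eH2, ← mul_neg_geom_sum z', hz', sub_sub_cancel, Module.End.mul_apply, covX',
        LinearMap.smul_apply, LinearMap.comp_apply, mul_smul_comm, C.U_mul_constrL hd]
    rw [show f * (Q ∘ₗ C.adjL d) f = (d.U * f) * (Q ∘ₗ C.adjL d) (d.U * f) by
      rw [k1, mul_assoc, mul_left_comm, k2]]
    rw [eH2, LinearMap.sub_apply, Module.End.one_apply, mul_sub, ← igL_apply, map_sub,
      igL_apply, igL_apply, two_mul n, pow_add, Module.End.mul_apply, ← hz's]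
    have h0 := C.cov_ig_nonneg (f := (z' ^ n) (d.U * f) * (z' ^ n) (d.U * f))
      fun t => mul_self_nonneg _
    have : d.U * f * (d.U * f) = d.U * f := by
      rw [mul_mul_mul_comm, cov_cellFn_sq]
      congr 1
      ext t; rcases hd.U_01 t with h | h <;> simp [h]
    rw [this]
    linarith
  rw [e1, e2]
  rw [← eh] at h4
  linarith

/-- The residual of the constraint. -/
lemma residual_le (hd : d.Ok N) (hN : 0 ≤ N) (hT0 : 0 < T) (hT : 2 * r * (N ^ 4 + N ^ 8) ≤ T)
    (π : DiscreteQuotient X) :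
    ∑ c, ∑ i : π, C.ig (C.constr d ((C.covY d T n * actV d) (unitVec π c i)) ^ 2) ≤
      T / (n + 1) * r := by
  rw [← C.diagV_one (r := r) π, diagV_eq, Finset.mul_sum]
  refine Finset.sum_le_sum fun c _ => ?_
  rw [Finset.mul_sum]
  refine Finset.sum_le_sum fun i _ => ?_
  set v := actV d (unitVec π c i) with hv
  have h5 := (C.isPosContr_covX hd hN hT0 hT).small C.isSemi_ipV n v
  rw [C.ipV_covX hd] at h5
  have h6 : C.ipV v v ≤ C.ipV (Pi.single c (cellFn π i)) (Pi.single c (cellFn π i)) := by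
    simp only [hv, ← unitVec_eq, ipV_apply, actV, blockV_apply, mulOp_apply]
    refine Finset.sum_le_sum fun b _ => C.cov_ig_mono fun t => ?_
    simp only [ContinuousMap.mul_apply]
    rcases hd.act_01 b t with h | h
    · rw [h, zero_mul, zero_mul]; exact mul_self_nonneg _
    · rw [h, one_mul]
  rw [sq, ← constrL_apply, Module.End.one_apply,
    show (C.covY d T n * actV d) (unitVec π c i) = C.covY d T n v from rfl]
  rw [div_mul_eq_mul_div, le_div_iff₀ (by positivity)]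
  have h7 := mul_le_mul_of_nonneg_left (h5.trans h6) hT0.le
  rw [← mul_assoc T, mul_comm T ((n : ℝ) + 1), mul_assoc, ← mul_assoc T,
    mul_inv_cancel₀ hT0.ne', one_mul, mul_comm ((n : ℝ) + 1)] at h7
  exact h7

/-- The supremum norm of the projection. -/
lemma covY_act_norm (hd : d.Ok N) (hN : 0 ≤ N) (hT0 : 0 < T) (u : Fin r → C(X, ℝ)) :
    ‖(C.covY d T n * actV d) u‖ ≤
      (1 + T⁻¹ * (r * (N ^ 2 + ‖C.E‖ * N ^ 4) ^ 2)) ^ n * ‖u‖ := by
  set cS := T⁻¹ * (r * (N ^ 2 + ‖C.E‖ * N ^ 4) ^ 2) with hcS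
  have hcS0 : 0 ≤ cS := by positivity
  have hx1 : ∀ v, ‖(1 - C.covX d T) v‖ ≤ (1 + cS) * ‖v‖ := fun v => by
    refine (norm_sub_le v (C.covX d T v)).trans ?_
    rw [covX, LinearMap.smul_apply, norm_smul, Real.norm_of_nonneg (by positivity), add_mul,
      one_mul, hcS, mul_assoc]
    exact add_le_add le_rfl (mul_le_mul_of_nonneg_left (C.adjL_constrL_norm hd hN v)
      (by positivity))
  have hA1 : ‖actV d u‖ ≤ ‖u‖ := (pi_norm_le_iff_of_nonneg (norm_nonneg u)).2 fun c => by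
    refine ((norm_mul_le _ _).trans (mul_le_of_le_one_left (norm_nonneg _) ?_)).trans
      (norm_le_pi_norm u c)
    refine (ContinuousMap.norm_le _ zero_le_one).2 fun t => ?_
    rcases hd.act_01 c t with h | h <;> simp [h]
  have hy1 : ∀ (j : ℕ) v, ‖((1 - C.covX d T) ^ j) v‖ ≤ (1 + cS) ^ j * ‖v‖ := by
    intro j
    induction j with
    | zero => simp
    | succ j ih =>
      intro v
      rw [pow_succ', Module.End.mul_apply, pow_succ', mul_assoc]
      exact (hx1 _).trans (mul_le_mul_of_nonneg_left (ih v) (by positivity))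
  exact (hy1 n (actV d u)).trans (mul_le_mul_of_nonneg_left hA1 (by positivity))

end Aux

theorem exists_cov (r : ℕ) (ε N : ℝ) (hε : 0 < ε) :
    ∃ Cst : ℝ, 0 ≤ Cst ∧ ∀ d : StepData M X r, d.Ok N →
      ∃ P : (Fin r → C(X, ℝ)) →ₗ[ℝ] (Fin r → C(X, ℝ)),
        (∀ u c, d.act c * P u c = P u c) ∧
        (∀ u, ‖P u‖ ≤ Cst * ‖u‖) ∧
        ∃ π₀ : DiscreteQuotient X, ∀ π ≤ π₀,
          (∑ c, ∑ i : π, ∑ c', C.lossB d c' (P (unitVec π c i) c'))
              ≤ (∑ c, C.ig (d.μ c ^ 2 * d.act c * C.Er (d.G c) * C.Er (d.W c))) + ε ∧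
          (∑ c, C.ig (d.act c)) - C.ig d.U - ε
              ≤ (∑ c, ∑ i : π, ∑ c', C.ig (P (unitVec π c i) c' ^ 2)) ∧
          (∑ c, ∑ i : π, C.ig (C.constr d (P (unitVec π c i)) ^ 2)) ≤ ε := by
  rcases Nat.eq_zero_or_pos r with hr0 | hr0
  · subst hr0
    refine ⟨0, le_rfl, fun d hd => ⟨0, fun u c => c.elim0, fun u => ?_, ⊤, fun π _ => ?_⟩⟩
    · simp
    · refine ⟨?_, ?_, ?_⟩ <;> simp only [Finset.univ_eq_empty, Finset.sum_empty, zero_add,
        zero_sub, hε.le]
      have : 0 ≤ C.ig d.U := C.cov_ig_nonneg fun x => by rcases hd.U_01 x with h | h <;> simp [h]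
      linarith
  set M₀ := max N 0
  have hM₀ : 0 ≤ M₀ := le_max_right _ _
  set T : ℝ := 2 * r * (M₀ ^ 4 + M₀ ^ 8) + 1 with hT
  have hT0 : 0 < T := by positivity
  have hT1 : 2 * r * (M₀ ^ 4 + M₀ ^ 8) ≤ T := by linarith
  obtain ⟨n, hn⟩ := exists_nat_gt (T * r / ε)
  rw [div_lt_iff₀ hε] at hn
  refine ⟨(1 + T⁻¹ * (r * (M₀ ^ 2 + ‖C.E‖ * M₀ ^ 4) ^ 2)) ^ n, by positivity, fun d hd₀ => ?_⟩
  have hb : ∀ c, ‖d.μ c‖ ≤ M₀ ∧ ‖d.m c‖ ≤ M₀ ∧ ‖d.n c‖ ≤ M₀ ∧ ‖d.G c‖ ≤ M₀ ∧ ‖d.W c‖ ≤ M₀ := by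
    intro c
    obtain ⟨h1, h2, h3, h4, h5⟩ := hd₀.bdd c
    exact ⟨h1.trans (le_max_left _ _), h2.trans (le_max_left _ _), h3.trans (le_max_left _ _),
      h4.trans (le_max_left _ _), h5.trans (le_max_left _ _)⟩
  have hd : d.Ok M₀ := { hd₀ with bdd := hb }
  obtain ⟨π₀, hπ₀⟩ := eventually_atBot.1
    ((C.eventually_loss (n := n) hd hM₀ hT0 hT1 hε).and (C.eventually_rank (n := n) hd hM₀ hT0 hT1 hε))
  refine ⟨C.covY d T n * actV d, fun u c => ?_, C.covY_act_norm hd hM₀ hT0, π₀, fun π hπ =>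
    ⟨(hπ₀ π hπ).1, (hπ₀ π hπ).2, (C.residual_le hd hM₀ hT0 hT1 π).trans ?_⟩⟩
  · have e : actV d * (C.covY d T n * actV d) = C.covY d T n * actV d := by
      rw [← mul_assoc, (C.commute_act_covY hd).eq, mul_assoc, actV_sq hd]
    exact congrFun (LinearMap.congr_fun e u) c
  · rw [div_mul_eq_mul_div, div_le_iff₀ (by positivity)]
    nlinarith

end Vale.Agent.P078.Tracial.Core
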