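import Vale.Agent.P078.Tracial.DiagSymm

/-!
The diagonal of compositions of the maps `f ↦ E (a f star a)` is tracial: `tendsto_diag`,
`tendsto_joint` (in DiagA), `word_approx` (in DiagDev), `tendsto_symm` (in DiagSymm) and
`word_cyclic` below.
-/

namespace Vale.Agent.P078.Tracial.Core

set_option linter.unusedSectionVars false

open Filter Topology ComplexOrder

variable {M X : Type*} [CStarAlgebra M] [PartialOrder M] [StarOrderedRing M]
variable [TopologicalSpace X] [CompactSpace X] [T2Space X] [TotallyDisconnectedSpace X]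
variable (C : Core M X)

lemma Kword_append (v w : List M) (f : C(X, ℝ)) :
    C.Kword (v ++ w) f = C.Kword v (C.Kword w f) := by
  induction v with
  | nil => rfl
  | cons a v ih => simp [Kword, ih]

lemma ig_Kword_adjoint (w : List M) (f g : C(X, ℝ)) :
    C.ig (f * C.Kword w g) = C.ig (C.Kword (w.reverse.map star) f * g) := by
  induction w generalizing f with
  | nil => rfl
  | cons a w ih =>
    rw [Kword, C.ig_K_adjoint, ih]
    simp [Kword_append, Kword]

lemma Er_pinch (π : DiscreteQuotient X) (z : M) : C.Er (C.pinch π z) = C.Er z := by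
  classical
  simp only [pinch, C.Er_sum, e, C.Er_bimod]
  calc ∑ k : π, cellFn π k * C.Er z * cellFn π k = ∑ k : π, cellFn π k * C.Er z :=
        Finset.sum_congr rfl fun k _ => by
          have h := cellFn_mul_cellFn π k k
          rw [if_pos rfl] at h
          rw [mul_right_comm, h]
    _ = C.Er z := by rw [← Finset.sum_mul, sum_cellFn, one_mul]

/-- Conjugation along a word with pinchings only between the letters. -/
noncomputable def chain (σ : DiscreteQuotient X) : List M → M → M
  | [], z => z
  | a :: w, z => a * C.pword (w.zip (List.replicate w.length σ)) z * star a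

lemma pword_rep_cons (σ : DiscreteQuotient X) (a : M) (w : List M) (z : M) :
    C.pword ((a :: w).zip (List.replicate (a :: w).length σ)) z =
      C.pinch σ (C.chain σ (a :: w) z) := by
  simp [List.replicate_succ, pword, chain]

lemma pword_rep_snoc (σ : DiscreteQuotient X) (w : List M) (b z : M) :
    C.pword ((w ++ [b]).zip (List.replicate (w ++ [b]).length σ)) z =
      C.pword (w.zip (List.replicate w.length σ)) (C.pinch σ (b * z * star b)) := by
  induction w with
  | nil => simp [pword]
  | cons a w ih =>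
    simp only [List.cons_append, List.length_cons, List.replicate_succ, List.zip_cons_cons, pword]
    rw [ih]

lemma chain_snoc (σ : DiscreteQuotient X) {w : List M} (hw : w ≠ []) (b z : M) :
    C.chain σ (w ++ [b]) z = C.chain σ w (C.pinch σ (b * z * star b)) := by
  cases w with
  | nil => exact absurd rfl hw
  | cons a w => simp only [List.cons_append, chain]; rw [pword_rep_snoc]

/-- A word and its reversed adjoint word are conjugations by the same finite family. -/
lemma exists_chain_family (σ : DiscreteQuotient X) : ∀ w : List M, w ≠ [] →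
    ∃ (n : ℕ) (u : Fin n → M), (∀ z, C.chain σ w z = ∑ k, u k * z * star (u k)) ∧
      ∀ z, C.chain σ (w.reverse.map star) z = ∑ k, star (u k) * z * u k
  | [], h => absurd rfl h
  | [a], _ => ⟨1, fun _ => a, fun z => by simp [chain, pword], fun z => by simp [chain, pword]⟩
  | a :: b :: w, _ => by
    obtain ⟨n, u, h1, h2⟩ := exists_chain_family σ (b :: w) (List.cons_ne_nil b w)
    let eqv := (Fintype.equivFin (σ × Fin n)).symm
    refine ⟨_, fun m => a * C.e σ (eqv m).1 * u (eqv m).2, fun z => ?_, fun z => ?_⟩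
    · rw [eqv.sum_comp (fun p => a * C.e σ p.1 * u p.2 * z * star (a * C.e σ p.1 * u p.2)),
        Fintype.sum_prod_type]
      show a * C.pword ((b :: w).zip (List.replicate (b :: w).length σ)) z * star a = _
      rw [pword_rep_cons, h1]
      simp only [pinch, Finset.mul_sum, Finset.sum_mul]
      refine Finset.sum_congr rfl fun j _ => Finset.sum_congr rfl fun k _ => ?_
      simp only [star_mul, (C.e_isSelfAdjoint σ j).star_eq, mul_assoc]
    · rw [eqv.sum_comp (fun p => star (a * C.e σ p.1 * u p.2) * z * (a * C.e σ p.1 * u p.2)),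
        Fintype.sum_prod_type, List.reverse_cons, List.map_append, List.map_cons, List.map_nil,
        C.chain_snoc σ (by simp), star_star, h2, Finset.sum_comm]
      simp only [pinch, Finset.mul_sum, Finset.sum_mul]
      refine Finset.sum_congr rfl fun k _ => Finset.sum_congr rfl fun j _ => ?_
      simp only [star_mul, (C.e_isSelfAdjoint σ j).star_eq, mul_assoc]

lemma abs_sum_ig_mul_le {α : Type*} [Fintype α] (f g : α → C(X, ℝ)) :
    |∑ i, C.ig (f i * g i)| ≤
      Real.sqrt (∑ i, C.ig (f i ^ 2)) * Real.sqrt (∑ i, C.ig (g i ^ 2)) := by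
  have hn : ∀ f : C(X, ℝ), C.ig (f ^ 2) = C.n2sq (C.r f) := fun f => by
    rw [ig, n2sq, C.star_r, ← C.r_mul, sq]
  simp only [hn]
  refine (Finset.abs_sum_le_sum_abs _ _).trans ((Finset.sum_le_sum fun i _ => ?_).trans
    (Real.sum_sqrt_mul_sqrt_le _ (fun i => C.n2sq_nonneg' _) fun i => C.n2sq_nonneg' _))
  rw [ig, C.r_mul]
  exact C.abs_tr_mul_le _ _

lemma ig_Er_sub_sq_le {z : M} (hz : IsSelfAdjoint z) (f : C(X, ℝ)) :
    C.ig ((C.Er z - f) ^ 2) ≤ C.n2sq (z - C.r f) := by
  have h := C.n2sq_eE_le (z - C.r f)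
  rw [C.eE_of_selfAdjoint (hz.sub (C.r_isSelfAdjoint f)), C.Er_sub, C.Er_r, n2sq, C.star_r,
    ← C.r_mul, ← sq] at h
  exact h

/-- Pairing the word with a family of conjugations. -/
lemma word_pair_le (d : M) (w : List M) (σ π : DiscreteQuotient X) {n : ℕ} (u : Fin n → M)
    {η : ℝ} (hchain : ∀ z, C.pword (w.zip (List.replicate w.length σ)) z =
      C.pinch σ (∑ k, u k * z * star (u k)))
    (hη : ∑ i : π, C.n2sq (C.pword (w.zip (List.replicate w.length σ)) (C.e π i) -
      C.r (C.Kword w (cellFn π i))) ≤ η) :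
    |(∑ i : π, C.ig (C.K d (cellFn π i) * C.Kword w (cellFn π i))) -
        ∑ k, ∑ i : π, C.ig (C.K d (cellFn π i) * C.K (u k) (cellFn π i))| ≤
      ‖d‖ ^ 2 * Real.sqrt η := by
  set G : π → M := fun i => C.pword (w.zip (List.replicate w.length σ)) (C.e π i)
  have hG : ∀ i, C.Er (G i) = ∑ k, C.K (u k) (cellFn π i) := fun i => by
    simp only [G, hchain, C.Er_pinch, C.Er_sum, K, e]
  have e1 : (∑ i : π, C.ig (C.K d (cellFn π i) * C.Kword w (cellFn π i))) -
      ∑ k, ∑ i : π, C.ig (C.K d (cellFn π i) * C.K (u k) (cellFn π i)) =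
      -∑ i : π, C.ig (C.K d (cellFn π i) * (C.Er (G i) - C.Kword w (cellFn π i))) := by
    rw [Finset.sum_comm]
    simp only [hG, mul_sub, Finset.mul_sum, C.ig_sub, C.ig_sum, Finset.sum_sub_distrib]
    ring
  rw [e1, abs_neg]
  refine (C.abs_sum_ig_mul_le _ _).trans (mul_le_mul ?_ (Real.sqrt_le_sqrt ?_) (Real.sqrt_nonneg _)
    (sq_nonneg _))
  · rw [Real.sqrt_le_left (sq_nonneg _)]
    exact (C.sum_ig_K_sq_le d π).trans_eq (by ring)
  · exact (Finset.sum_le_sum fun i _ =>
      C.ig_Er_sub_sq_le (C.pword_isSelfAdjoint _ (C.e_isSelfAdjoint π i)) _).trans hη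

lemma tendsto_word_single (d : M) (w : List M) :
    Tendsto (fun π : DiscreteQuotient X => ∑ i : π,
      (C.ig (cellFn π i * C.Kword (d :: w) (cellFn π i))
        - C.ig (cellFn π i * C.Kword (w ++ [d]) (cellFn π i))))
      atBot (𝓝 0) := by
  rcases eq_or_ne w [] with rfl | hw
  · simp
  set w' := w.reverse.map star with hw'
  have e : ∀ (π : DiscreteQuotient X) (i : π),
      C.ig (cellFn π i * C.Kword (d :: w) (cellFn π i))
        - C.ig (cellFn π i * C.Kword (w ++ [d]) (cellFn π i)) =
      C.ig (C.K (star d) (cellFn π i) * C.Kword w (cellFn π i))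
        - C.ig (C.K d (cellFn π i) * C.Kword w' (cellFn π i)) := fun π i => by
    rw [Kword, C.ig_K_adjoint, C.Kword_append, Kword, Kword,
      C.ig_Kword_adjoint w (cellFn π i), ← hw',
      mul_comm (C.Kword w' (cellFn π i))]
  simp only [e]
  refine Metric.tendsto_nhds.2 fun ε hε => ?_
  set η := (ε / (4 * (‖d‖ ^ 2 + 1))) ^ 2 with hη
  have hη0 : 0 < η := by positivity
  have hs : ‖d‖ ^ 2 * Real.sqrt η ≤ ε / 4 := by
    rw [hη, Real.sqrt_sq (by positivity), mul_div_assoc', div_le_div_iff₀ (by positivity)
      (by norm_num : (0 : ℝ) < 4)]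
    nlinarith
  obtain ⟨ρ₁, h₁⟩ := C.word_approx w η hη0
  obtain ⟨ρ₂, h₂⟩ := C.word_approx w' η hη0
  set σ := ρ₁ ⊓ ρ₂
  obtain ⟨n, u, hu, hu'⟩ := C.exists_chain_family σ w hw
  have hlim : Tendsto (fun π : DiscreteQuotient X => ∑ k, ∑ i : π,
      (C.ig (C.K (star d) (cellFn π i) * C.K (u k) (cellFn π i))
        - C.ig (C.K (star (u k)) (cellFn π i) * C.K d (cellFn π i)))) atBot (𝓝 0) := by
    rw [show (0 : ℝ) = ∑ _k : Fin n, 0 by simp]
    exact tendsto_finsetSum _ fun k _ => C.tendsto_symm d (u k)
  filter_upwards [Metric.tendsto_nhds.1 hlim (ε / 4) (by positivity), eventually_le_atBot σ]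
    with π hπ hle
  have hc : ∀ z, C.pword (w.zip (List.replicate w.length σ)) z =
      C.pinch σ (∑ k, u k * z * star (u k)) := fun z => by
    rw [← hu]
    cases w with
    | nil => exact absurd rfl hw
    | cons a l => exact C.pword_rep_cons σ a l z
  have hc' : ∀ z, C.pword (w'.zip (List.replicate w'.length σ)) z =
      C.pinch σ (∑ k, star (u k) * z * star (star (u k))) := fun z => by
    simp only [star_star, ← hu', ← hw']
    cases h : w' with
    | nil => exact absurd (by simpa [hw'] using h) hw
    | cons a l => exact C.pword_rep_cons σ a l z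
  have p1 := C.word_pair_le (star d) w σ π u hc
    (h₁ _ List.length_replicate (fun r hr => (List.eq_of_mem_replicate hr).trans_le inf_le_left) π
      (hle.trans inf_le_left)).le
  have p2 := C.word_pair_le d w' σ π (fun k => star (u k)) hc'
    (h₂ _ List.length_replicate (fun r hr => (List.eq_of_mem_replicate hr).trans_le inf_le_right) π
      (hle.trans inf_le_right)).le
  rw [norm_star] at p1
  rw [Real.dist_eq, sub_zero] at hπ ⊢
  simp only [Finset.sum_sub_distrib] at hπ ⊢
  simp only [mul_comm (C.K (star (u _)) _)] at hπ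
  have a1 := abs_le.1 p1
  have a2 := abs_le.1 p2
  have a3 := abs_lt.1 hπ
  exact abs_lt.2 ⟨by linarith [a1.1, a2.2, a3.1], by linarith [a1.2, a2.1, a3.2]⟩

/-- The diagonal is invariant under rotations of words. -/
theorem word_cyclic (v w : List M) :
    Tendsto (fun π : DiscreteQuotient X => ∑ i : π,
      (C.ig (cellFn π i * C.Kword (v ++ w) (cellFn π i))
        - C.ig (cellFn π i * C.Kword (w ++ v) (cellFn π i))))
      atBot (𝓝 0) := by
  induction v generalizing w with
  | nil => simp
  | cons d v ih =>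
    have h := (C.tendsto_word_single d (v ++ w)).add (ih (w ++ [d]))
    rw [add_zero] at h
    refine h.congr fun π => ?_
    simp only [List.append_assoc, List.cons_append, List.nil_append, Finset.sum_sub_distrib]
    ring

end Vale.Agent.P078.Tracial.Core
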