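import Vale.Agent.P078.Tracial.Basic
import Vale.Agent.P078.Tracial.TraceFun

namespace Vale.Agent.P078.Tracial.Core

set_option linter.unusedSectionVars false

open Filter Topology ComplexOrder

variable {M X : Type*} [CStarAlgebra M] [PartialOrder M] [StarOrderedRing M]
variable [TopologicalSpace X] [CompactSpace X] [T2Space X] [TotallyDisconnectedSpace X]
variable (C : Core M X)

theorem ig_K_adjoint (a : M) (f g : C(X, ℝ)) :
    C.ig (f * C.K a g) = C.ig (C.K (star a) f * g) := by
  have h1 : IsSelfAdjoint (a * C.r g * star a) := (C.r_isSelfAdjoint g).conjugate a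
  have h2 : IsSelfAdjoint (star a * C.r f * star (star a)) := (C.r_isSelfAdjoint f).conjugate _
  rw [mul_comm (C.K (star a) f) g, K, K, ← C.tr_r_mul f h1, ← C.tr_r_mul g h2, star_star]
  rw [show C.r f * (a * C.r g * star a) = C.r f * a * (C.r g * star a) by simp only [mul_assoc],
    C.tr_comm]
  simp only [mul_assoc]

theorem sum_ig_K_sq_le (a : M) (π : DiscreteQuotient X) :
    ∑ i : π, C.ig (C.K a (cellFn π i) ^ 2) ≤ ‖a‖ ^ 4 := by
  have h0 : ∀ i, 0 ≤ C.K a (cellFn π i) := fun i => C.K_nonneg a (cellFn_nonneg π i)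
  have h1 : ∀ x, C.K a 1 x ≤ ‖a‖ ^ 2 := fun x => by
    refine (le_abs_self _).trans (((C.K a 1).norm_coe_le_norm x).trans ((C.norm_K_le a 1).trans ?_))
    refine mul_le_of_le_one_right (sq_nonneg _) ((ContinuousMap.norm_le _ zero_le_one).2 fun y => ?_)
    simp
  have hsum : ∑ i : π, C.K a (cellFn π i) = C.K a 1 := by
    rw [← sum_cellFn π]
    exact (map_sum (AddMonoidHom.mk' (C.K a) (C.K_add a)) (cellFn π) Finset.univ).symm
  calc ∑ i : π, C.ig (C.K a (cellFn π i) ^ 2)
      ≤ ∑ i : π, C.ig ((‖a‖ ^ 2) • C.K a (cellFn π i)) := by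
        refine Finset.sum_le_sum fun i _ => C.ig_mono (ContinuousMap.le_def.2 fun x => ?_)
        have hle : cellFn π i ≤ 1 := ContinuousMap.le_def.2 fun y => by
          rcases cellFn_zero_or_one π i y with h | h <;> simp [h]
        have h3 := ContinuousMap.le_def.1 (C.K_mono a hle) x
        have h4 := ContinuousMap.le_def.1 (h0 i) x
        simp only [ContinuousMap.zero_apply, ContinuousMap.pow_apply, ContinuousMap.smul_apply,
          smul_eq_mul] at h4 ⊢
        rw [sq]
        exact mul_le_mul_of_nonneg_right (h3.trans (h1 x)) h4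
    _ = ‖a‖ ^ 2 * C.ig (C.K a 1) := by
        simp only [C.ig_smul, ← Finset.mul_sum, ← C.ig_sum, hsum]
    _ ≤ ‖a‖ ^ 2 * ‖a‖ ^ 2 := mul_le_mul_of_nonneg_left (C.ig_le_of_le h1) (sq_nonneg _)
    _ = ‖a‖ ^ 4 := by ring

theorem tendsto_diag (a b : M) :
    Tendsto (fun π : DiscreteQuotient X => ∑ i : π, C.tr (C.e π i * a * C.e π i * b))
      atBot (𝓝 (C.tr (C.ι (C.E a * C.E b)))) := by
  have hlim : C.tr (C.ι (C.E a) * b) = C.tr (C.ι (C.E a * C.E b)) := by
    have h1 := C.E_bimod (C.E a) 1 b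
    rw [map_one, mul_one, mul_one] at h1
    rw [← C.tr_ι_E (C.ι (C.E a) * b), h1]
  have hsum : ∀ π : DiscreteQuotient X,
      ∑ i : π, C.tr (C.e π i * a * C.e π i * b) = C.tr (C.pinch π a * b) := fun π => by
    rw [pinch, Finset.sum_mul, C.tr_sum]
  simp only [hsum, ← hlim]
  rw [tendsto_iff_norm_sub_tendsto_zero]
  have hz : Tendsto (fun π : DiscreteQuotient X =>
      Real.sqrt (C.n2sq (C.pinch π a - C.ι (C.E a))) * Real.sqrt (C.n2sq b)) atBot (𝓝 0) := by
    have := ((Real.continuous_sqrt.tendsto 0).comp (C.pinch_tendsto a)).mul_const (Real.sqrt (C.n2sq b))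
    rw [Real.sqrt_zero, zero_mul] at this
    exact this
  refine squeeze_zero (fun π => norm_nonneg _) (fun π => ?_) hz
  rw [Real.norm_eq_abs, ← C.tr_sub, ← sub_mul]
  exact C.abs_tr_mul_le _ _

lemma e_mul_e_of_le {ρ' ρ : DiscreteQuotient X} (h : ρ' ≤ ρ) (k : ρ') (j : ρ)
    [Decidable (DiscreteQuotient.ofLE h k = j)] :
    C.e ρ' k * C.e ρ j = if DiscreteQuotient.ofLE h k = j then C.e ρ' k else 0 := by
  classical
  rw [e, e, ← r_mul]
  have : cellFn ρ' k * cellFn ρ j =
      if DiscreteQuotient.ofLE h k = j then cellFn ρ' k else 0 := by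
    ext x
    by_cases hk : ρ'.proj x = k
    · subst hk
      have hp := DiscreteQuotient.ofLE_proj h x
      by_cases hj : ρ.proj x = j <;> simp [cellFn_apply, hp, hj]
    · by_cases hj : DiscreteQuotient.ofLE h k = j <;> simp [cellFn_apply, hk, hj]
  rw [this]
  split_ifs
  · rfl
  · exact C.r_zero

lemma pinch_pinch {ρ' ρ : DiscreteQuotient X} (h : ρ' ≤ ρ) (z : M) :
    C.pinch ρ' (C.pinch ρ z) = C.pinch ρ' z := by
  classical
  simp only [pinch, Finset.mul_sum, Finset.sum_mul]
  refine Finset.sum_congr rfl fun k _ => ?_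
  rw [Finset.sum_eq_single (DiscreteQuotient.ofLE h k)]
  · rw [← mul_assoc, ← mul_assoc, C.e_mul_e_of_le h, if_pos rfl, mul_assoc, mul_assoc,
      show C.e ρ (DiscreteQuotient.ofLE h k) * C.e ρ' k = C.e ρ' k * C.e ρ (DiscreteQuotient.ofLE h k)
        from C.r_comm _ _, C.e_mul_e_of_le h, if_pos rfl, mul_assoc]
  · intro j _ hj
    rw [← mul_assoc, ← mul_assoc, C.e_mul_e_of_le h, if_neg (Ne.symm hj)]
    simp
  · simp

lemma tr_star_mul_pinch (π : DiscreteQuotient X) (w z : M) :
    C.tr (star w * C.pinch π z) = C.tr (star (C.pinch π w) * z) := by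
  simp only [pinch, Finset.mul_sum, star_sum, Finset.sum_mul, C.tr_sum]
  refine Finset.sum_congr rfl fun i _ => ?_
  rw [star_mul, star_mul, (C.e_isSelfAdjoint π i).star_eq,
    ← mul_assoc, C.tr_comm]
  simp only [mul_assoc]

lemma n2sq_pinch_add (π : DiscreteQuotient X) (z : M) :
    C.n2sq z = C.n2sq (C.pinch π z) + C.n2sq (z - C.pinch π z) := by
  have h1 : C.tr (star (C.pinch π z) * C.pinch π z) = C.tr (star (C.pinch π z) * z) := by
    rw [C.tr_star_mul_pinch π (C.pinch π z) z, C.pinch_pinch le_rfl]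
  have h2 := C.tr_star_mul_symm z (C.pinch π z)
  simp only [n2sq, star_sub, sub_mul, mul_sub, C.tr_sub]
  linarith

lemma n2sq_pinch_le (π : DiscreteQuotient X) (z : M) : C.n2sq (C.pinch π z) ≤ C.n2sq z := by
  linarith [C.n2sq_pinch_add π z, C.n2sq_nonneg' (z - C.pinch π z)]

/-- The square sum of the doubly pinched conjugates. -/
noncomputable def jointSum (a : M) (π ρ : DiscreteQuotient X) : ℝ :=
  ∑ i : π, C.n2sq (C.pinch ρ (a * C.e π i * star a))

lemma jointSum_anti (a : M) (π : DiscreteQuotient X) {ρ' ρ : DiscreteQuotient X} (h : ρ' ≤ ρ) :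
    C.jointSum a π ρ' ≤ C.jointSum a π ρ := by
  refine Finset.sum_le_sum fun i _ => ?_
  rw [← C.pinch_pinch h]
  exact C.n2sq_pinch_le _ _

lemma jointSum_swap (a : M) (π ρ : DiscreteQuotient X) :
    C.jointSum a π ρ = C.jointSum (star a) ρ π := by
  classical
  have e : ∀ (b : M) (π ρ : DiscreteQuotient X) (i : π),
      C.n2sq (C.pinch ρ (b * C.e π i * star b)) =
        ∑ j : ρ, C.tr (C.e π i * star b * C.e ρ j * b * C.e π i * star b * C.e ρ j * b) := by
    intro b π ρ i
    set z := b * C.e π i * star b with hz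
    have hzs : IsSelfAdjoint z := (C.e_isSelfAdjoint π i).conjugate b
    rw [n2sq, ← C.tr_star_mul_pinch ρ (C.pinch ρ z) z |>.trans (by rw [C.pinch_pinch le_rfl]) |>.symm,
      pinch, star_sum, Finset.sum_mul, C.tr_sum]
    refine Finset.sum_congr rfl fun j _ => ?_
    rw [star_mul, star_mul, (C.e_isSelfAdjoint ρ j).star_eq, hzs.star_eq, hz]
    calc C.tr (C.e ρ j * (b * C.e π i * star b * C.e ρ j) * (b * C.e π i * star b))
        = C.tr ((C.e ρ j * b) * (C.e π i * star b * C.e ρ j * b * C.e π i * star b)) := by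
          simp only [mul_assoc]
      _ = C.tr ((C.e π i * star b * C.e ρ j * b * C.e π i * star b) * (C.e ρ j * b)) := C.tr_comm _ _
      _ = _ := by simp only [mul_assoc]
  simp only [jointSum, e]
  rw [Finset.sum_comm]
  refine Finset.sum_congr rfl fun j _ => Finset.sum_congr rfl fun i _ => ?_
  rw [star_star]
  calc C.tr (C.e π i * star a * C.e ρ j * a * C.e π i * star a * C.e ρ j * a)
      = C.tr ((C.e π i * star a) * (C.e ρ j * a * C.e π i * star a * C.e ρ j * a)) := by
        simp only [mul_assoc]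
    _ = C.tr ((C.e ρ j * a * C.e π i * star a * C.e ρ j * a) * (C.e π i * star a)) := C.tr_comm _ _
    _ = _ := by simp only [mul_assoc]

theorem tendsto_joint (a : M) :
    Tendsto (fun q : DiscreteQuotient X × DiscreteQuotient X => ∑ i : q.1,
        C.n2sq (C.pinch q.2 (a * C.e q.1 i * star a) - C.r (C.K a (cellFn q.1 i))))
      (atBot ×ˢ atBot) (𝓝 0) := by
  set L : DiscreteQuotient X → ℝ := fun π => ∑ i : π, C.n2sq (C.r (C.K a (cellFn π i)))
  have hs : ∀ (π : DiscreteQuotient X) (i : π), IsSelfAdjoint (a * C.e π i * star a) :=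
    fun π i => (C.e_isSelfAdjoint π i).conjugate a
  have dist : ∀ π ρ : DiscreteQuotient X,
      ∑ i : π, C.n2sq (C.pinch ρ (a * C.e π i * star a) - C.r (C.K a (cellFn π i))) =
        C.jointSum a π ρ - L π := by
    intro π ρ
    simp only [jointSum, L, ← Finset.sum_sub_distrib]
    refine Finset.sum_congr rfl fun i _ => ?_
    set z := a * C.e π i * star a with hz
    set f := C.K a (cellFn π i) with hf
    have hp : C.pinch ρ (C.r f) = C.r f := by
      simp only [pinch, e, ← C.r_mul, ← C.r_sum]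
      congr 1
      classical
      calc ∑ k : ρ, cellFn ρ k * f * cellFn ρ k = ∑ k : ρ, (cellFn ρ k * cellFn ρ k) * f :=
            Finset.sum_congr rfl fun k _ => by ring
        _ = f := by simp only [cellFn_mul_cellFn, if_true, ← Finset.sum_mul, sum_cellFn, one_mul]
    have h1 : C.tr (star (C.r f) * C.pinch ρ z) = C.tr (star (C.r f) * C.r f) := by
      rw [C.tr_star_mul_pinch, hp, C.star_r, C.tr_r_mul f (hs π i), ← C.r_mul]
      rfl
    simp only [n2sq, star_sub, sub_mul, mul_sub, C.tr_sub, C.tr_star_mul_symm (C.pinch ρ z) (C.r f)]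
    linarith
  have tends : ∀ π, Tendsto (C.jointSum a π) atBot (𝓝 (L π)) := by
    intro π
    rw [← tendsto_sub_nhds_zero_iff]
    simp only [← dist]
    rw [show (0 : ℝ) = ∑ _i : π, 0 by simp]
    refine tendsto_finsetSum _ fun i _ => ?_
    have h := C.pinch_tendsto (a * C.e π i * star a)
    rw [C.E_eq_toC_Er (hs π i)] at h
    exact h
  set S := Set.range fun q : DiscreteQuotient X × DiscreteQuotient X => C.jointSum a q.1 q.2
  have hne : S.Nonempty := Set.range_nonempty _
  have hbdd : BddBelow S := ⟨0, by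
    rintro _ ⟨q, rfl⟩; exact Finset.sum_nonneg fun i _ => C.n2sq_nonneg' _⟩
  refine Metric.tendsto_nhds.2 fun ε hε => ?_
  obtain ⟨_, ⟨⟨π₀, ρ₀⟩, rfl⟩, hq⟩ := exists_lt_of_csInf_lt hne (lt_add_of_pos_right (sInf S) hε)
  filter_upwards [prod_mem_prod (Iic_mem_atBot π₀) (Iic_mem_atBot ρ₀)] with q hq'
  obtain ⟨hπ, hρ⟩ := hq'
  have hL : sInf S ≤ L q.1 :=
    ge_of_tendsto' (tends q.1) fun ρ => csInf_le hbdd ⟨(q.1, ρ), rfl⟩
  have hup : C.jointSum a q.1 q.2 ≤ C.jointSum a π₀ ρ₀ := by
    refine (C.jointSum_anti a q.1 hρ).trans ?_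
    rw [C.jointSum_swap a q.1, C.jointSum_swap a π₀]
    exact C.jointSum_anti (star a) ρ₀ hπ
  have h0 : 0 ≤ C.jointSum a q.1 q.2 - L q.1 := by
    rw [← dist]; exact Finset.sum_nonneg fun i _ => C.n2sq_nonneg' _
  rw [dist, Real.dist_eq, sub_zero, abs_of_nonneg h0]
  simp only at hq
  linarith

end Vale.Agent.P078.Tracial.Core
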