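import Vale.Agent.P078.Tracial.DiagA

/-! Deviation of pinchings from the expectation, polarisation, and approximation of words. -/

namespace Vale.Agent.P078.Tracial.Core

set_option linter.unusedSectionVars false

open Filter Topology ComplexOrder

variable {M X : Type*} [CStarAlgebra M] [PartialOrder M] [StarOrderedRing M]
variable [TopologicalSpace X] [CompactSpace X] [T2Space X] [TotallyDisconnectedSpace X]
variable (C : Core M X)

/-- The expectation inside the algebra. -/
noncomputable def eE (z : M) : M := C.ι (C.E z)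

/-- The deviation of a pinching from the expectation. -/
noncomputable def dev (ρ : DiscreteQuotient X) (z : M) : M := C.pinch ρ z - C.eE z

lemma eE_of_selfAdjoint {z : M} (hz : IsSelfAdjoint z) : C.eE z = C.r (C.Er z) := by
  rw [eE, C.E_eq_toC_Er hz, r]

lemma pinch_add (ρ : DiscreteQuotient X) (a b : M) :
    C.pinch ρ (a + b) = C.pinch ρ a + C.pinch ρ b := by
  simp [pinch, mul_add, add_mul, Finset.sum_add_distrib]

lemma pinch_sub (ρ : DiscreteQuotient X) (a b : M) :
    C.pinch ρ (a - b) = C.pinch ρ a - C.pinch ρ b := by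
  simp [pinch, mul_sub, sub_mul, Finset.sum_sub_distrib]

lemma pinch_sum {α : Type*} (ρ : DiscreteQuotient X) (s : Finset α) (f : α → M) :
    C.pinch ρ (∑ k ∈ s, f k) = ∑ k ∈ s, C.pinch ρ (f k) :=
  map_sum (AddMonoidHom.mk' (C.pinch ρ) (C.pinch_add ρ)) f s

lemma eE_add (a b : M) : C.eE (a + b) = C.eE a + C.eE b := by simp [eE]

lemma eE_sub (a b : M) : C.eE (a - b) = C.eE a - C.eE b := by simp [eE]

lemma dev_add (ρ : DiscreteQuotient X) (a b : M) : C.dev ρ (a + b) = C.dev ρ a + C.dev ρ b := by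
  simp only [dev, C.pinch_add, C.eE_add]; abel

lemma dev_sub (ρ : DiscreteQuotient X) (a b : M) : C.dev ρ (a - b) = C.dev ρ a - C.dev ρ b := by
  simp only [dev, C.pinch_sub, C.eE_sub]; abel

lemma dev_sum {α : Type*} (ρ : DiscreteQuotient X) (s : Finset α) (f : α → M) :
    C.dev ρ (∑ k ∈ s, f k) = ∑ k ∈ s, C.dev ρ (f k) :=
  map_sum (AddMonoidHom.mk' (C.dev ρ) (C.dev_add ρ)) f s

lemma dev_smul (ρ : DiscreteQuotient X) (c : ℂ) (a : M) : C.dev ρ (c • a) = c • C.dev ρ a := by
  simp [dev, eE, pinch, smul_sub, Finset.smul_sum]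

lemma pinch_eE (ρ : DiscreteQuotient X) (z : M) : C.pinch ρ (C.eE z) = C.eE z := by
  have h : ∀ k : ρ, C.e ρ k * C.eE z * C.e ρ k = C.eE z * C.e ρ k := fun k => by
    have hc : C.e ρ k * C.eE z = C.eE z * C.e ρ k := by
      rw [e, eE, r, ← map_mul, ← map_mul, mul_comm]
    rw [hc, mul_assoc, C.e_mul_self]
  simp only [pinch, h, ← Finset.mul_sum, C.sum_e, mul_one]

lemma dev_eq (ρ : DiscreteQuotient X) (z : M) : C.dev ρ z = C.pinch ρ (z - C.eE z) := by
  rw [dev, C.pinch_sub, C.pinch_eE]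

lemma tr_star_eE_mul (z : M) : C.tr (star (C.eE z) * z) = C.n2sq (C.eE z) := by
  have h1 := C.E_bimod (star (C.E z)) 1 z
  rw [map_one, mul_one, mul_one] at h1
  rw [n2sq, eE, ← map_star, ← C.tr_ι_E (C.ι (star (C.E z)) * z), h1, map_mul]

lemma n2sq_eE_add (z : M) : C.n2sq z = C.n2sq (C.eE z) + C.n2sq (z - C.eE z) := by
  have h2 := C.tr_star_mul_symm z (C.eE z)
  have h1 := C.tr_star_eE_mul z
  simp only [n2sq, star_sub, sub_mul, mul_sub, C.tr_sub] at h1 ⊢
  linarith

lemma n2sq_eE_le (z : M) : C.n2sq (C.eE z) ≤ C.n2sq z := by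
  linarith [C.n2sq_eE_add z, C.n2sq_nonneg' (z - C.eE z)]

lemma n2sq_sub_eE_le (z : M) : C.n2sq (z - C.eE z) ≤ C.n2sq z := by
  linarith [C.n2sq_eE_add z, C.n2sq_nonneg' (C.eE z)]

lemma n2sq_dev_le (ρ : DiscreteQuotient X) (z : M) : C.n2sq (C.dev ρ z) ≤ C.n2sq z := by
  rw [dev_eq]; exact (C.n2sq_pinch_le _ _).trans (C.n2sq_sub_eE_le z)

lemma n2sq_sum_le {α : Type*} [Fintype α] (f : α → M) :
    C.n2sq (∑ k, f k) ≤ Fintype.card α * ∑ k, C.n2sq (f k) := by
  have h : ∀ k l, C.tr (star (f k) * f l) ≤ (C.n2sq (f k) + C.n2sq (f l)) / 2 := fun k l => by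
    have h0 := C.n2sq_nonneg' (f k - f l)
    simp only [n2sq, star_sub, sub_mul, mul_sub, C.tr_sub, C.tr_star_mul_symm (f l) (f k)] at h0 ⊢
    linarith
  rw [n2sq, star_sum, Finset.sum_mul_sum, C.tr_sum]
  simp only [C.tr_sum]
  calc ∑ k, ∑ l, C.tr (star (f k) * f l) ≤ ∑ k, ∑ l, (C.n2sq (f k) + C.n2sq (f l)) / 2 :=
        Finset.sum_le_sum fun k _ => Finset.sum_le_sum fun l _ => h k l
    _ = _ := by
        simp only [add_div, Finset.sum_add_distrib, Finset.sum_const, Finset.card_univ,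
          nsmul_eq_mul, ← Finset.mul_sum, ← Finset.sum_div]
        ring

lemma n2sq_add_le (a b : M) : C.n2sq (a + b) ≤ 2 * C.n2sq a + 2 * C.n2sq b := by
  have h0 := C.n2sq_nonneg' (a - b)
  simp only [n2sq, star_sub, star_add, sub_mul, add_mul, mul_sub, mul_add, C.tr_sub, C.tr_add,
    C.tr_star_mul_symm b a] at h0 ⊢
  linarith

lemma n2sq_conj_le (b z : M) : C.n2sq (b * z * star b) ≤ ‖b‖ ^ 4 * C.n2sq z := by
  refine (C.n2sq_mul_le (star b) (b * z)).2.trans ?_
  rw [norm_star]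
  calc ‖b‖ ^ 2 * C.n2sq (b * z) ≤ ‖b‖ ^ 2 * (‖b‖ ^ 2 * C.n2sq z) :=
        mul_le_mul_of_nonneg_left (C.n2sq_mul_left_le b z) (sq_nonneg _)
    _ = _ := by ring

lemma n2sq_smul (c : ℂ) (z : M) : C.n2sq (c • z) = ‖c‖ ^ 2 * C.n2sq z := by
  have h : star (c • z) * (c • z) = (‖c‖ ^ 2 : ℝ) • (star z * z) := by
    rw [star_smul, smul_mul_smul_comm, Complex.star_def, Complex.conj_mul', ← Complex.coe_smul]
    norm_num
  rw [n2sq, h, C.tr_smul, n2sq]

/-- Iterated pinched conjugations are finite sums of conjugations. -/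
lemma exists_pword_eq : ∀ l : List (M × DiscreteQuotient X), ∃ (n : ℕ) (u : Fin n → M),
    ∀ z, C.pword l z = ∑ k, u k * z * star (u k)
  | [] => ⟨1, fun _ => 1, fun z => by simp [pword]⟩
  | q :: l => by
    obtain ⟨n, u, hu⟩ := exists_pword_eq l
    let eqv := (Fintype.equivFin (q.2 × Fin n)).symm
    refine ⟨_, fun m => C.e q.2 (eqv m).1 * q.1 * u (eqv m).2, fun z => ?_⟩
    rw [eqv.sum_comp (fun p => C.e q.2 p.1 * q.1 * u p.2 * z * star (C.e q.2 p.1 * q.1 * u p.2)),
      Fintype.sum_prod_type, pword, hu]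
    simp only [pinch, Finset.mul_sum, Finset.sum_mul]
    refine Finset.sum_congr rfl fun j _ => Finset.sum_congr rfl fun k _ => ?_
    simp only [star_mul, (C.e_isSelfAdjoint q.2 j).star_eq, mul_assoc]

lemma pword_isSelfAdjoint (l : List (M × DiscreteQuotient X)) {z : M} (hz : IsSelfAdjoint z) :
    IsSelfAdjoint (C.pword l z) := by
  obtain ⟨n, u, hu⟩ := C.exists_pword_eq l
  rw [hu]
  rw [IsSelfAdjoint, star_sum]
  exact Finset.sum_congr rfl fun k _ => (hz.conjugate _).star_eq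

/-- A threshold below which a double limit holds. -/
lemma exists_forall_le {F : DiscreteQuotient X × DiscreteQuotient X → ℝ}
    (hF : Tendsto F (atBot ×ˢ atBot) (𝓝 0)) {ε : ℝ} (hε : 0 < ε) :
    ∃ π₀ : DiscreteQuotient X, ∀ π ≤ π₀, ∀ ρ ≤ π₀, F (π, ρ) < ε := by
  have h := hF.eventually (Iio_mem_nhds hε)
  rw [prod_atBot_atBot_eq, eventually_atBot] at h
  obtain ⟨⟨a, b⟩, hab⟩ := h
  exact ⟨a ⊓ b, fun π hπ ρ hρ => hab (π, ρ) ⟨hπ.trans inf_le_left, hρ.trans inf_le_right⟩⟩

lemma tendsto_joint_dev (a : M) :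
    Tendsto (fun q : DiscreteQuotient X × DiscreteQuotient X => ∑ i : q.1,
        C.n2sq (C.dev q.2 (a * C.e q.1 i * star a))) (atBot ×ˢ atBot) (𝓝 0) := by
  refine (C.tendsto_joint a).congr fun q => Finset.sum_congr rfl fun i _ => ?_
  rw [dev, C.eE_of_selfAdjoint ((C.e_isSelfAdjoint q.1 i).conjugate a)]
  rfl

/-- Polarisation of the joint limit. -/
lemma tendsto_dev_diag (x y : M) :
    Tendsto (fun π : DiscreteQuotient X => ∑ i : π, C.n2sq (C.dev π (x * C.e π i * y)))
      atBot (𝓝 0) := by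
  have hd : ∀ a : M, Tendsto (fun π : DiscreteQuotient X =>
      ∑ i : π, C.n2sq (C.dev π (a * C.e π i * star a))) atBot (𝓝 0) := fun a =>
    (C.tendsto_joint_dev a).comp (tendsto_id.prodMk tendsto_id)
  let s : Fin 4 → ℂ := fun k => Complex.I ^ (k : ℕ)
  have hs : ∀ k, ‖s k‖ = 1 := fun k => by simp [s]
  have key : ∀ e : M, x * e * y =
      ∑ k, ((1 / 4 : ℂ) * s k) • ((x + s k • star y) * e * star (x + s k • star y)) := by
    intro e
    simp only [Fin.sum_univ_four, s, Fin.val_zero, Fin.val_one, Fin.val_two,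
      show ((3 : Fin 4) : ℕ) = 3 from rfl, pow_zero, pow_one, Complex.I_sq, Complex.I_pow_three,
      star_add, star_smul, star_star, Complex.star_def, Complex.conj_I, map_one, map_neg, mul_add,
      add_mul, smul_mul_assoc, mul_smul_comm, smul_add, smul_smul]
    match_scalars <;> ring_nf <;> simp [Complex.I_sq]; norm_num
  have lim : Tendsto (fun π : DiscreteQuotient X => ∑ k : Fin 4,
      ∑ i : π, C.n2sq (C.dev π ((x + s k • star y) * C.e π i * star (x + s k • star y))))
      atBot (𝓝 0) := by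
    rw [show (0 : ℝ) = ∑ _k : Fin 4, 0 by simp]
    exact tendsto_finsetSum _ fun k _ => hd _
  refine squeeze_zero (fun π => Finset.sum_nonneg fun i _ => C.n2sq_nonneg' _) (fun π => ?_) lim
  rw [Finset.sum_comm]
  refine Finset.sum_le_sum fun i _ => ?_
  rw [key, C.dev_sum]
  refine (C.n2sq_sum_le _).trans ?_
  rw [Finset.mul_sum]
  refine Finset.sum_le_sum fun k _ => ?_
  rw [C.dev_smul, C.n2sq_smul, show ‖(1 / 4 : ℂ) * s k‖ ^ 2 = 1 / 16 by
    rw [norm_mul, hs]; norm_num]
  have := C.n2sq_nonneg' (C.dev π ((x + s k • star y) * C.e π i * star (x + s k • star y)))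
  simp only [Fintype.card_fin, Nat.cast_ofNat]
  linarith

/-- All partitions, including that of the starting cell, may be refined jointly. -/
theorem word_approx (w : List M) (ε : ℝ) (hε : 0 < ε) :
    ∃ ρ₀ : DiscreteQuotient X, ∀ ρs : List (DiscreteQuotient X), ρs.length = w.length →
      (∀ ρ ∈ ρs, ρ ≤ ρ₀) → ∀ π ≤ ρ₀,
        ∑ i : π, C.n2sq (C.pword (w.zip ρs) (C.e π i) - C.r (C.Kword w (cellFn π i))) < ε := by
  induction w generalizing ε with
  | nil =>
    refine ⟨⊤, fun ρs _ _ π _ => ?_⟩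
    simp [pword, Kword, e, n2sq, C.tr_zero, hε]
  | cons b w ih =>
    set B : ℝ := ‖b‖ ^ 4 + 1
    have hB : 0 < B := by positivity
    have hB1 : ‖b‖ ^ 4 ≤ B := le_add_of_nonneg_right zero_le_one
    obtain ⟨ρ₁, hρ₁⟩ := ih (ε / (8 * B)) (by positivity)
    set σ : List (DiscreteQuotient X) := List.replicate w.length ρ₁
    obtain ⟨n, u, hu⟩ := C.exists_pword_eq (w.zip σ)
    have hlim : Tendsto (fun q : DiscreteQuotient X × DiscreteQuotient X => ∑ k : Fin n,
        ∑ i : q.1, C.n2sq (C.dev q.2 (b * u k * C.e q.1 i * star (b * u k))))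
        (atBot ×ˢ atBot) (𝓝 0) := by
      rw [show (0 : ℝ) = ∑ _k : Fin n, 0 by simp]
      exact tendsto_finsetSum _ fun k _ => C.tendsto_joint_dev _
    obtain ⟨ρ₂, hρ₂⟩ := exists_forall_le hlim (ε := ε / (16 * ((n : ℝ) + 1))) (by positivity)
    refine ⟨ρ₁ ⊓ ρ₂, fun ρs hlen hρs π hπ => ?_⟩
    obtain ⟨ρ, ρs', rfl⟩ : ∃ ρ ρs', ρs = ρ :: ρs' := by
      cases ρs with
      | nil => simp at hlen
      | cons ρ ρs' => exact ⟨ρ, ρs', rfl⟩
    have hρ : ρ ≤ ρ₂ := (hρs ρ (by simp)).trans inf_le_right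
    have hg := hρ₁ ρs' (by simpa using hlen)
      (fun r hr => (hρs r (by simp [hr])).trans inf_le_left) π (hπ.trans inf_le_left)
    have hG := hρ₁ σ (by simp [σ]) (fun r hr => (List.eq_of_mem_replicate hr).le) π
      (hπ.trans inf_le_left)
    have hS := hρ₂ π (hπ.trans inf_le_right) ρ hρ
    have hi : ∀ i : π,
        C.n2sq (C.pword ((b :: w).zip (ρ :: ρs')) (C.e π i) - C.r (C.Kword (b :: w) (cellFn π i))) ≤
          2 * B * C.n2sq (C.pword (w.zip ρs') (C.e π i) - C.r (C.Kword w (cellFn π i))) +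
          4 * B * C.n2sq (C.pword (w.zip σ) (C.e π i) - C.r (C.Kword w (cellFn π i))) +
          4 * n * ∑ k, C.n2sq (C.dev ρ (b * u k * C.e π i * star (b * u k))) := by
      intro i
      set g := C.pword (w.zip ρs') (C.e π i)
      set G := C.pword (w.zip σ) (C.e π i) with hGdef
      set f := C.Kword w (cellFn π i)
      have e1 : C.pword ((b :: w).zip (ρ :: ρs')) (C.e π i) - C.r (C.Kword (b :: w) (cellFn π i)) =
          C.pinch ρ (b * (g - C.r f) * star b) +
            (C.dev ρ (b * G * star b) - C.dev ρ (b * (G - C.r f) * star b)) := by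
        rw [← C.dev_sub, show b * G * star b - b * (G - C.r f) * star b = b * C.r f * star b by
          noncomm_ring, dev, C.eE_of_selfAdjoint ((C.r_isSelfAdjoint f).conjugate b)]
        simp only [List.zip_cons_cons, pword, Kword, K, mul_sub, sub_mul, C.pinch_sub]
        abel
      have h1 := (C.n2sq_pinch_le ρ (b * (g - C.r f) * star b)).trans
        ((C.n2sq_conj_le b _).trans (mul_le_mul_of_nonneg_right hB1 (C.n2sq_nonneg' (g - C.r f))))
      have h2 := (C.n2sq_dev_le ρ (b * (G - C.r f) * star b)).trans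
        ((C.n2sq_conj_le b _).trans (mul_le_mul_of_nonneg_right hB1 (C.n2sq_nonneg' (G - C.r f))))
      have h3 : C.n2sq (C.dev ρ (b * G * star b)) ≤
          n * ∑ k, C.n2sq (C.dev ρ (b * u k * C.e π i * star (b * u k))) := by
        have : b * G * star b = ∑ k, b * u k * C.e π i * star (b * u k) := by
          rw [hGdef, hu, Finset.mul_sum, Finset.sum_mul]
          exact Finset.sum_congr rfl fun k _ => by simp only [star_mul, mul_assoc]
        rw [this, C.dev_sum]
        exact (C.n2sq_sum_le _).trans_eq (by rw [Fintype.card_fin])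
      have h4 := C.n2sq_add_le (C.dev ρ (b * G * star b)) (-C.dev ρ (b * (G - C.r f) * star b))
      rw [show C.n2sq (-C.dev ρ (b * (G - C.r f) * star b)) =
        C.n2sq (C.dev ρ (b * (G - C.r f) * star b)) by simp [n2sq], ← sub_eq_add_neg] at h4
      have h5 := C.n2sq_add_le (C.pinch ρ (b * (g - C.r f) * star b))
        (C.dev ρ (b * G * star b) - C.dev ρ (b * (G - C.r f) * star b))
      rw [e1]
      linarith
    refine lt_of_le_of_lt (Finset.sum_le_sum fun i _ => hi i) ?_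
    simp only [Finset.sum_add_distrib, ← Finset.mul_sum]
    simp only at hS
    rw [Finset.sum_comm] at hS
    rw [lt_div_iff₀ (by positivity)] at hg hG hS
    have h0 : 0 ≤ ∑ i : π, ∑ k : Fin n, C.n2sq (C.dev ρ (b * u k * C.e π i * star (b * u k))) :=
      Finset.sum_nonneg fun i _ => Finset.sum_nonneg fun k _ => C.n2sq_nonneg' _
    nlinarith

end Vale.Agent.P078.Tracial.Core
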