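import Vale.Agent.P078.Tracial.DiagDev

/-! The symmetry lemma behind the traciality of the diagonal. -/

namespace Vale.Agent.P078.Tracial.Core

set_option linter.unusedSectionVars false

open Filter Topology ComplexOrder

variable {M X : Type*} [CStarAlgebra M] [PartialOrder M] [StarOrderedRing M]
variable [TopologicalSpace X] [CompactSpace X] [T2Space X] [TotallyDisconnectedSpace X]
variable (C : Core M X)

/-- The two-norm. -/
noncomputable def nm (z : M) : ℝ := Real.sqrt (C.n2sq z)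

lemma nm_nonneg (z : M) : 0 ≤ C.nm z := Real.sqrt_nonneg _

lemma nm_star (z : M) : C.nm (star z) = C.nm z := by rw [nm, nm, C.n2sq_star]

lemma nm_sub_comm (a b : M) : C.nm (a - b) = C.nm (b - a) := by
  rw [nm, nm, n2sq, n2sq, ← neg_sub b a, star_neg, neg_mul_neg]

lemma nm_mul_left_le (a z : M) : C.nm (a * z) ≤ ‖a‖ * C.nm z := by
  rw [nm, nm, ← Real.sqrt_sq (norm_nonneg a), ← Real.sqrt_mul (sq_nonneg _)]
  exact Real.sqrt_le_sqrt (C.n2sq_mul_left_le a z)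

lemma nm_mul_right_le (z a : M) : C.nm (z * a) ≤ C.nm z * ‖a‖ := by
  rw [← C.nm_star, star_mul, ← C.nm_star z, ← norm_star a, mul_comm]
  exact C.nm_mul_left_le _ _

lemma nm_eE_le (z : M) : C.nm (C.eE z) ≤ C.nm z := Real.sqrt_le_sqrt (C.n2sq_eE_le z)

lemma abs_tr_three_le (w d v : M) : |C.tr (w * d * v)| ≤ ‖w‖ * C.nm d * C.nm v :=
  (C.abs_tr_mul_le _ _).trans (mul_le_mul_of_nonneg_right (C.nm_mul_left_le w d) (C.nm_nonneg v))

lemma eE_star (z : M) : C.eE (star z) = star (C.eE z) := by rw [eE, eE, C.E_star, map_star]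

lemma eE_comm (y z : M) : C.eE y * C.eE z = C.eE z * C.eE y := by
  rw [eE, eE, ← map_mul, mul_comm, map_mul]

lemma norm_eE_le (z : M) : ‖C.eE z‖ ≤ ‖C.E‖ * ‖z‖ :=
  (NonUnitalStarAlgHom.norm_apply_le C.ι (C.E z)).trans (C.E.le_opNorm z)

lemma eE_cell (π : DiscreteQuotient X) (j : π) (z : M) :
    C.eE (C.e π j * z * C.e π j) = C.e π j * C.eE z * C.e π j := by
  simp only [eE, e, r, C.E_bimod, map_mul]

lemma sum_n2sq_cell (π : DiscreteQuotient X) (z : M) :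
    ∑ j : π, C.n2sq (C.e π j * z * C.e π j - C.eE (C.e π j * z * C.e π j)) =
      C.n2sq (C.dev π z) := by
  have h1 : ∀ d : M, C.n2sq (C.pinch π d) = ∑ j : π, C.n2sq (C.e π j * d * C.e π j) := by
    intro d
    have h2 : C.n2sq (C.pinch π d) = C.tr (star (C.pinch π d) * d) := by
      rw [n2sq, C.tr_star_mul_pinch, C.pinch_pinch le_rfl]
    rw [h2, pinch, star_sum, Finset.sum_mul, C.tr_sum]
    refine Finset.sum_congr rfl fun j _ => ?_
    have he := (C.e_isSelfAdjoint π j).star_eq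
    have hi := C.e_mul_self π j
    simp only [n2sq, star_mul, he]
    symm
    calc C.tr (C.e π j * (star d * C.e π j) * (C.e π j * d * C.e π j))
        = C.tr ((C.e π j * star d * C.e π j * d) * C.e π j) := by
          simp only [mul_assoc]; rw [← mul_assoc (C.e π j) (C.e π j), hi]
      _ = C.tr (C.e π j * (C.e π j * star d * C.e π j * d)) := C.tr_comm _ _
      _ = _ := by simp only [← mul_assoc]; rw [hi]
  rw [C.dev_eq, h1]
  exact Finset.sum_congr rfl fun j _ => by rw [C.eE_cell, ← sub_mul, ← mul_sub]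

lemma four_le (U : M) {L q δ : ℝ} {X1 X2 X3 X4 Y1 Y2 Y3 Y4 : M}
    (hL : 0 ≤ L) (hX2 : ‖X2‖ ≤ L) (hX3 : ‖X3‖ ≤ L)
    (hY1 : ‖Y1‖ ≤ L) (hY2 : ‖Y2‖ ≤ L)
    (nX4 : C.nm X4 ≤ L * q) (nY3 : C.nm Y3 ≤ L * q)
    (d1 : C.nm (X1 - Y1) ≤ δ) (d2 : C.nm (X2 - Y2) ≤ δ)
    (d3 : C.nm (X3 - Y3) ≤ δ) (d4 : C.nm (X4 - Y4) ≤ δ) :
    |C.tr (U * (X1 * X2 * X3 * X4)) - C.tr (U * (Y1 * Y2 * Y3 * Y4))| ≤
      4 * ‖U‖ * L ^ 3 * δ * q := by
  have hδ : 0 ≤ δ := (C.nm_nonneg _).trans d1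
  have hq : 0 ≤ L * q := (C.nm_nonneg _).trans nX4
  have e : C.tr (U * (X1 * X2 * X3 * X4)) - C.tr (U * (Y1 * Y2 * Y3 * Y4)) =
      C.tr (U * (X1 - Y1) * (X2 * X3 * X4)) + C.tr (U * Y1 * (X2 - Y2) * (X3 * X4)) +
        C.tr (U * Y1 * Y2 * (X3 - Y3) * X4) + C.tr (U * Y1 * Y2 * Y3 * (X4 - Y4)) := by
    simp only [← C.tr_add, ← C.tr_sub]
    congr 1
    noncomm_ring
  have b1 : |C.tr (U * (X1 - Y1) * (X2 * X3 * X4))| ≤ ‖U‖ * δ * (L * L * (L * q)) := by
    refine (C.abs_tr_three_le _ _ _).trans (mul_le_mul ?_ ?_ (C.nm_nonneg _) (by positivity))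
    · exact mul_le_mul_of_nonneg_left d1 (norm_nonneg _)
    · exact (C.nm_mul_left_le _ _).trans (mul_le_mul ((norm_mul_le _ _).trans
        (mul_le_mul hX2 hX3 (norm_nonneg _) hL)) nX4 (C.nm_nonneg _) (by positivity))
  have b2 : |C.tr (U * Y1 * (X2 - Y2) * (X3 * X4))| ≤ ‖U‖ * L * δ * (L * (L * q)) := by
    refine (C.abs_tr_three_le _ _ _).trans (mul_le_mul ?_ ?_ (C.nm_nonneg _) (by positivity))
    · exact mul_le_mul ((norm_mul_le _ _).trans (mul_le_mul_of_nonneg_left hY1 (norm_nonneg _))) d2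
        (C.nm_nonneg _) (by positivity)
    · exact (C.nm_mul_left_le _ _).trans (mul_le_mul hX3 nX4 (C.nm_nonneg _) hL)
  have h12 : ‖U * Y1 * Y2‖ ≤ ‖U‖ * L * L := (norm_mul_le _ _).trans (mul_le_mul
    ((norm_mul_le _ _).trans (mul_le_mul_of_nonneg_left hY1 (norm_nonneg _))) hY2 (norm_nonneg _)
    (by positivity))
  have b3 : |C.tr (U * Y1 * Y2 * (X3 - Y3) * X4)| ≤ ‖U‖ * L * L * δ * (L * q) :=
    (C.abs_tr_three_le _ _ _).trans (mul_le_mul (mul_le_mul h12 d3 (C.nm_nonneg _) (by positivity))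
      nX4 (C.nm_nonneg _) (by positivity))
  have b4 : |C.tr (U * Y1 * Y2 * Y3 * (X4 - Y4))| ≤ ‖U‖ * L * L * (L * q) * δ := by
    refine (C.abs_tr_mul_le _ _).trans (mul_le_mul ?_ d4 (C.nm_nonneg _) (by positivity))
    exact (C.nm_mul_left_le _ _).trans (mul_le_mul h12 nY3 (C.nm_nonneg _) (by positivity))
  rw [e]
  have ha := abs_le.1 b1
  have hb := abs_le.1 b2
  have hc := abs_le.1 b3
  have hd := abs_le.1 b4
  exact abs_le.2 ⟨by linarith [ha.1, hb.1, hc.1, hd.1], by linarith [ha.2, hb.2, hc.2, hd.2]⟩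

/-- The defect from the expectation. -/
noncomputable def dfc (z : M) : ℝ := C.nm (z - C.eE z)

/-- The total defect of the six products of `P` and `Q`. -/
noncomputable def six (P Q : M) : ℝ :=
  C.dfc (star P * P) + C.dfc (Q * star Q) + C.dfc (Q * P) + C.dfc (P * Q) +
    C.dfc (star Q * Q) + C.dfc (P * star P)

lemma excess_le (al be rr : C(X, ℝ)) {t : ℝ} (ht : 0 < t) (hal : ∀ x, 0 ≤ al x)
    (hbe : ∀ x, 0 ≤ be x) (hrr : ∀ x, 0 ≤ rr x) :
    al * be - rr ≤ (1 / t ^ 2) • (((al * be - rr) ⊔ 0) * ((al * be) * (al * be - rr))) +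
      (Real.sqrt t / 2) • (al + be) := by
  refine ContinuousMap.le_def.2 fun x => ?_
  simp only [ContinuousMap.sub_apply, ContinuousMap.mul_apply, ContinuousMap.add_apply,
    ContinuousMap.smul_apply, ContinuousMap.sup_apply, ContinuousMap.zero_apply, smul_eq_mul]
  set z := al x * be x
  set v := z - rr x with hv
  have hz : 0 ≤ z := mul_nonneg (hal x) (hbe x)
  have hvz : v ≤ z := by rw [hv]; linarith [hrr x]
  have hR0 : 0 ≤ Real.sqrt t / 2 * (al x + be x) :=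
    mul_nonneg (by positivity) (add_nonneg (hal x) (hbe x))
  rcases le_total v 0 with h0 | h0
  · rw [sup_eq_right.2 h0]
    linarith
  rw [sup_eq_left.2 h0]
  rcases le_total t v with h1 | h1
  · have : v ≤ 1 / t ^ 2 * (v * (z * v)) := by
      rw [one_div, ← div_eq_inv_mul, le_div_iff₀ (by positivity)]
      nlinarith [mul_le_mul hvz (mul_le_mul h1 h1 ht.le h0) (by positivity) hz]
    linarith
  · have h3 : Real.sqrt z ≤ (al x + be x) / 2 :=
      Real.sqrt_le_iff.2 ⟨by linarith [hal x, hbe x], by nlinarith [sq_nonneg (al x - be x)]⟩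
    have h2 : Real.sqrt v * Real.sqrt v ≤ Real.sqrt t * ((al x + be x) / 2) :=
      mul_le_mul (Real.sqrt_le_sqrt h1) ((Real.sqrt_le_sqrt hvz).trans h3)
        (Real.sqrt_nonneg _) (Real.sqrt_nonneg _)
    rw [Real.mul_self_sqrt h0] at h2
    have : 0 ≤ 1 / t ^ 2 * (v * (z * v)) := by positivity
    linarith

/-- Exchanging `R* R` for `R R*` inside `(Q Q* P* P) ^ 2`. -/
lemma swap_le (U P Q : M) {L δ q : ℝ} (hL : 0 ≤ L) (hQ : ‖Q‖ ≤ L) (hR : ‖P * Q‖ ≤ L)
    (hr : ‖C.eE (P * Q)‖ ≤ L) (hq : C.nm P ≤ q) (hd : C.nm (P * Q - C.eE (P * Q)) ≤ δ) :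
    |C.tr (U * (Q * star Q * (star P * P) * (Q * star Q) * (star P * P))) -
        C.tr (U * (Q * P * (Q * star Q) * star (Q * P) * (star P * P)))| ≤
      4 * ‖U‖ * L ^ 3 * δ * q := by
  have hδ : 0 ≤ δ := (C.nm_nonneg _).trans hd
  have hq0 : 0 ≤ q := (C.nm_nonneg _).trans hq
  have h1 : U * (Q * star Q * (star P * P) * (Q * star Q) * (star P * P)) =
      U * Q * (star (P * Q) * (P * Q)) * (star (P * Q) * P) := by
    simp only [star_mul, mul_assoc]
  have h2 : U * (Q * P * (Q * star Q) * star (Q * P) * (star P * P)) =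
      U * Q * (P * Q * star (P * Q)) * (star (P * Q) * P) := by
    simp only [star_mul, mul_assoc]
  rw [h1, h2]
  set R := P * Q
  set rh := C.eE R with hrh
  have hc : star rh * rh = rh * star rh := by rw [hrh, ← C.eE_star]; exact C.eE_comm _ _
  have h3 : star R * R - R * star R = star (R - rh) * R + star rh * (R - rh) -
      (R - rh) * star R - rh * star (R - rh) := by
    rw [star_sub, sub_mul, mul_sub, sub_mul, mul_sub, hc]
    abel
  have e3 : U * Q * (star R * R) * (star R * P) - U * Q * (R * star R) * (star R * P) =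
      U * Q * star (R - rh) * (R * (star R * P)) + U * Q * star rh * (R - rh) * (star R * P) -
        U * Q * (R - rh) * (star R * (star R * P)) -
        U * Q * rh * star (R - rh) * (star R * P) := by
    rw [← sub_mul, ← mul_sub, h3]
    noncomm_ring
  rw [← C.tr_sub, e3, C.tr_sub, C.tr_sub, C.tr_add]
  have hUQ : ‖U * Q‖ ≤ ‖U‖ * L :=
    (norm_mul_le _ _).trans (mul_le_mul_of_nonneg_left hQ (norm_nonneg _))
  have hRP : C.nm (star R * P) ≤ L * q :=
    (C.nm_mul_left_le _ _).trans (mul_le_mul (by rwa [norm_star]) hq (C.nm_nonneg _) hL)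
  have dRs : C.nm (star (R - rh)) ≤ δ := by rwa [C.nm_star]
  have hr2 : ∀ R' : M, ‖R'‖ ≤ L → C.nm (R' * (star R * P)) ≤ L * (L * q) := fun R' h =>
    (C.nm_mul_left_le _ _).trans (mul_le_mul h hRP (C.nm_nonneg _) hL)
  have hW : ∀ W : M, ‖W‖ ≤ L → ‖U * Q * W‖ ≤ ‖U‖ * L * L := fun W h =>
    (norm_mul_le _ _).trans (mul_le_mul hUQ h (norm_nonneg _) (by positivity))
  have t1 := (C.abs_tr_three_le (U * Q) (star (R - rh)) (R * (star R * P))).trans
    (mul_le_mul (mul_le_mul hUQ dRs (C.nm_nonneg _) (by positivity)) (hr2 R hR) (C.nm_nonneg _)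
      (by positivity))
  have t3 := (C.abs_tr_three_le (U * Q) (R - rh) (star R * (star R * P))).trans
    (mul_le_mul (mul_le_mul hUQ hd (C.nm_nonneg _) (by positivity))
      (hr2 _ (by rwa [norm_star])) (C.nm_nonneg _) (by positivity))
  have t2 := (C.abs_tr_three_le (U * Q * star rh) (R - rh) (star R * P)).trans
    (mul_le_mul (mul_le_mul (hW _ (by rwa [norm_star])) hd (C.nm_nonneg _) (by positivity)) hRP
      (C.nm_nonneg _) (by positivity))
  have t4 := (C.abs_tr_three_le (U * Q * rh) (star (R - rh)) (star R * P)).trans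
    (mul_le_mul (mul_le_mul (hW _ hr) dRs (C.nm_nonneg _) (by positivity)) hRP (C.nm_nonneg _)
      (by positivity))
  have ha := abs_le.1 t1
  have hb := abs_le.1 t2
  have hc := abs_le.1 t3
  have hd' := abs_le.1 t4
  exact abs_le.2 ⟨by linarith [ha.1, hb.1, hc.2, hd'.2], by linarith [ha.2, hb.2, hc.1, hd'.1]⟩

lemma n2sq_mul_eq (P Q : M) : C.n2sq (Q * P) = C.tr (star Q * Q * (P * star P)) := by
  rw [n2sq, star_mul]
  calc C.tr (star P * star Q * (Q * P)) = C.tr (star P * (star Q * Q * P)) := by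
        simp only [mul_assoc]
    _ = C.tr (star Q * Q * P * star P) := C.tr_comm _ _
    _ = _ := by simp only [mul_assoc]

lemma abs_tr_replace_le (D G D' G' : M) {L q δ : ℝ} (nG : C.nm G ≤ L * q)
    (nD : C.nm D' ≤ L * q) (hD : C.nm (D - D') ≤ δ) (hG : C.nm (G - G') ≤ δ) :
    |C.tr (D * G) - C.tr (D' * G')| ≤ 2 * L * δ * q := by
  have hδ0 : 0 ≤ δ := (C.nm_nonneg _).trans hD
  have hLq : 0 ≤ L * q := (C.nm_nonneg _).trans nG
  have h0 : C.tr (D * G) - C.tr (D' * G') = C.tr ((D - D') * G) + C.tr (D' * (G - G')) := by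
    simp only [sub_mul, mul_sub, C.tr_sub]
    ring
  rw [h0]
  exact (abs_add_le _ _).trans (le_of_le_of_eq (add_le_add
    ((C.abs_tr_mul_le _ _).trans (mul_le_mul hD nG (C.nm_nonneg _) hδ0))
    ((C.abs_tr_mul_le _ _).trans (mul_le_mul nD hG (C.nm_nonneg _) hLq))) (by ring))

lemma mul_bounds {x y : M} {L q m : ℝ} (hL : 0 ≤ L) (hx : ‖x‖ ≤ m) (hy : ‖y‖ ≤ m)
    (hxL : ‖x‖ ≤ L) (hm : (1 + ‖C.E‖) * m ^ 2 ≤ L) (hyq : C.nm y ≤ q) :
    ‖x * y‖ ≤ L ∧ ‖C.eE (x * y)‖ ≤ L ∧ C.nm (x * y) ≤ L * q ∧ C.nm (C.eE (x * y)) ≤ L * q := by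
  have hm0 : 0 ≤ m := (norm_nonneg _).trans hx
  have h : ‖x * y‖ ≤ m ^ 2 := (norm_mul_le _ _).trans
    (by rw [sq]; exact mul_le_mul hx hy (norm_nonneg _) hm0)
  have he : ‖C.eE (x * y)‖ ≤ L := (C.norm_eE_le _).trans <| le_trans (mul_le_mul
    (le_add_of_nonneg_left zero_le_one) h (norm_nonneg _) (by positivity)) hm
  have hnm : C.nm (x * y) ≤ L * q :=
    (C.nm_mul_left_le x y).trans (mul_le_mul hxL hyq (C.nm_nonneg _) hL)
  exact ⟨h.trans <| le_trans
    (le_mul_of_one_le_left (sq_nonneg _) (le_add_of_nonneg_right (norm_nonneg _))) hm, he, hnm,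
    (C.nm_eE_le _).trans hnm⟩

lemma dfc_le_six (P Q : M) :
    C.dfc (star P * P) ≤ C.six P Q ∧ C.dfc (Q * star Q) ≤ C.six P Q ∧
      C.dfc (Q * P) ≤ C.six P Q ∧ C.dfc (P * Q) ≤ C.six P Q ∧
      C.dfc (star Q * Q) ≤ C.six P Q ∧ C.dfc (P * star P) ≤ C.six P Q := by
  have h : ∀ z, 0 ≤ C.dfc z := fun z => C.nm_nonneg _
  have h1 := h (star P * P)
  have h2 := h (Q * star Q)
  have h3 := h (Q * P)
  have h4 := h (P * Q)
  have h5 := h (star Q * Q)
  have h6 := h (P * star P)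
  unfold six
  exact ⟨by linarith, by linarith, by linarith, by linarith, by linarith, by linarith⟩

lemma quartic_eq {A B : M} (hA : IsSelfAdjoint A) (hB : IsSelfAdjoint B) (S : M)
    (u rr : C(X, ℝ)) (hrr : ∀ x, rr x = Complex.normSq (C.E S x)) :
    C.ig (u * ((C.Er A * C.Er B) * (C.Er A * C.Er B - rr))) =
      C.tr (C.r u * (C.eE B * C.eE A * C.eE B * C.eE A)) -
        C.tr (C.r u * (C.eE S * C.eE B * star (C.eE S) * C.eE A)) := by
  rw [← C.tr_sub, ig]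
  congr 1
  simp only [r, eE, ← map_star, ← map_mul, ← map_sub, C.E_eq_toC_Er hA, C.E_eq_toC_Er hB]
  congr 1
  ext x
  simp only [ContinuousMap.mul_apply, ContinuousMap.sub_apply, toC_apply,
    ContinuousMap.star_apply, Complex.star_def, hrr]
  push_cast
  rw [← Complex.mul_conj]
  ring

lemma ig_normSq_eq (S : M) (rr : C(X, ℝ)) (hrr : ∀ x, rr x = Complex.normSq (C.E S x)) :
    C.ig rr = C.n2sq (C.eE S) := by
  rw [ig, n2sq, eE, ← map_star, ← map_mul, r]
  congr 2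
  ext x
  simp [hrr, Complex.normSq_eq_conj_mul_self]

lemma big_le (P Q : M) {L q δ : ℝ} (hL : 0 ≤ L) (hq : C.nm P ≤ q) (hQ : ‖Q‖ ≤ L)
    (lA : ‖star P * P‖ ≤ L) (lB : ‖Q * star Q‖ ≤ L) (lS : ‖Q * P‖ ≤ L) (lR : ‖P * Q‖ ≤ L)
    (leA : ‖C.eE (star P * P)‖ ≤ L) (leB : ‖C.eE (Q * star Q)‖ ≤ L)
    (leS : ‖C.eE (Q * P)‖ ≤ L) (leR : ‖C.eE (P * Q)‖ ≤ L)
    (neA : C.nm (C.eE (star P * P)) ≤ L * q) (nB : C.nm (Q * star Q) ≤ L * q)
    (nS : C.nm (Q * P) ≤ L * q)
    (dA : C.dfc (star P * P) ≤ δ) (dB : C.dfc (Q * star Q) ≤ δ) (dS : C.dfc (Q * P) ≤ δ)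
    (dR : C.dfc (P * Q) ≤ δ) (u rr : C(X, ℝ)) (hu : ‖C.r u‖ ≤ L ^ 2)
    (hrr : ∀ x, rr x = Complex.normSq (C.E (Q * P) x)) :
    C.ig (u * ((C.Er (star P * P) * C.Er (Q * star Q)) *
      (C.Er (star P * P) * C.Er (Q * star Q) - rr))) ≤ 12 * L ^ 5 * δ * q := by
  have hq0 : 0 ≤ q := (C.nm_nonneg _).trans hq
  have hδ0 : 0 ≤ δ := (C.nm_nonneg _).trans dR
  rw [C.quartic_eq (IsSelfAdjoint.star_mul_self P) (IsSelfAdjoint.mul_star_self Q) (Q * P) u rr hrr]
  set U := C.r u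
  have f3 := C.swap_le U P Q hL hQ lR leR hq dR
  set A := star P * P
  set B := Q * star Q
  set S := Q * P
  have sdA : C.nm (C.eE A - A) ≤ δ := by rw [C.nm_sub_comm]; exact dA
  have sdB : C.nm (C.eE B - B) ≤ δ := by rw [C.nm_sub_comm]; exact dB
  have sdS : C.nm (C.eE S - S) ≤ δ := by rw [C.nm_sub_comm]; exact dS
  have f1 := C.four_le U (L := L) (q := q) (δ := δ) (X1 := C.eE B) (X2 := C.eE A)
    (X3 := C.eE B) (X4 := C.eE A) (Y1 := B) (Y2 := A) (Y3 := B) (Y4 := A) hL leA leB lB lA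
    neA nB sdB sdA sdB sdA
  have f2 := C.four_le U (L := L) (q := q) (δ := δ) (X1 := C.eE S) (X2 := C.eE B)
    (X3 := star (C.eE S)) (X4 := C.eE A) (Y1 := S) (Y2 := B) (Y3 := star S) (Y4 := A) hL leB
    (by rwa [norm_star]) lS lB neA (by rwa [C.nm_star]) sdS sdB
    (by rwa [← star_sub, C.nm_star]) sdA
  have hu4 : 4 * ‖U‖ * L ^ 3 * δ * q ≤ 4 * L ^ 5 * δ * q := by
    have := mul_le_mul_of_nonneg_right hu (show 0 ≤ 4 * L ^ 3 * δ * q by positivity)
    linarith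
  linarith [(abs_le.1 f1).2, (abs_le.1 f2).1, (abs_le.1 f3).2]

lemma core_ineq (P Q : M) {L t : ℝ} (hL1 : 1 ≤ L) (ht : 0 < t)
    (hP : ‖P‖ ≤ L) (hQ : ‖Q‖ ≤ L) (h2 : (1 + ‖C.E‖) * (‖P‖ + ‖Q‖) ^ 2 ≤ L) :
    C.ig (C.Er (star P * P) * C.Er (Q * star Q)) - C.ig (C.Er (star Q * Q) * C.Er (P * star P)) ≤
      (12 * L ^ 5 / t ^ 2 + 4 * L) * C.six P Q * (C.nm P + C.nm Q) +
        Real.sqrt t / 2 * (C.n2sq P + C.n2sq Q) := by
  have hL : 0 ≤ L := zero_le_one.trans hL1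
  set q := C.nm P + C.nm Q with hq
  have qP : C.nm P ≤ q := le_add_of_nonneg_right (C.nm_nonneg _)
  have qQ : C.nm Q ≤ q := le_add_of_nonneg_left (C.nm_nonneg _)
  have qQs : C.nm (star Q) ≤ q := by rwa [C.nm_star]
  have qPs : C.nm (star P) ≤ q := by rwa [C.nm_star]
  set m := ‖P‖ + ‖Q‖ with hm
  have mP : ‖P‖ ≤ m := le_add_of_nonneg_right (norm_nonneg _)
  have mQ : ‖Q‖ ≤ m := le_add_of_nonneg_left (norm_nonneg _)
  have mPs : ‖star P‖ ≤ m := by rwa [norm_star]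
  have mQs : ‖star Q‖ ≤ m := by rwa [norm_star]
  obtain ⟨lA, leA, -, neA⟩ := C.mul_bounds hL mPs mP (by rwa [norm_star]) h2 qP
  obtain ⟨lB, leB, nB, -⟩ := C.mul_bounds hL mQ mQs hQ h2 qQs
  obtain ⟨lS, leS, nS, neS⟩ := C.mul_bounds hL mQ mP hQ h2 qP
  obtain ⟨lR, leR, -, -⟩ := C.mul_bounds hL mP mQ hP h2 qQ
  obtain ⟨-, -, -, neD⟩ := C.mul_bounds hL mQs mQ (by rwa [norm_star]) h2 qQ
  obtain ⟨-, -, nG, -⟩ := C.mul_bounds hL mP mPs hP h2 qPs
  obtain ⟨dA, dB, dS, dR, dD, dG⟩ := C.dfc_le_six P Q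
  set δ := C.six P Q
  have sA : IsSelfAdjoint (star P * P) := IsSelfAdjoint.star_mul_self P
  have sB : IsSelfAdjoint (Q * star Q) := IsSelfAdjoint.mul_star_self Q
  let rr : C(X, ℝ) := ⟨fun x => Complex.normSq (C.E (Q * P) x), by fun_prop⟩
  set al := C.Er (star P * P)
  set be := C.Er (Q * star Q)
  have hal : ∀ x, 0 ≤ al x := ContinuousMap.le_def.1 (C.Er_nonneg (star_mul_self_nonneg P))
  have hbe : ∀ x, 0 ≤ be x := ContinuousMap.le_def.1 (C.Er_nonneg (mul_star_self_nonneg Q))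
  have hrr : ∀ x, 0 ≤ rr x := fun x => Complex.normSq_nonneg _
  have hU : ‖C.r ((al * be - rr) ⊔ 0)‖ ≤ L ^ 2 := by
    refine (C.norm_r_le _).trans ((ContinuousMap.norm_le _ (by positivity)).2 fun x => ?_)
    have h1 : al x ≤ L := (le_abs_self _).trans
      (((al).norm_coe_le_norm x).trans ((C.norm_Er_le sA).trans lA))
    have h2 : be x ≤ L := (le_abs_self _).trans
      (((be).norm_coe_le_norm x).trans ((C.norm_Er_le sB).trans lB))
    simp only [ContinuousMap.sup_apply, ContinuousMap.sub_apply, ContinuousMap.mul_apply,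
      ContinuousMap.zero_apply, Real.norm_eq_abs, abs_of_nonneg (le_sup_right : (0 : ℝ) ≤ _ ⊔ 0)]
    refine sup_le ?_ (by positivity)
    nlinarith [hrr x, mul_le_mul h1 h2 (hbe x) hL]
  have hbig := C.big_le P Q hL qP hQ lA lB lS lR leA leB leS leR neA nB nS dA dB dS dR
    ((al * be - rr) ⊔ 0) rr hU (fun x => rfl)
  have h1 := C.ig_mono (excess_le al be rr ht hal hbe hrr)
  rw [C.ig_sub, C.ig_add, C.ig_smul, C.ig_smul, C.ig_add] at h1
  have ea : C.ig al = C.n2sq P := by rw [C.ig_Er sA]; rfl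
  have eb : C.ig be = C.n2sq Q := by rw [C.ig_Er sB, ← C.n2sq_star Q, n2sq, star_star]
  have g2 := C.abs_tr_replace_le (star Q * Q) (P * star P) (C.eE (star Q * Q))
    (C.eE (P * star P)) (δ := δ) nG neD dD dG
  have g1 := C.abs_tr_replace_le (star (C.eE (Q * P))) (C.eE (Q * P)) (star (Q * P)) (Q * P) (δ := δ) neS
    (by rwa [C.nm_star]) (by rw [← star_sub, C.nm_star, C.nm_sub_comm]; exact dS)
    (by rw [C.nm_sub_comm]; exact dS)
  have ew : C.tr (C.eE (star Q * Q) * C.eE (P * star P)) =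
      C.ig (C.Er (star Q * Q) * C.Er (P * star P)) := by
    rw [C.eE_of_selfAdjoint (IsSelfAdjoint.star_mul_self Q),
      C.eE_of_selfAdjoint (IsSelfAdjoint.mul_star_self P), ig, C.r_mul]
  have g1' : C.n2sq (C.eE (Q * P)) - C.n2sq (Q * P) ≤ 2 * L * δ * q := (abs_le.1 g1).2
  have er := C.ig_normSq_eq (Q * P) rr fun x => rfl
  rw [ea, eb, er] at h1
  rw [← ew]
  rw [C.n2sq_mul_eq] at g1'
  have h2' := mul_le_mul_of_nonneg_left hbig (show 0 ≤ 1 / t ^ 2 by positivity)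
  have e5 : (12 * L ^ 5 / t ^ 2 + 4 * L) * δ * q =
      1 / t ^ 2 * (12 * L ^ 5 * δ * q) + 4 * L * δ * q := by ring
  linarith [(abs_le.1 g2).2]

/-- The sum over one partition of the two functionals compared by `tendsto_symm`. -/
noncomputable def symSum (a b : M) (π : DiscreteQuotient X) : ℝ :=
  ∑ i : π, C.ig (C.K (star a) (cellFn π i) * C.K b (cellFn π i))

lemma sum_ig_cells (π : DiscreteQuotient X) (x y : M) :
    ∑ j : π, C.ig (C.Er (C.e π j * x * C.e π j) * C.Er (C.e π j * y * C.e π j)) =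
      C.ig (C.Er x * C.Er y) := by
  classical
  rw [← C.ig_sum]
  congr 1
  simp only [e, C.Er_bimod]
  calc ∑ j : π, cellFn π j * C.Er x * cellFn π j * (cellFn π j * C.Er y * cellFn π j)
      = ∑ j : π, cellFn π j * (C.Er x * C.Er y) := Finset.sum_congr rfl fun j _ => by
        have h := cellFn_mul_cellFn π j j
        rw [if_pos rfl] at h
        rw [show cellFn π j * C.Er x * cellFn π j * (cellFn π j * C.Er y * cellFn π j) =
          (cellFn π j * cellFn π j) * (cellFn π j * cellFn π j) * (C.Er x * C.Er y) by ring,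
          h, h]
    _ = _ := by rw [← Finset.sum_mul, sum_cellFn, one_mul]

/-- The matrix entry of `x` between two cells. -/
noncomputable def blk (π : DiscreteQuotient X) (x : M) (i j : π) : M := C.e π i * x * C.e π j

lemma norm_blk_le (π : DiscreteQuotient X) (x : M) (i j : π) : ‖C.blk π x i j‖ ≤ ‖x‖ := by
  have ne1 : ∀ k : π, ‖C.e π k‖ ≤ 1 := fun k =>
    (C.norm_r_le _).trans ((ContinuousMap.norm_le _ zero_le_one).2 fun y => by
      rcases cellFn_zero_or_one π k y with h | h <;> simp [h])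
  exact (norm_mul_le _ _).trans ((mul_le_of_le_one_right (norm_nonneg _) (ne1 j)).trans
    ((norm_mul_le _ _).trans (mul_le_of_le_one_left (norm_nonneg _) (ne1 i))))

lemma star_blk (π : DiscreteQuotient X) (x : M) (i j : π) :
    star (C.blk π x i j) = C.blk π (star x) j i := by
  simp only [blk, star_mul, (C.e_isSelfAdjoint π _).star_eq, mul_assoc]

lemma blk_mul_blk (π : DiscreteQuotient X) (x y : M) (i j k : π) :
    C.blk π x i j * C.blk π y j k = C.e π i * (x * C.e π j * y) * C.e π k := by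
  simp only [blk, mul_assoc]
  rw [← mul_assoc (C.e π j) (C.e π j), C.e_mul_self]

lemma sum_n2sq_blk (π : DiscreteQuotient X) (x : M) :
    ∑ p : π × π, C.n2sq (C.blk π x p.1 p.2) = C.n2sq x := by
  have e1 : ∀ i j, C.n2sq (C.blk π x i j) = C.tr (star x * C.e π i * x * C.e π j) := by
    intro i j
    rw [n2sq, C.star_blk, C.blk_mul_blk, C.tr_comm, ← mul_assoc, C.e_mul_self, C.tr_comm]
  rw [Fintype.sum_prod_type]
  simp only [e1, ← C.tr_sum, ← Finset.mul_sum, C.sum_e, mul_one, ← Finset.sum_mul]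
  rfl

lemma six_sq_le (P Q : M) :
    C.six P Q ^ 2 ≤ 6 * (C.dfc (star P * P) ^ 2 + C.dfc (Q * star Q) ^ 2 + C.dfc (Q * P) ^ 2 +
      C.dfc (P * Q) ^ 2 + C.dfc (star Q * Q) ^ 2 + C.dfc (P * star P) ^ 2) := by
  have h : ∀ a b c d e f : ℝ, (a + b + c + d + e + f) ^ 2 ≤
      6 * (a ^ 2 + b ^ 2 + c ^ 2 + d ^ 2 + e ^ 2 + f ^ 2) := fun a b c d e f => by
    nlinarith [sq_nonneg (a - b), sq_nonneg (a - c), sq_nonneg (a - d), sq_nonneg (a - e),
      sq_nonneg (a - f), sq_nonneg (b - c), sq_nonneg (b - d), sq_nonneg (b - e),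
      sq_nonneg (b - f), sq_nonneg (c - d), sq_nonneg (c - e), sq_nonneg (c - f),
      sq_nonneg (d - e), sq_nonneg (d - f), sq_nonneg (e - f)]
  exact h _ _ _ _ _ _

lemma dfc_blk_sq (π : DiscreteQuotient X) (x y : M) (i j : π) :
    C.dfc (C.blk π x j i * C.blk π y i j) ^ 2 =
      C.n2sq (C.e π j * (x * C.e π i * y) * C.e π j -
        C.eE (C.e π j * (x * C.e π i * y) * C.e π j)) := by
  rw [C.blk_mul_blk, dfc, nm, Real.sq_sqrt (C.n2sq_nonneg' _)]

lemma sum_dfc_first (π : DiscreteQuotient X) (x y : M) :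
    ∑ p : π × π, C.dfc (C.blk π x p.2 p.1 * C.blk π y p.1 p.2) ^ 2 =
      ∑ i : π, C.n2sq (C.dev π (x * C.e π i * y)) := by
  rw [Fintype.sum_prod_type]
  refine Finset.sum_congr rfl fun i _ => ?_
  rw [← C.sum_n2sq_cell π (x * C.e π i * y)]
  exact Finset.sum_congr rfl fun j _ => C.dfc_blk_sq π x y i j

lemma sum_dfc_second (π : DiscreteQuotient X) (x y : M) :
    ∑ p : π × π, C.dfc (C.blk π x p.1 p.2 * C.blk π y p.2 p.1) ^ 2 =
      ∑ i : π, C.n2sq (C.dev π (x * C.e π i * y)) := by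
  rw [← C.sum_dfc_first π x y, ← (Equiv.prodComm π π).sum_comp]
  rfl

/-- The six deviation sums. -/
noncomputable def devSix (a b : M) (π : DiscreteQuotient X) : ℝ :=
  (∑ i : π, C.n2sq (C.dev π (star a * C.e π i * a))) +
    (∑ i : π, C.n2sq (C.dev π (b * C.e π i * star b))) +
    (∑ i : π, C.n2sq (C.dev π (b * C.e π i * a))) +
    (∑ i : π, C.n2sq (C.dev π (a * C.e π i * b))) +
    (∑ i : π, C.n2sq (C.dev π (star b * C.e π i * b))) +
    (∑ i : π, C.n2sq (C.dev π (a * C.e π i * star a)))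

lemma sum_six_sq_le (a b : M) (π : DiscreteQuotient X) :
    ∑ p : π × π, C.six (C.blk π a p.1 p.2) (C.blk π b p.2 p.1) ^ 2 ≤ 6 * C.devSix a b π := by
  refine (Finset.sum_le_sum fun p _ => C.six_sq_le _ _).trans ?_
  simp only [devSix, ← Finset.mul_sum, Finset.sum_add_distrib, C.star_blk, C.sum_dfc_first,
    C.sum_dfc_second, le_refl]

lemma symSum_eq (a b : M) (π : DiscreteQuotient X) :
    C.symSum a b π - C.symSum b a π = ∑ p : π × π,
      (C.ig (C.Er (star (C.blk π a p.1 p.2) * C.blk π a p.1 p.2) *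
          C.Er (C.blk π b p.2 p.1 * star (C.blk π b p.2 p.1))) -
        C.ig (C.Er (star (C.blk π b p.2 p.1) * C.blk π b p.2 p.1) *
          C.Er (C.blk π a p.1 p.2 * star (C.blk π a p.1 p.2)))) := by
  simp only [C.star_blk, C.blk_mul_blk, Finset.sum_sub_distrib]
  rw [Fintype.sum_prod_type, Fintype.sum_prod_type]
  conv_rhs => arg 2; rw [Finset.sum_comm]
  simp only [C.sum_ig_cells]
  simp only [symSum, K, e, star_star]

lemma symSum_sub_le (a b : M) (π : DiscreteQuotient X) {L t : ℝ} (hL : 1 ≤ L) (ht : 0 < t)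
    (hab : (1 + ‖C.E‖) * (1 + ‖a‖ + ‖b‖) ^ 2 ≤ L) :
    C.symSum a b π - C.symSum b a π ≤
      (12 * L ^ 5 / t ^ 2 + 4 * L) *
        (Real.sqrt (6 * C.devSix a b π) * Real.sqrt (2 * (C.n2sq a + C.n2sq b))) +
        Real.sqrt t / 2 * (C.n2sq a + C.n2sq b) := by
  have hL0 : 0 ≤ L := zero_le_one.trans hL
  set P : π × π → M := fun p => C.blk π a p.1 p.2 with hP
  set Q : π × π → M := fun p => C.blk π b p.2 p.1 with hQ
  have hone : (1 : ℝ) + ‖a‖ + ‖b‖ ≤ (1 + ‖a‖ + ‖b‖) ^ 2 := by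
    rw [sq]; nlinarith [norm_nonneg a, norm_nonneg b]
  have hE : 1 + ‖a‖ + ‖b‖ ≤ L :=
    le_trans (hone.trans (le_mul_of_one_le_left (sq_nonneg _)
      (le_add_of_nonneg_right (norm_nonneg C.E)))) hab
  have hc : ∀ p, C.ig (C.Er (star (P p) * P p) * C.Er (Q p * star (Q p))) -
      C.ig (C.Er (star (Q p) * Q p) * C.Er (P p * star (P p))) ≤
        (12 * L ^ 5 / t ^ 2 + 4 * L) * (C.six (P p) (Q p) * (C.nm (P p) + C.nm (Q p))) +
          Real.sqrt t / 2 * (C.n2sq (P p) + C.n2sq (Q p)) := by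
    intro p
    have h1 : ‖P p‖ ≤ ‖a‖ := C.norm_blk_le π a _ _
    have h2 : ‖Q p‖ ≤ ‖b‖ := C.norm_blk_le π b _ _
    rw [← mul_assoc]
    refine C.core_ineq _ _ hL ht ?_ ?_ (le_trans (mul_le_mul_of_nonneg_left ?_ (by positivity)) hab)
    · linarith [norm_nonneg b]
    · linarith [norm_nonneg a]
    · exact pow_le_pow_left₀ (by positivity) (by linarith) 2
  rw [C.symSum_eq]
  refine (Finset.sum_le_sum fun p _ => hc p).trans ?_
  have hPsum : ∑ p, C.n2sq (P p) = C.n2sq a := C.sum_n2sq_blk π a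
  have hQsum : ∑ p, C.n2sq (Q p) = C.n2sq b := by
    rw [← C.sum_n2sq_blk π b, ← (Equiv.prodComm π π).sum_comp]
    rfl
  rw [Finset.sum_add_distrib, ← Finset.mul_sum, ← Finset.mul_sum, Finset.sum_add_distrib,
    hPsum, hQsum]
  refine add_le_add (mul_le_mul_of_nonneg_left ?_ (by positivity)) le_rfl
  refine (Real.sum_mul_le_sqrt_mul_sqrt _ _ _).trans
    (mul_le_mul (Real.sqrt_le_sqrt (C.sum_six_sq_le a b π)) ?_ (Real.sqrt_nonneg _)
      (Real.sqrt_nonneg _))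
  refine Real.sqrt_le_sqrt ?_
  refine (Finset.sum_le_sum fun p _ => add_sq_le).trans ?_
  simp only [nm, Real.sq_sqrt (C.n2sq_nonneg' _), ← Finset.mul_sum, Finset.sum_add_distrib,
    hPsum, hQsum, le_refl]

lemma eventually_symSum_sub_lt (a b : M) {ε : ℝ} (hε : 0 < ε) :
    ∀ᶠ π : DiscreteQuotient X in atBot, C.symSum a b π - C.symSum b a π < ε := by
  set L := (1 + ‖C.E‖) * (1 + ‖a‖ + ‖b‖) ^ 2
  have hL : 1 ≤ L := by
    have h1 : (1 : ℝ) ≤ 1 + ‖C.E‖ := le_add_of_nonneg_right (norm_nonneg _)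
    have h2 : (1 : ℝ) ≤ (1 + ‖a‖ + ‖b‖) ^ 2 :=
      one_le_pow₀ (by linarith [norm_nonneg a, norm_nonneg b])
    calc (1 : ℝ) = 1 * 1 := (mul_one 1).symm
      _ ≤ _ := mul_le_mul h1 h2 zero_le_one (by linarith)
  set N := C.n2sq a + C.n2sq b
  have hN : 0 ≤ N := add_nonneg (C.n2sq_nonneg' a) (C.n2sq_nonneg' b)
  set t := (ε / (N + 1)) ^ 2 with ht
  have ht0 : 0 < t := by positivity
  have hlast : Real.sqrt t / 2 * N ≤ ε / 2 := by
    rw [ht, Real.sqrt_sq (by positivity), div_div, div_mul_eq_mul_div, div_le_div_iff₀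
      (by positivity) two_pos]
    nlinarith
  have h := ((((((C.tendsto_dev_diag (star a) a).add (C.tendsto_dev_diag b (star b))).add
    (C.tendsto_dev_diag b a)).add (C.tendsto_dev_diag a b)).add
    (C.tendsto_dev_diag (star b) b)).add (C.tendsto_dev_diag a (star a))).const_mul (6 : ℝ)
  have h2 := (((Real.continuous_sqrt.tendsto _).comp h).mul_const (Real.sqrt (2 * N))).const_mul
    (12 * L ^ 5 / t ^ 2 + 4 * L)
  simp only [add_zero, mul_zero, Real.sqrt_zero, zero_mul] at h2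
  filter_upwards [h2.eventually (Iio_mem_nhds (show (0 : ℝ) < ε / 2 by positivity))] with π hπ
  refine lt_of_le_of_lt (C.symSum_sub_le a b π hL ht0 le_rfl) ?_
  simp only [devSix]
  simp only [Function.comp_apply] at hπ
  linarith

theorem tendsto_symm (a b : M) :
    Tendsto (fun π : DiscreteQuotient X => ∑ i : π,
      (C.ig (C.K (star a) (cellFn π i) * C.K b (cellFn π i))
        - C.ig (C.K (star b) (cellFn π i) * C.K a (cellFn π i))))
      atBot (𝓝 0) := by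
  refine Metric.tendsto_nhds.2 fun ε hε => ?_
  filter_upwards [C.eventually_symSum_sub_lt a b hε, C.eventually_symSum_sub_lt b a hε] with π h1 h2
  rw [Real.dist_eq, sub_zero, Finset.sum_sub_distrib]
  exact abs_lt.2 ⟨by simp only [symSum] at h2; linarith, h1⟩

end Vale.Agent.P078.Tracial.Core
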