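import Vale.Agent.P078.Tracial.StepDefs

/-! An approximate minimiser in the resolvent is approximately stationary. -/

namespace Vale.Agent.P078.Tracial.Core

set_option linter.unusedSectionVars false

open Filter Topology ComplexOrder Scalar

variable {M X : Type*} [CStarAlgebra M] [PartialOrder M] [StarOrderedRing M]
variable [TopologicalSpace X] [CompactSpace X] [T2Space X] [TotallyDisconnectedSpace X]
variable (C : Core M X) {p : M} {σ l ν : ℝ}

/-- Second order bound for the weight in the compressed resolvent. -/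
lemma φ_le_quad {b γ : ℝ} (γ' : ℝ) (hb : -b1 ≤ b) :
    φ b γ' ≤ φ b γ + φγ b γ * (γ' - γ) + 2 * (γ' - γ) ^ 2 := by
  rw [φ, φ, φγ, max_arg_eq γ hb, max_arg_eq γ' hb]
  have hs := half_le_arg γ hb
  have e : arg b γ' = arg b γ + (2 * γ * (γ' - γ) + (γ' - γ) ^ 2) := by unfold arg; ring
  have hq : 7 / 10 ≤ √(arg b γ') := sqrt_half_gt (half_le_arg γ' hb)
  have hq2 : √(arg b γ') ^ 2 = arg b γ' := Real.sq_sqrt (by linarith [half_le_arg γ' hb])
  set s := arg b γ
  set p := √s with hp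
  set q := √(arg b γ')
  have hp1 : 7 / 10 ≤ p := sqrt_half_gt hs
  have hp2 : p ^ 2 = s := Real.sq_sqrt (by linarith)
  have hp0 : 0 < p := by linarith
  have hq0 : 0 < q := by linarith
  have hF : F' s ≤ 2 := by
    unfold F' B0
    rw [← hp, div_le_iff₀ (by positivity)]
    nlinarith [pow_le_pow_left₀ (by norm_num) hp1 3]
  have conc : F (arg b γ') ≤ F s + F' s * (arg b γ' - s) := by
    unfold F F'
    rw [← hp, show √(arg b γ') = q from rfl, ← hq2, ← hp2, sub_add]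
    refine sub_le_sub_left ?_ _
    have key : B0 / q - (B0 / p - B0 / (2 * p ^ 3) * (q ^ 2 - p ^ 2))
        = B0 * (q - p) ^ 2 * (q + 2 * p) / (2 * p ^ 3 * q) := by field_simp; ring
    have : 0 ≤ B0 * (q - p) ^ 2 * (q + 2 * p) / (2 * p ^ 3 * q) := by
      unfold B0; positivity
    linarith
  have h2 := mul_le_mul_of_nonneg_right hF (sq_nonneg (γ' - γ))
  rw [e] at conc ⊢
  linarith

omit [TopologicalSpace X] [CompactSpace X] [T2Space X] [TotallyDisconnectedSpace X] in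
lemma norm_le_of_le_algebraMap {a : M} {c : ℝ} (hc : 0 ≤ c) (ha : 0 ≤ a)
    (h : a ≤ algebraMap ℝ M c) : ‖a‖ ≤ c :=
  (CStarAlgebra.norm_le_iff_le_algebraMap a hc ha).2 h

lemma norm_p_le_one (hP : Par p σ l ν) : ‖p‖ ≤ 1 := by
  have hs : IsSelfAdjoint p := IsSelfAdjoint.of_nonneg hP.p_nonneg
  have h : ‖p * p‖ ≤ 1 := (CStarAlgebra.norm_le_one_iff_of_nonneg (p * p) (by
    have := star_mul_self_nonneg p
    rwa [hs.star_eq] at this)).2 hP.pp_le
  rw [hs.norm_mul_self] at h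
  exact (pow_le_one_iff_of_nonneg (norm_nonneg p) two_ne_zero).1 h

lemma norm_conj_p_le (hP : Par p σ l ν) (z : M) : ‖p * z * p‖ ≤ ‖z‖ := by
  have h := norm_p_le_one hP
  calc ‖p * z * p‖ ≤ ‖p‖ * ‖z‖ * ‖p‖ := norm_mul₃_le
    _ ≤ 1 * ‖z‖ * 1 := by gcongr
    _ = ‖z‖ := by ring

theorem stationary (hP : Par p σ l ν) {a e b : C(X, ℝ)} (h : ColOk a e b) {G : Mˣ}
    (hG : 0 ≤ (G : M)) {R : ℝ} (hR : 1 ≤ R) (hσR : 1 / σ ≤ R)
    (hGR : (G : M) ≤ algebraMap ℝ M R) {Z : M} (hZ : 0 ≤ Z) (hZR : ‖Z‖ ≤ R)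
    {t ζ : ℝ} (ht : 0 < t) (ht1 : t ≤ 1)
    (hmin : ∀ G' : Mˣ, 0 ≤ (G' : M) →
      C.pot p σ l ν a e b G ≤ C.pot p σ l ν a e b G' + ζ) :
    C.ig (a * φγc b (C.gam p G) * C.dens p σ l a e b G
        * C.Er (p * ((G : M) * Z * G) * p))
      ≤ C.tr (C.dmat p σ l a e b G * Z) + ζ / t + 200 * R ^ 13 * t := by
  have hR0 : 0 ≤ R := by linarith
  have hp := hP.p_nonneg
  have hpsa : IsSelfAdjoint p := IsSelfAdjoint.of_nonneg hp
  have hGn : ‖(G : M)‖ ≤ R := norm_le_of_le_algebraMap hR0 hG hGR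
  -- the moved resolvent
  have htZ : 0 ≤ t • Z := smul_nonneg ht.le hZ
  have hGi := units_inv_nonneg hG
  have hsum : (↑G⁻¹ : M) ≤ ↑G⁻¹ + t • Z := le_add_of_nonneg_right htZ
  have hu : IsUnit ((↑G⁻¹ : M) + t • Z) :=
    CStarAlgebra.isUnit_of_le (↑G⁻¹ : M) hsum (G⁻¹.isUnit.isStrictlyPositive hGi)
  set G' : Mˣ := hu.unit⁻¹ with hG'def
  have hi : (↑G'⁻¹ : M) = ↑G⁻¹ + t • Z := by rw [hG'def, inv_inv, IsUnit.unit_spec]
  have hG' : 0 ≤ (G' : M) :=
    units_inv_nonneg (G := hu.unit) (by rw [IsUnit.unit_spec]; exact add_nonneg hGi htZ)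
  have hle : (G' : M) ≤ G := by
    have h' := CStarAlgebra.inv_le_inv (a := G⁻¹) (b := G'⁻¹) hGi (by rw [hi]; exact hsum)
    rwa [inv_inv, inv_inv] at h'
  have hG'n : ‖(G' : M)‖ ≤ R :=
    (CStarAlgebra.norm_le_norm_of_nonneg_of_le hG' hle).trans hGn
  have d1 : (G : M) - G' = (G : M) * (t • Z) * G' := by
    have : (G : M) = G * ((↑G'⁻¹ : M) * G') := by rw [Units.inv_mul, mul_one]
    nth_rewrite 1 [this]
    rw [hi, add_mul, mul_add, ← mul_assoc, Units.mul_inv, one_mul, ← mul_assoc, add_sub_cancel_left]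
  have d2 : (G : M) - G' = (G' : M) * (t • Z) * G := by
    have : (G : M) = (G' : M) * (↑G'⁻¹ : M) * G := by rw [Units.mul_inv, one_mul]
    nth_rewrite 1 [this]
    rw [hi, mul_add, add_mul, mul_assoc, Units.inv_mul, mul_one, add_sub_cancel_left]
  set Y := (G : M) * Z * G with hY
  have hY0 : 0 ≤ Y := conjugate_nonneg_of_nonneg hZ hG
  set Dg := (G' : M) - G + t • Y with hDg
  have hDg' : Dg = (t ^ 2) • ((G : M) * Z * G' * Z * G) := by
    have e1 : Dg = (G : M) * (t • Z) * ((G : M) - G') := by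
      rw [mul_sub, ← d1, hDg, hY, mul_smul_comm, smul_mul_assoc]; abel
    rw [e1, d2]
    simp only [mul_smul_comm, smul_mul_assoc, smul_smul, mul_assoc, sq]
  have hDg0 : 0 ≤ Dg := by
    rw [hDg']
    refine smul_nonneg (sq_nonneg t) ?_
    have := star_left_conjugate_le_conjugate hG' (Z * G)
    rw [star_mul, (IsSelfAdjoint.of_nonneg hG).star_eq, (IsSelfAdjoint.of_nonneg hZ).star_eq] at this
    simpa [mul_assoc] using this
  have hDgn : ‖Dg‖ ≤ t ^ 2 * R ^ 5 := by
    rw [hDg', norm_smul, Real.norm_of_nonneg (sq_nonneg t)]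
    refine mul_le_mul_of_nonneg_left ?_ (sq_nonneg t)
    calc ‖(G : M) * Z * G' * Z * G‖ ≤ ‖(G : M)‖ * ‖Z‖ * ‖(G' : M)‖ * ‖Z‖ * ‖(G : M)‖ :=
          (norm_mul_le _ _).trans (mul_le_mul_of_nonneg_right ((norm_mul_le _ _).trans
            (mul_le_mul_of_nonneg_right norm_mul₃_le (norm_nonneg _))) (norm_nonneg _))
      _ ≤ R * R * R * R * R := by gcongr
      _ = R ^ 5 := by ring
  have hYn : ‖Y‖ ≤ R ^ 3 :=
    calc ‖(G : M) * Z * G‖ ≤ ‖(G : M)‖ * ‖Z‖ * ‖(G : M)‖ := norm_mul₃_le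
      _ ≤ R * R * R := by gcongr
      _ = R ^ 3 := by ring
  -- the compressed resolvents
  set γ := C.gam p G with hγ
  set γ' := C.gam p G' with hγ'
  set Q := C.Er (p * Y * p) with hQ
  set dd := C.Er (p * Dg * p) with hdd
  have hDsa : IsSelfAdjoint (p * Dg * p) := (IsSelfAdjoint.of_nonneg hDg0).conjugate_self hpsa
  have hYsa : IsSelfAdjoint (p * Y * p) := (IsSelfAdjoint.of_nonneg hY0).conjugate_self hpsa
  have hQn : ∀ x, Q x ≤ R ^ 3 := fun x =>
    ((le_abs_self _).trans ((C.Er (p * Y * p)).norm_coe_le_norm x)).trans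
      (((C.norm_Er_le hYsa).trans (norm_conj_p_le hP _)).trans hYn)
  have hddn : ∀ x, dd x ≤ t ^ 2 * R ^ 5 := fun x =>
    ((le_abs_self _).trans ((C.Er (p * Dg * p)).norm_coe_le_norm x)).trans
      (((C.norm_Er_le hDsa).trans (norm_conj_p_le hP _)).trans hDgn)
  have hQ0 : ∀ x, 0 ≤ Q x := fun x =>
    ContinuousMap.le_def.1 (C.Er_nonneg (conjugate_nonneg_of_nonneg hY0 hp)) x
  have hdd0 : ∀ x, 0 ≤ dd x := fun x =>
    ContinuousMap.le_def.1 (C.Er_nonneg (conjugate_nonneg_of_nonneg hDg0 hp)) x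
  have hΔ : ∀ x, γ' x - γ x = -(t * Q x) + dd x := by
    intro x
    have : (G' : M) = G - t • Y + Dg := by rw [hDg]; abel
    rw [hγ', gam, this, mul_add, add_mul, mul_sub, sub_mul, mul_smul_comm, smul_mul_assoc,
      C.Er_add, C.Er_sub, C.Er_smul]
    simp [hγ, gam, hQ, hdd]
    ring
  have hγle : ∀ x, γ' x ≤ γ x := ContinuousMap.le_def.1 (C.gam_mono hp hle)
  have hγ0 : ∀ x, 0 ≤ γ x := ContinuousMap.le_def.1 (C.gam_nonneg hp hG)
  have hγn : ∀ x, γ x ≤ R := fun x =>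
    ((le_abs_self _).trans ((C.Er (p * (G : M) * p)).norm_coe_le_norm x)).trans
      (((C.norm_Er_le ((IsSelfAdjoint.of_nonneg hG).conjugate_self hpsa)).trans
        (norm_conj_p_le hP _)).trans hGn)
  have hφγ0 : ∀ x, 0 ≤ φγ (b x) (γ x) := fun x =>
    mul_nonneg (mul_nonneg two_pos.le (hγ0 x)) (F'_pos (le_max_right _ _)).le
  have hφγn : ∀ x, φγ (b x) (γ x) ≤ 4 * R := fun x => by
    have hF : F' (max (b x / α + γ x ^ 2 + c0) (1 / 2)) ≤ 2 := by
      have h7 := sqrt_half_gt (le_max_right (b x / α + γ x ^ 2 + c0) (1 / 2))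
      unfold F' B0
      rw [div_le_iff₀ (by positivity)]
      nlinarith [pow_le_pow_left₀ (by norm_num) h7 3]
    unfold φγ
    calc 2 * γ x * F' (max (b x / α + γ x ^ 2 + c0) (1 / 2)) ≤ 2 * R * 2 :=
          mul_le_mul (by linarith [hγn x]) hF (F'_pos (le_max_right _ _)).le (by linarith)
      _ = 4 * R := by ring
  -- the weights
  set hh := a * φγc b γ * Q with hhh
  have hh0 : ∀ x, 0 ≤ hh x := fun x => by
    have := mul_nonneg (hφγ0 x) (hQ0 x)
    rcases h.a_01 x with h' | h' <;> simp [hhh, h', this]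
  have hhn : ∀ x, hh x ≤ 4 * R ^ 4 := fun x => by
    have := mul_le_mul (hφγn x) (hQn x) (hQ0 x) (by linarith)
    rcases h.a_01 x with h' | h'
    · simp [hhh, h']; positivity
    · simp only [hhh, ContinuousMap.mul_apply, φγc_apply, h', one_mul]; linarith
  set c := 6 * t ^ 2 * R ^ 6 with hc
  have hw : C.wt p a e b G' ≤ C.wt p a e b G - t • hh + ContinuousMap.const X c := by
    refine ContinuousMap.le_def.2 fun x => ?_
    rcases h.a_01 x with h' | h'
    · simp [wt, hhh, h', hc]; positivity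
    · simp only [wt, hhh, ContinuousMap.add_apply, ContinuousMap.sub_apply, ContinuousMap.mul_apply,
        ContinuousMap.smul_apply, ContinuousMap.const_apply, φc_apply, φγc_apply, h', one_mul,
        smul_eq_mul, ← hγ, ← hγ']
      have hq := φ_le_quad (γ := γ x) (γ' x) (h.a_b x h')
      have h1 : φγ (b x) (γ x) * (γ' x - γ x) ≤
          -(t * (φγ (b x) (γ x) * Q x)) + 4 * R * (t ^ 2 * R ^ 5) := by
        rw [hΔ x, mul_add]
        have := mul_le_mul (hφγn x) (hddn x) (hdd0 x) (by linarith)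
        linarith
      have h2 : (γ' x - γ x) ^ 2 ≤ (t * R ^ 3) ^ 2 := by
        refine sq_le_sq' ?_ ?_
        · linarith [hΔ x, hdd0 x, mul_le_mul_of_nonneg_left (hQn x) ht.le]
        · linarith [hγle x, mul_nonneg ht.le (pow_nonneg hR0 3)]
      have e4 : 4 * R * (t ^ 2 * R ^ 5) + 2 * (t * R ^ 3) ^ 2 = c := by rw [hc]; ring
      linarith
  set W := p * C.r hh * p with hW
  set D := t • (Z - W) + algebraMap ℝ M c with hD
  have hc0 : 0 ≤ c := by positivity
  have hA := C.mat_isSelfAdjoint hp a e b hG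
  have hWsa : IsSelfAdjoint W := (C.r_isSelfAdjoint hh).conjugate_self hpsa
  have hDs : IsSelfAdjoint D :=
    ((IsSelfAdjoint.all t).smul ((IsSelfAdjoint.of_nonneg hZ).sub hWsa)).add
      (IsSelfAdjoint.algebraMap M (IsSelfAdjoint.all c))
  have hm : C.mat p a e b G' ≤ C.mat p a e b G + D := by
    have h1 : p * C.r (C.wt p a e b G') * p ≤
        p * C.r (C.wt p a e b G) * p - t • W + c • (p * p) := by
      refine (conjugate_le_conjugate_of_nonneg (C.r_mono hw) hp).trans_eq ?_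
      rw [C.r_add, C.r_sub, C.r_smul, C.r_const, Algebra.algebraMap_eq_smul_one]
      simp only [mul_add, add_mul, mul_sub, sub_mul, mul_smul_comm, smul_mul_assoc, mul_one, hW]
    have h2 : c • (p * p) ≤ algebraMap ℝ M c := by
      rw [Algebra.algebraMap_eq_smul_one]; exact smul_le_smul_of_nonneg_left hP.pp_le hc0
    calc C.mat p a e b G'
        ≤ (↑G⁻¹ + t • Z) + (p * C.r (C.wt p a e b G) * p - t • W + algebraMap ℝ M c) := by
          rw [mat, hi]; gcongr; exact h1.trans (add_le_add_right h2 _)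
      _ = C.mat p a e b G + D := by rw [mat, hD, smul_sub]; abel
  set A := C.mat p a e b G with hAdef
  have hk := C.klein_upper (L := 1 / σ) (f := f u0 σ l) (f' := f' u0 σ l) continuous_f
    (continuous_f' hP.σ_pos) (f_quad hP.σ_pos) hA (hA.add hDs)
  rw [add_sub_cancel_left] at hk
  have hmono := C.tr_f_mono (σ := σ) (l := l) hP.σ_pos hP.l_pos.le (hA.add hDs) hm
  have hdsa : IsSelfAdjoint (C.dmat p σ l a e b G) := cfc_predicate (R := ℝ) _ _
  have hlin : C.tr (cfc (f' u0 σ l) A * D) ≤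
      t * C.tr (C.dmat p σ l a e b G * Z) - t * C.ig (hh * C.dens p σ l a e b G) + 3 * c := by
    rw [show cfc (f' u0 σ l) A = C.dmat p σ l a e b G from rfl, hD, mul_add, C.tr_add,
      mul_smul_comm, C.tr_smul, mul_sub, C.tr_sub, Algebra.algebraMap_eq_smul_one, mul_smul_comm,
      C.tr_smul, mul_one]
    have h1 : C.tr (C.dmat p σ l a e b G * W) = C.ig (hh * C.dens p σ l a e b G) := by
      rw [dens, ← C.tr_r_mul hh (hdsa.conjugate_self hpsa), hW]
      calc C.tr (C.dmat p σ l a e b G * (p * C.r hh * p))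
          = C.tr (C.dmat p σ l a e b G * p * C.r hh * p) := by simp only [mul_assoc]
        _ = C.tr (p * (C.dmat p σ l a e b G * p) * C.r hh) := C.tr_cycle _ _ _
        _ = C.tr (C.r hh * (p * C.dmat p σ l a e b G * p)) := by
          rw [C.tr_comm]; simp only [mul_assoc]
    have h2 : C.tr (C.dmat p σ l a e b G) ≤ 3 := by
      have := C.tr_cfc_f'_mul_le (l := l) hP.σ_pos hA zero_le_one
      rw [mul_one, C.tr_one, mul_one] at this
      exact this.trans (by linarith [hP.l_le])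
    rw [h1]
    linarith [mul_le_mul_of_nonneg_left h2 hc0]
  have hrn : ‖C.r hh‖ ≤ 4 * R ^ 4 :=
    (C.norm_r_le hh).trans ((ContinuousMap.norm_le _ (by positivity)).2 fun x => by
      rw [Real.norm_of_nonneg (hh0 x)]; exact hhn x)
  have hDn : ‖D‖ ≤ 11 * t * R ^ 6 := by
    have hp1 : R ≤ R ^ 6 := le_self_pow₀ hR (by norm_num)
    have hp4 : R ^ 4 ≤ R ^ 6 := pow_le_pow_right₀ hR (by norm_num)
    calc ‖D‖ ≤ ‖t • (Z - W)‖ + ‖algebraMap ℝ M c‖ := norm_add_le _ _
      _ ≤ t * (R + 4 * R ^ 4) + c := by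
          refine add_le_add ?_ ?_
          · rw [norm_smul, Real.norm_of_nonneg ht.le]
            refine mul_le_mul_of_nonneg_left ((norm_sub_le _ _).trans (add_le_add hZR ?_)) ht.le
            exact (norm_conj_p_le hP _).trans hrn
          · exact norm_le_of_le_algebraMap hc0 (algebraMap_nonneg M hc0) le_rfl
      _ ≤ t * (5 * R ^ 6) + 6 * t * R ^ 6 := by
          refine add_le_add (mul_le_mul_of_nonneg_left (by linarith) ht.le) ?_
          rw [hc]
          gcongr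
          exact pow_le_of_le_one ht.le ht1 two_ne_zero
      _ = 11 * t * R ^ 6 := by ring
  have hn2 : C.n2sq D ≤ (11 * t * R ^ 6) ^ 2 := by
    have := (C.n2sq_mul_le D 1).1
    rw [mul_one, show C.n2sq (1 : M) = 1 by simp [n2sq, C.tr_one], mul_one] at this
    exact this.trans (pow_le_pow_left₀ (norm_nonneg D) hDn 2)
  have hquad : 1 / σ / 2 * C.n2sq D ≤ R / 2 * (11 * t * R ^ 6) ^ 2 :=
    mul_le_mul (div_le_div_of_nonneg_right hσR two_pos.le) hn2 (C.n2sq_nonneg' D) (by positivity)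
  have hconst : 3 * c + R / 2 * (11 * t * R ^ 6) ^ 2 ≤ t * (200 * R ^ 13 * t) := by
    have h6 : t ^ 2 * R ^ 6 ≤ t ^ 2 * R ^ 13 :=
      mul_le_mul_of_nonneg_left (pow_le_pow_right₀ hR (by norm_num)) (sq_nonneg t)
    rw [hc, show R / 2 * (11 * t * R ^ 6) ^ 2 = 121 / 2 * (t ^ 2 * R ^ 13) by ring]
    linarith [mul_nonneg (sq_nonneg t) (pow_nonneg hR0 13)]
  have hν : ν * C.tr (G' : M) ≤ ν * C.tr (G : M) :=
    mul_le_mul_of_nonneg_left (C.tr_mono hle) hP.ν_pos.le
  have hmin' := hmin G' hG'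
  simp only [pot, ← hAdef] at hmin'
  have hfin : t * C.ig (hh * C.dens p σ l a e b G) ≤
      t * C.tr (C.dmat p σ l a e b G * Z) + ζ + t * (200 * R ^ 13 * t) := by linarith
  rw [show a * φγc b γ * C.dens p σ l a e b G * Q = hh * C.dens p σ l a e b G by rw [hhh]; ring]
  rw [← mul_le_mul_iff_of_pos_left ht, mul_add, mul_add, mul_div_cancel₀ _ ht.ne']
  linarith

end Vale.Agent.P078.Tracial.Core
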