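import Vale.Agent.P078.Tracial.StepAux
import Vale.Agent.P078.Tracial.Stationary

/-! The change of the potential of one colour in one step. -/

namespace Vale.Agent.P078.Tracial

set_option linter.unusedSectionVars false

open Filter Topology ComplexOrder Scalar

variable {M X : Type*} [CStarAlgebra M] [PartialOrder M] [StarOrderedRing M]
variable [TopologicalSpace X] [CompactSpace X] [T2Space X] [TotallyDisconnectedSpace X]

/-- The inverse of the derivative of the weight in the budget. -/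
noncomputable def iφbc (b γ : C(X, ℝ)) : C(X, ℝ) :=
  ⟨fun x => (φbc b γ x)⁻¹, (map_continuous (φbc b γ)).inv₀ fun _ => (φb_pos _ _).ne'⟩

@[simp] theorem iφbc_apply (b γ : C(X, ℝ)) (x : X) : iφbc b γ x = (φb (b x) (γ x))⁻¹ := rfl

/-- A bound for the pointwise quantities. -/
noncomputable def ptBound (R : ℝ) : ℝ := 5000 * R ^ 6

/-- The third order constant of the weight. -/
noncomputable def wtConst (R : ℝ) : ℝ :=
  12 * ptBound R ^ 3 + 7 * (3 * ptBound R ^ 4 + ptBound R) ^ 3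

/-- The third order constant of one colour. -/
noncomputable def colConst (R : ℝ) : ℝ :=
  3 * (2 * R ^ 7 + wtConst R) + R * (500000000 * R ^ 6 + (2 * R ^ 7 + wtConst R)) ^ 2

/-- The constant in front of the residual. -/
noncomputable def resConst (R : ℝ) : ℝ := 100000000000 * R

namespace Core

variable (C : Core M X) {p : M} {σ l ν : ℝ}

/-- The compressed resolvent as an element. -/
noncomputable def cG (p : M) (G : Mˣ) : M := p * (G : M) * p

/-- The coefficient of the direction at the budget. -/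
noncomputable def mFn (p : M) (a b : C(X, ℝ)) (G : Mˣ) : C(X, ℝ) := a * iφbc b (C.gam p G)

/-- The coefficient of the induced change of the compressed resolvent. -/
noncomputable def nFn (p : M) (a b : C(X, ℝ)) (G : Mˣ) : C(X, ℝ) :=
  a * φγc b (C.gam p G) * iφbc b (C.gam p G)

/-- The direction of the budget. -/
noncomputable def dir (p : M) (a b : C(X, ℝ)) (G : Mˣ) (k h : C(X, ℝ)) : C(X, ℝ) :=
  C.mFn p a b G * k - C.nFn p a b G * C.K (cG p G) k - a * h

/-- The loss form of one colour. -/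
noncomputable def loss (p : M) (σ l : ℝ) (a e b : C(X, ℝ)) (G : Mˣ) (k : C(X, ℝ)) : ℝ :=
  C.tr (C.r k * cG p G * C.r k * (p * C.dmat p σ l a e b G * p))

/-- The linear part of the change of the potential of one colour. -/
noncomputable def lin (p : M) (σ l ν : ℝ) (a e b : C(X, ℝ)) (G : Mˣ) (k h : C(X, ℝ)) : ℝ :=
  C.tr (C.dmat p σ l a e b G * (-(p * C.r (a * φbc b (C.gam p G) * h) * p)))
    + ν * C.tr ((G : M) * (p * C.r k * p) * G)

theorem norm_K_cG_le (hP : Par p σ l ν) {G : Mˣ} (hG : 0 ≤ (G : M)) {R : ℝ} (hR : 0 ≤ R)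
    (hGR : (G : M) ≤ algebraMap ℝ M R) {k : C(X, ℝ)} (hk : ‖k‖ ≤ R) :
    ‖C.K (cG p G) k‖ ≤ R ^ 3 := by
  refine (C.norm_K_le _ _).trans ?_
  have h : ‖cG p G‖ ≤ R := (norm_pzp_le hP _).trans (norm_le_of_nonneg_le hR hG hGR)
  calc ‖cG p G‖ ^ 2 * ‖k‖ ≤ R ^ 2 * R :=
        mul_le_mul (pow_le_pow_left₀ (norm_nonneg _) h 2) hk (norm_nonneg _) (by positivity)
    _ = R ^ 3 := by ring

theorem abs_dir_le (hP : Par p σ l ν) {a e b : C(X, ℝ)} (h : ColOk a e b)
    (hhi : ∀ x, a x = 1 → b x ≤ 41 / 1000) {G : Mˣ} (hG : 0 ≤ (G : M)) {R : ℝ} (hR : 1 ≤ R)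
    (hGR : (G : M) ≤ algebraMap ℝ M R) {k h0 : C(X, ℝ)} (hk : ‖k‖ ≤ R) (hh : ‖h0‖ ≤ R)
    (x : X) : |C.dir p a b G k h0 x| ≤ 11 * R ^ 7 := by
  rcases h.a_01 x with ha | ha
  · have : C.dir p a b G k h0 x = 0 := by simp [dir, mFn, nFn, ha]
    rw [this, abs_zero]; positivity
  set γ := C.gam p G x
  have hγ0 : 0 ≤ γ := ContinuousMap.le_def.1 (C.gam_nonneg hP.p_nonneg hG) x
  have hγR : γ ≤ R := C.gam_le hP hG (by linarith) hGR x
  have hi := inv_φb_le (h.a_b x ha) (hhi x ha) hR hγ0 hγR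
  have hi0 : 0 ≤ (φb (b x) γ)⁻¹ := inv_nonneg.2 (φb_pos _ _).le
  have hg0 := φγ_nonneg (b x) hγ0
  have hg := φγ_le (b x) hγ0 hγR
  have hkx := abs_apply_le hk x
  have hhx := abs_apply_le hh x
  have hK := abs_apply_le (C.norm_K_cG_le hP hG (by linarith) hGR hk) x
  have e : C.dir p a b G k h0 x = (φb (b x) γ)⁻¹ * k x
      - φγ (b x) γ * (φb (b x) γ)⁻¹ * C.K (cG p G) k x - h0 x := by
    simp [dir, mFn, nFn, ha, γ]
  rw [e]
  have t1 : |(φb (b x) γ)⁻¹ * k x| ≤ 2 * R ^ 4 := by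
    rw [abs_mul, abs_of_nonneg hi0]
    calc (φb (b x) γ)⁻¹ * |k x| ≤ 2 * R ^ 3 * R :=
          mul_le_mul hi hkx (abs_nonneg _) (by positivity)
      _ = 2 * R ^ 4 := by ring
  have t2 : |φγ (b x) γ * (φb (b x) γ)⁻¹ * C.K (cG p G) k x| ≤ 8 * R ^ 7 := by
    rw [abs_mul, abs_mul, abs_of_nonneg hi0, abs_of_nonneg hg0]
    calc φγ (b x) γ * (φb (b x) γ)⁻¹ * |C.K (cG p G) k x| ≤ 4 * R * (2 * R ^ 3) * R ^ 3 :=
          mul_le_mul (mul_le_mul hg hi hi0 (by linarith)) hK (abs_nonneg _) (by positivity)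
      _ = 8 * R ^ 7 := by ring
  have t3 : R ≤ R ^ 7 := le_self_pow₀ hR (by norm_num)
  have t4 : 2 * R ^ 4 ≤ 2 * R ^ 7 := by
    have := pow_le_pow_right₀ hR (by norm_num : 4 ≤ 7); linarith
  refine (abs_sub _ _).trans ?_
  have := abs_sub ((φb (b x) γ)⁻¹ * k x)
    (φγ (b x) γ * (φb (b x) γ)⁻¹ * C.K (cG p G) k x)
  linarith

/-- The new weight after one step. -/
theorem wt_step {a e b : C(X, ℝ)} (h : ColOk a e b) (hhi : ∀ x, a x = 1 → b x ≤ 41 / 1000)
    {G G' : Mˣ} {R : ℝ} (hR : 1 ≤ R) {η : ℝ} (hη : 0 ≤ η) (hη1 : η ≤ 1) {k h0 : C(X, ℝ)}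
    (hk : ‖k‖ ≤ R) (hh : ‖h0‖ ≤ R) (hKb : ∀ x, |C.K (cG p G) k x| ≤ R ^ 3)
    (hγb : ∀ x, 0 ≤ C.gam p G x ∧ C.gam p G x ≤ R)
    (hgam : C.gam p G' = C.gam p G + η • C.K (cG p G) k)
    (hnew : ∀ x, a x = 1 → -b1 ≤ b x + η * C.dir p a b G k h0 x) :
    ∀ x, C.wt p a e (b + η • C.dir p a b G k h0) G' x ≤ C.wt p a e b G x
      + η * (a x * (k x - φb (b x) (C.gam p G x) * h0 x))
      + η ^ 2 * (a x * (F' (arg (b x) (C.gam p G x)) * C.K (cG p G) k x ^ 2
          - coef (arg (b x) (C.gam p G x)) * (k x - φb (b x) (C.gam p G x) * h0 x) ^ 2))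
      + η ^ 3 * wtConst R := by
  intro x
  have hc : 0 ≤ η ^ 3 * wtConst R := by
    have : 0 ≤ wtConst R := by
      unfold wtConst ptBound; positivity
    positivity
  rcases h.a_01 x with ha | ha
  · simp [wt, ha]; linarith
  have hkx := abs_apply_le hk x
  have hhx := abs_apply_le hh x
  obtain ⟨hγ0, hγR⟩ := hγb x
  set γ := C.gam p G x with hγdef
  set Kx := C.K (cG p G) k x with hKdef
  have hR6 : R ≤ R ^ 6 := le_self_pow₀ hR (by norm_num)
  have hφ : φ (b x + η * C.dir p a b G k h0 x) (γ + η * Kx) ≤ φ (b x) γ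
      + η * (k x - φb (b x) γ * h0 x)
      + η ^ 2 * (F' (arg (b x) γ) * Kx ^ 2
          - coef (arg (b x) γ) * (k x - φb (b x) γ * h0 x) ^ 2)
      + η ^ 3 * wtConst R := by
    refine φ_step (h.a_b x ha) (hnew x ha) hη hη1 ?_ ?_ ?_ ?_
    · have hne := (φb_pos (b x) γ).ne'
      simp only [dir, mFn, nFn, ContinuousMap.sub_apply, ContinuousMap.mul_apply, ha,
        iφbc_apply, φγc_apply, one_mul, ← hγdef, ← hKdef]
      field_simp
      ring
    · calc |k x - φb (b x) γ * h0 x| ≤ |k x| + |φb (b x) γ * h0 x| := abs_sub _ _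
        _ ≤ R + 4000 * R := by
            rw [abs_mul, abs_of_pos (φb_pos _ _)]
            exact add_le_add hkx (mul_le_mul (φb_le _ _) hhx (abs_nonneg _) (by norm_num))
        _ ≤ ptBound R := by unfold ptBound; linarith
    · calc Kx ^ 2 = |Kx| ^ 2 := (sq_abs _).symm
        _ ≤ (R ^ 3) ^ 2 := pow_le_pow_left₀ (abs_nonneg _) (hKb x) 2
        _ ≤ ptBound R := by
            rw [← pow_mul]; norm_num; unfold ptBound; linarith [pow_nonneg (zero_le_one.trans hR) 6]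
    · refine (sqrt_arg_le (hhi x ha) hR hγ0 hγR).trans ?_
      unfold ptBound; linarith
  simp only [wt, hgam, ContinuousMap.add_apply, ContinuousMap.mul_apply, φc_apply,
    ContinuousMap.smul_apply, smul_eq_mul, ha, one_mul, ← hγdef, ← hKdef]
  linarith

theorem exists_resolvent_step (hP : Par p σ l ν) {G : Mˣ} {R : ℝ} (hR : 1 ≤ R)
    (hGl : algebraMap ℝ M (1 / R) ≤ (G : M)) (hG : 0 ≤ (G : M))
    (hGR : (G : M) ≤ algebraMap ℝ M R) {k : C(X, ℝ)} (hk : ‖k‖ ≤ R)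
    {η : ℝ} (hη : 0 ≤ η) (hη1 : η ≤ 1 / (2 * R ^ 4)) :
    ∃ G' : Mˣ, 0 ≤ (G' : M) ∧ (G' : M) = G + η • ((G : M) * (p * C.r k * p) * G) ∧
      ‖(↑G'⁻¹ : M) - (↑G⁻¹ - η • (p * C.r k * p)
          + η ^ 2 • (p * (C.r k * cG p G * C.r k) * p))‖ ≤ η ^ 3 * (2 * R ^ 7) := by
  have hR0 : (0:ℝ) < R := by linarith
  have hnG : ‖(G : M)‖ ≤ R := norm_le_of_nonneg_le hR0.le hG hGR
  set Z := p * C.r k * p with hZ
  have hnZ : ‖Z‖ ≤ R := (norm_pzp_le hP _).trans ((C.norm_r_le _).trans hk)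
  have hZsa : IsSelfAdjoint Z :=
    (C.r_isSelfAdjoint k).conjugate_self (IsSelfAdjoint.of_nonneg hP.p_nonneg)
  set D := η • ((G : M) * Z * G) with hD
  have hDsa : IsSelfAdjoint D :=
    (IsSelfAdjoint.all η).smul (hZsa.conjugate_self (IsSelfAdjoint.of_nonneg hG))
  have hnD : ‖D‖ ≤ 1 / (2 * R) := by
    rw [hD, norm_smul, Real.norm_of_nonneg hη]
    calc η * ‖(G : M) * Z * G‖ ≤ 1 / (2 * R ^ 4) * (R * R * R) := by
          refine mul_le_mul hη1 ?_ (norm_nonneg _) (by positivity)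
          exact (norm_mul_le _ _).trans (mul_le_mul ((norm_mul_le _ _).trans
            (mul_le_mul hnG hnZ (norm_nonneg _) hR0.le)) hnG (norm_nonneg _) (by positivity))
      _ = 1 / (2 * R) := by field_simp
  have hlow : algebraMap ℝ M (1 / (2 * R)) ≤ (G : M) + D := by
    have h1 : algebraMap ℝ M (-(1 / (2 * R))) ≤ D := by
      refine le_trans ?_ (IsSelfAdjoint.neg_algebraMap_norm_le_self hDsa)
      rw [← map_neg]
      exact algebraMap_mono M (neg_le_neg hnD)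
    calc algebraMap ℝ M (1 / (2 * R))
        = algebraMap ℝ M (1 / R) + algebraMap ℝ M (-(1 / (2 * R))) := by
          rw [← map_add]; congr 1; field_simp; ring
      _ ≤ (G : M) + D := add_le_add hGl h1
  have hlow0 : IsStrictlyPositive (algebraMap ℝ M (1 / (2 * R))) := by
    refine IsStrictlyPositive.iff_of_unital.2 ⟨?_, ?_⟩
    · rw [Algebra.algebraMap_eq_smul_one]; exact smul_nonneg (by positivity) zero_le_one
    · exact (isUnit_iff_ne_zero.2 (by positivity : (1 / (2 * R)) ≠ 0)).map (algebraMap ℝ M)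
  obtain ⟨G', hG'⟩ := CStarAlgebra.isUnit_of_le _ hlow hlow0
  have hG'0 : 0 ≤ (G' : M) := by rw [hG']; exact hlow0.nonneg.trans hlow
  refine ⟨G', hG'0, hG', ?_⟩
  have hninv : ‖(↑G'⁻¹ : M)‖ ≤ 2 * R := by
    rw [← cfc_inv_id (R := ℝ) G' (IsSelfAdjoint.of_nonneg hG'0)]
    refine norm_cfc_le (by positivity) fun t ht => ?_
    have : 1 / (2 * R) ≤ t := (algebraMap_le_iff_le_spectrum
      (IsSelfAdjoint.of_nonneg hG'0)).1 (hG' ▸ hlow) t ht
    have ht0 : 0 < t := lt_of_lt_of_le (by positivity) this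
    rw [Real.norm_of_nonneg (by positivity)]
    exact (inv_anti₀ (by positivity) this).trans_eq (by rw [one_div, inv_inv])
  set Y := η • (Z * G) with hY
  set N := (↑G⁻¹ : M) - η • Z + η ^ 2 • (p * (C.r k * cG p G * C.r k) * p) with hN
  have hN2 : N = (↑G⁻¹ : M) - η • Z + η ^ 2 • (Z * G * Z) := by
    simp only [hN, hZ, cG, mul_assoc]
  have hprod : N * (G' : M) = 1 + Y * Y * Y := by
    rw [hN2, hG', hD, hY]
    simp only [mul_add, add_mul, sub_mul, mul_sub, smul_mul_assoc, mul_smul_comm, smul_smul,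
      mul_assoc, Units.inv_mul, Units.inv_mul_cancel_left, mul_one, one_mul]
    match_scalars <;> ring
  have hdiff : (↑G'⁻¹ : M) - N = -(Y * Y * Y * ↑G'⁻¹) := by
    have h2 := congrArg (fun z => z * (↑G'⁻¹ : M)) hprod
    simp only [Units.mul_inv_cancel_right, add_mul, one_mul] at h2
    rw [h2]; abel
  rw [hdiff, norm_neg]
  have hnY : ‖Y‖ ≤ η * R ^ 2 := by
    rw [hY, norm_smul, Real.norm_of_nonneg hη, sq]
    exact mul_le_mul_of_nonneg_left
      ((norm_mul_le _ _).trans (mul_le_mul hnZ hnG (norm_nonneg _) hR0.le)) hη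
  calc ‖Y * Y * Y * (↑G'⁻¹ : M)‖ ≤ ‖Y‖ * ‖Y‖ * ‖Y‖ * ‖(↑G'⁻¹ : M)‖ := by
        refine (norm_mul_le _ _).trans (mul_le_mul_of_nonneg_right ?_ (norm_nonneg _))
        exact (norm_mul_le _ _).trans
          (mul_le_mul_of_nonneg_right (norm_mul_le _ _) (norm_nonneg _))
    _ ≤ η * R ^ 2 * (η * R ^ 2) * (η * R ^ 2) * (2 * R) := by gcongr
    _ = η ^ 3 * (2 * R ^ 7) := by ring

/-- The second order term of the weight. -/
noncomputable def q2Fn (p : M) (a b : C(X, ℝ)) (G : Mˣ) (k h : C(X, ℝ)) : C(X, ℝ) :=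
  a * ((1 / 2000 : ℝ) • (φbc b (C.gam p G) * (C.K (cG p G) k * C.K (cG p G) k))
    - (5 / 3 : ℝ) • (sqc b (C.gam p G)
      * ((k - φbc b (C.gam p G) * h) * (k - φbc b (C.gam p G) * h))))

theorem q2Fn_apply {a e b : C(X, ℝ)} (h : ColOk a e b) (G : Mˣ) (k h0 : C(X, ℝ)) (x : X) :
    C.q2Fn p a b G k h0 x = a x * (F' (arg (b x) (C.gam p G x)) * C.K (cG p G) k x ^ 2
      - coef (arg (b x) (C.gam p G x))
        * (k x - φb (b x) (C.gam p G x) * h0 x) ^ 2) := by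
  rcases h.a_01 x with ha | ha
  · simp [q2Fn, ha]
  · have hm := max_arg_eq (C.gam p G x) (h.a_b x ha)
    simp only [q2Fn, ContinuousMap.mul_apply, ContinuousMap.sub_apply,
      ContinuousMap.smul_apply, smul_eq_mul, φbc_apply, sqc_eq (h.a_b x ha), ha, one_mul]
    rw [coef, φb, hm, α, B0]
    ring

theorem norm_q2Fn_le (hP : Par p σ l ν) {a e b : C(X, ℝ)} (h : ColOk a e b)
    (hhi : ∀ x, a x = 1 → b x ≤ 41 / 1000) {G : Mˣ} (hG : 0 ≤ (G : M)) {R : ℝ} (hR : 1 ≤ R)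
    (hGR : (G : M) ≤ algebraMap ℝ M R) {k h0 : C(X, ℝ)} (hk : ‖k‖ ≤ R) (hh : ‖h0‖ ≤ R) :
    ‖C.q2Fn p a b G k h0‖ ≤ 499999999 * R ^ 6 := norm_le_of_abs (by positivity) fun x => by
  have hq2 := C.q2Fn_apply (p := p) h G k h0
  have hRpos : (0:ℝ) < R := by linarith
  set γ := C.gam p G
  set K := C.K (cG p G) k
  have hγb : ∀ x, 0 ≤ γ x ∧ γ x ≤ R := fun x =>
    ⟨ContinuousMap.le_def.1 (C.gam_nonneg hP.p_nonneg hG) x, C.gam_le hP hG hRpos.le hGR x⟩
  have hKb : ∀ x, |K x| ≤ R ^ 3 := abs_apply_le (C.norm_K_cG_le hP hG hRpos.le hGR hk)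
  rw [hq2]
  rcases h.a_01 x with ha | ha
  · rw [ha, zero_mul, abs_zero]; positivity
  rw [ha, one_mul]
  have hs := half_le_arg (γ x) (h.a_b x ha)
  have h1 : 0 ≤ F' (arg (b x) (γ x)) * K x ^ 2 ∧
      F' (arg (b x) (γ x)) * K x ^ 2 ≤ 2 * (R ^ 3) ^ 2 :=
    ⟨mul_nonneg (F'_pos hs).le (sq_nonneg _), mul_le_mul (F'_le hs)
      (by rw [← sq_abs]; exact pow_le_pow_left₀ (abs_nonneg _) (hKb x) 2) (sq_nonneg _)
      (by norm_num)⟩
  have hk' : |k x - φb (b x) (γ x) * h0 x| ≤ 4001 * R := by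
    refine (abs_sub _ _).trans ?_
    rw [abs_mul, abs_of_pos (φb_pos _ _)]
    have := mul_le_mul (φb_le (b x) (γ x)) (abs_apply_le hh x) (abs_nonneg _) (by norm_num)
    linarith [abs_apply_le hk x]
  have h2 : 0 ≤ coef (arg (b x) (γ x)) * (k x - φb (b x) (γ x) * h0 x) ^ 2 ∧
      coef (arg (b x) (γ x)) * (k x - φb (b x) (γ x) * h0 x) ^ 2
        ≤ 20 * R * (4001 * R) ^ 2 :=
    ⟨mul_nonneg (coef_pos hs).le (sq_nonneg _), mul_le_mul
      (coef_le.trans (by linarith [sqrt_arg_le (hhi x ha) hR (hγb x).1 (hγb x).2]))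
      (by rw [← sq_abs]; exact pow_le_pow_left₀ (abs_nonneg _) hk' 2) (sq_nonneg _)
      (by positivity)⟩
  have h3 : R ^ 3 ≤ R ^ 6 := pow_le_pow_right₀ hR (by norm_num)
  have h4 : (R ^ 3) ^ 2 = R ^ 6 := by ring
  have h5 : 20 * R * (4001 * R) ^ 2 = 320160020 * R ^ 3 := by ring
  rw [abs_le]
  constructor <;> linarith

theorem q2Fn_mul_dens_le (hP : Par p σ l ν) {a e b : C(X, ℝ)} (h : ColOk a e b)
    (hhi : ∀ x, a x = 1 → b x ≤ 41 / 1000) {G : Mˣ} (hG : 0 ≤ (G : M)) {R0 : ℝ} (hR0 : 1 ≤ R0)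
    (hGR : (G : M) ≤ algebraMap ℝ M R0) {k h0 : C(X, ℝ)} (hka : k * a = k) :
    C.q2Fn p a b G k h0 * C.dens p σ l a e b G ≤ (1 / 2 : ℝ) • (a * φγc b (C.gam p G)
        * C.dens p σ l a e b G
        * C.Er (p * ((G : M) * (p * (C.r k * cG p G * C.r k) * p) * G) * p))
      - (33 / 20 : ℝ) • (k * k * C.dens p σ l a e b G * sqc b (C.gam p G))
      + (6000 * R0 * 16000000 : ℝ) • ((a * h0) * (a * h0)) := by
  have hV := fun x => C.dens_bounds (a := a) (e := e) (b := b) hP hG x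
  have hq2 := C.q2Fn_apply (p := p) h G k h0
  set γ := C.gam p G with hγdef
  set K := C.K (cG p G) k with hKdef
  set V := C.dens p σ l a e b G
  set Q := C.Er (p * ((G : M) * (p * (C.r k * cG p G * C.r k) * p) * G) * p) with hQ
  refine ContinuousMap.le_def.2 fun x => ?_
  simp only [ContinuousMap.mul_apply, ContinuousMap.add_apply, ContinuousMap.sub_apply,
    ContinuousMap.smul_apply, smul_eq_mul, φγc_apply]
  rw [hq2]
  have hkx := congrArg (fun f : C(X, ℝ) => f x) hka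
  simp only [ContinuousMap.mul_apply] at hkx
  rcases h.a_01 x with ha | ha
  · rw [ha, mul_zero] at hkx
    rw [ha, ← hkx]; ring_nf; rfl
  have hb := h.a_b x ha
  have hs := half_le_arg (γ x) hb
  have hV0 : 0 ≤ V x := le_trans (by linarith [hP.l_pos]) (hV x).1
  rw [sqc_eq hb, ha, one_mul]
  have hSch : K x ^ 2 ≤ γ x * Q x := by
    have := C.Er_schwarz (conjugate_nonneg_of_nonneg hG hP.p_nonneg) k x
    have e : cG p G * (C.r k * cG p G * C.r k) * cG p G
        = p * ((G : M) * (p * (C.r k * cG p G * C.r k) * p) * G) * p := by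
      simp only [cG, mul_assoc]
    simp only [hKdef, hQ, hγdef, gam, ← e]
    exact this
  have hF : F' (arg (b x) (γ x)) * K x ^ 2 ≤ 1 / 2 * (φγ (b x) (γ x) * Q x) := by
    rw [φγ, max_arg_eq (γ x) hb]
    nlinarith [mul_le_mul_of_nonneg_left hSch (F'_pos hs).le]
  set c := coef (arg (b x) (γ x)) with hc
  have hc0 : 0 ≤ c := (coef_pos hs).le
  have hcs : c = 5 / 3 * √(arg (b x) (γ x)) := by rw [hc, coef, B0]; ring
  have hcR : c ≤ 20 * R0 := coef_le.trans (by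
    linarith [sqrt_arg_le (hhi x ha) hR0 (show 0 ≤ γ x from ContinuousMap.le_def.1 (C.gam_nonneg hP.p_nonneg hG) x) (C.gam_le hP hG (by linarith) hGR x)])
  have hsp := coef_split (k := k x) (ρ := φb (b x) (γ x) * h0 x) hc0
  have hρ : (φb (b x) (γ x) * h0 x) ^ 2 ≤ 16000000 * (h0 x * h0 x) := by
    rw [mul_pow, ← sq (h0 x)]
    refine mul_le_mul_of_nonneg_right ?_ (sq_nonneg _)
    nlinarith [φb_le (b x) (γ x), φb_pos (b x) (γ x)]
  have hcρ : 99 * (c * (φb (b x) (γ x) * h0 x) ^ 2) * V x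
      ≤ 99 * (20 * R0 * (16000000 * (h0 x * h0 x))) * 3 :=
    mul_le_mul (mul_le_mul_of_nonneg_left (mul_le_mul hcR hρ (sq_nonneg _) (by linarith))
      (by norm_num)) (hV x).2 hV0 (by
        have := mul_self_nonneg (h0 x); positivity)
  have hsp' := mul_le_mul_of_nonneg_right hsp hV0
  have hF' := mul_le_mul_of_nonneg_right hF hV0
  have hRh : 0 ≤ R0 * (h0 x * h0 x) := mul_nonneg (by linarith) (mul_self_nonneg _)
  rw [hcs] at hsp' hcρ ⊢
  nlinarith [hsp', hF', hcρ, hRh]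

theorem n2sq_add_two_le (A B : M) : C.n2sq (A + B) ≤ 2 * C.n2sq A + 2 * C.n2sq B := by
  have hd : 0 ≤ C.n2sq (A - B) := C.tr_nonneg (star_mul_self_nonneg _)
  have e : C.n2sq (A + B) + C.n2sq (A - B) = 2 * C.n2sq A + 2 * C.n2sq B := by
    simp only [n2sq, star_add, star_sub, add_mul, mul_add, sub_mul, mul_sub, C.tr_add, C.tr_sub]
    ring
  linarith

theorem colour_step (hP : Par p σ l ν) {a e b : C(X, ℝ)} (h : ColOk a e b)
    (hlo : ∀ x, a x = 1 → -b1 / 2 ≤ b x) (hhi : ∀ x, a x = 1 → b x ≤ 41 / 1000)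
    {G : Mˣ} (hG : 0 ≤ (G : M)) {R0 R : ℝ} (hR0 : 1 ≤ R0) (hRR : R0 ≤ R)
    (hσ : 1 / σ ≤ R0) (hGl : algebraMap ℝ M (1 / R0) ≤ (G : M))
    (hGR : (G : M) ≤ algebraMap ℝ M R0)
    {k h0 : C(X, ℝ)} (hk : ‖k‖ ≤ R) (hh : ‖h0‖ ≤ R) (hka : k * a = k)
    {η : ℝ} (hη : 0 < η) (hη1 : η ≤ 1 / (50000000 * R ^ 7))
    {t ζ : ℝ} (ht : 0 < t) (ht1 : t ≤ 1) (hζ : 0 ≤ ζ)
    (hmin : ∀ G' : Mˣ, 0 ≤ (G' : M) →
      C.pot p σ l ν a e b G ≤ C.pot p σ l ν a e b G' + ζ) :
    (∀ x, a x = 1 → -b1 ≤ b x + η * C.dir p a b G k h0 x) ∧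
    ∃ G' : Mˣ, 0 ≤ (G' : M) ∧
      C.pot p σ l ν a e (b + η • C.dir p a b G k h0) G'
        ≤ C.pot p σ l ν a e b G + η * C.lin p σ l ν a e b G k h0
          + η ^ 2 * (3 / 2 * C.loss p σ l a e b G k
              - 33 / 20 * C.ig (k * k * C.dens p σ l a e b G * sqc b (C.gam p G))
              + resConst R0 * C.ig ((a * h0) * (a * h0)) + ζ / t + 200 * R ^ 39 * t)
          + η ^ 3 * colConst R := by
  have hR : 1 ≤ R := hR0.trans hRR
  have hRpos : (0:ℝ) < R := by linarith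
  have hGR' : (G : M) ≤ algebraMap ℝ M R := hGR.trans (algebraMap_mono M hRR)
  have hGl' : algebraMap ℝ M (1 / R) ≤ (G : M) :=
    le_trans (algebraMap_mono M (one_div_le_one_div_of_le (by linarith) hRR)) hGl
  have hnew : ∀ x, a x = 1 → -b1 ≤ b x + η * C.dir p a b G k h0 x := fun x ha => by
    have h1 := abs_le.1 (C.abs_dir_le hP h hhi hG hR hGR' hk hh x)
    have h2 : η * (11 * R ^ 7) ≤ b1 / 2 := by
      calc η * (11 * R ^ 7) ≤ 1 / (50000000 * R ^ 7) * (11 * R ^ 7) :=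
            mul_le_mul_of_nonneg_right hη1 (by positivity)
        _ = 11 / 50000000 := by field_simp
        _ ≤ b1 / 2 := by norm_num [b1]
    have h3 := mul_le_mul_of_nonneg_left h1.1 hη.le
    linarith [hlo x ha]
  refine ⟨hnew, ?_⟩
  have hη2 : η ≤ 1 / (2 * R ^ 4) := by
    refine hη1.trans (one_div_le_one_div_of_le (by positivity) ?_)
    nlinarith [pow_le_pow_right₀ hR (by norm_num : 4 ≤ 7), pow_nonneg hRpos.le 7]
  have hη' : η ≤ 1 := hη2.trans (by
    rw [div_le_one (by positivity)]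
    nlinarith [one_le_pow₀ (n := 4) hR])
  obtain ⟨G', hG'0, hG'v, hG'i⟩ :=
    C.exists_resolvent_step hP hR hGl' hG hGR' hk hη.le hη2
  refine ⟨G', hG'0, ?_⟩
  set γ := C.gam p G with hγdef
  set K := C.K (cG p G) k with hKdef
  set W := C.dmat p σ l a e b G with hWdef
  set V := C.dens p σ l a e b G with hVdef
  set ρ := φbc b γ * h0 with hρdef
  have hγb : ∀ x, 0 ≤ γ x ∧ γ x ≤ R := fun x =>
    ⟨ContinuousMap.le_def.1 (C.gam_nonneg hP.p_nonneg hG) x, C.gam_le hP hG hRpos.le hGR' x⟩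
  have hKb : ∀ x, |K x| ≤ R ^ 3 := abs_apply_le (C.norm_K_cG_le hP hG hRpos.le hGR' hk)
  have hgam : C.gam p G' = γ + η • K := by
    have hs := (IsSelfAdjoint.of_nonneg hG).conjugate_self (IsSelfAdjoint.of_nonneg hP.p_nonneg)
    rw [gam, hG'v, mul_add, add_mul, C.Er_add, mul_smul_comm, smul_mul_assoc, C.Er_smul, hKdef,
      Core.K, cG, hs.star_eq]
    simp only [hγdef, gam, mul_assoc]
  have hq2 := C.q2Fn_apply (p := p) h G k h0
  rw [← hγdef, ← hKdef] at hq2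
  set q2 := C.q2Fn p a b G k h0 with hq2def
  set q1 : C(X, ℝ) := k - a * ρ with hq1def
  have hq1 : ∀ x, q1 x = a x * (k x - φb (b x) (γ x) * h0 x) := fun x => by
    have := congrArg (fun f : C(X, ℝ) => f x) hka
    simp only [ContinuousMap.mul_apply] at this
    simp only [hq1def, hρdef, ContinuousMap.sub_apply, ContinuousMap.mul_apply, φbc_apply]
    rw [mul_sub, mul_comm (a x) (k x), this]
  have hw : C.wt p a e (b + η • C.dir p a b G k h0) G' ≤ C.wt p a e b G + η • q1 + η ^ 2 • q2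
      + (η ^ 3 * wtConst R) • (1 : C(X, ℝ)) := by
    refine ContinuousMap.le_def.2 fun x => ?_
    have := C.wt_step h hhi hR hη.le hη' hk hh hKb hγb hgam hnew x
    simp only [ContinuousMap.add_apply, ContinuousMap.smul_apply, smul_eq_mul, hq1, hq2,
      ContinuousMap.one_apply, mul_one]
    exact this
  set Rm := (↑G'⁻¹ : M) - (↑G⁻¹ - η • (p * C.r k * p)
    + η ^ 2 • (p * (C.r k * cG p G * C.r k) * p)) with hRm
  set A1 := -(p * C.r (a * ρ) * p) with hA1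
  set A2 := p * (C.r k * cG p G * C.r k) * p + p * C.r q2 * p with hA2
  set A3 := Rm + (η ^ 3 * wtConst R) • (p * p) with hA3
  have hmat : C.mat p a e (b + η • C.dir p a b G k h0) G'
      ≤ C.mat p a e b G + (η • A1 + η ^ 2 • A2 + A3) := by
    have e1 : C.mat p a e b G + (η • A1 + η ^ 2 • A2 + A3) = (↑G'⁻¹ : M) + p * C.r
        (C.wt p a e b G + η • q1 + η ^ 2 • q2 + (η ^ 3 * wtConst R) • (1 : C(X, ℝ))) * p := by
      simp only [mat, hA1, hA2, hA3, hRm, hq1def, C.r_add, C.r_sub, C.r_smul, C.r_one, mul_add,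
        add_mul, mul_sub, sub_mul, mul_smul_comm, smul_mul_assoc, mul_one]
      module
    rw [e1]
    unfold mat
    gcongr
    exact conjugate_le_conjugate_of_nonneg (C.r_mono hw) hP.p_nonneg
  have hA := C.mat_isSelfAdjoint hP.p_nonneg a e b hG
  have hps := IsSelfAdjoint.of_nonneg hP.p_nonneg
  have hcG : IsSelfAdjoint (cG p G) := (IsSelfAdjoint.of_nonneg hG).conjugate_self hps
  have hA1s : IsSelfAdjoint A1 := ((C.r_isSelfAdjoint _).conjugate_self hps).neg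
  have hA2s : IsSelfAdjoint A2 :=
    ((hcG.conjugate_self (C.r_isSelfAdjoint k)).conjugate_self hps).add
      ((C.r_isSelfAdjoint _).conjugate_self hps)
  have hA3s : IsSelfAdjoint A3 := by
    refine IsSelfAdjoint.add ?_ ((IsSelfAdjoint.all _).smul ?_)
    · exact (IsSelfAdjoint.of_nonneg (units_inv_nonneg hG'0)).sub
        (((IsSelfAdjoint.of_nonneg (units_inv_nonneg hG)).sub ((IsSelfAdjoint.all _).smul
          ((C.r_isSelfAdjoint k).conjugate_self hps))).add ((IsSelfAdjoint.all _).smul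
          ((hcG.conjugate_self (C.r_isSelfAdjoint k)).conjugate_self hps)))
    · rw [IsSelfAdjoint, star_mul, hps.star_eq]
  set Δ := η • A1 + η ^ 2 • A2 + A3 with hΔ
  have hΔs : IsSelfAdjoint Δ :=
    (((IsSelfAdjoint.all η).smul hA1s).add ((IsSelfAdjoint.all _).smul hA2s)).add hA3s
  have h1 := C.tr_f_mono (l := l) hP.σ_pos hP.l_pos.le (hA.add hΔs) hmat
  have h2 := C.klein_upper continuous_f (continuous_f' (l := l) hP.σ_pos)
    (f_quad (u := u0) (l := l) hP.σ_pos) hA (hA.add hΔs)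
  rw [add_sub_cancel_left] at h2
  have hW3 : ‖W‖ ≤ 3 := C.dmat_norm_le hP
  have hWΔ : C.tr (W * Δ) ≤ η * C.tr (W * A1) + η ^ 2 * C.tr (W * A2) + 3 * ‖A3‖ := by
    rw [hΔ, mul_add, mul_add, C.tr_add, C.tr_add, mul_smul_comm, mul_smul_comm, C.tr_smul,
      C.tr_smul]
    have := (le_abs_self _).trans (C.abs_tr_mul_le_norm W A3)
    have := mul_le_mul_of_nonneg_right hW3 (norm_nonneg A3)
    linarith
  have hq2b : ‖q2‖ ≤ 499999999 * R ^ 6 := C.norm_q2Fn_le hP h hhi hG hR hGR' hk hh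
  have hA2b : ‖A2‖ ≤ 500000000 * R ^ 6 := by
    refine (norm_add_le _ _).trans ?_
    have h1 : ‖p * (C.r k * cG p G * C.r k) * p‖ ≤ R * R * R := by
      refine (norm_pzp_le hP _).trans ?_
      have hkn : ‖C.r k‖ ≤ R := (C.norm_r_le k).trans hk
      exact (norm_mul_le _ _).trans (mul_le_mul ((norm_mul_le _ _).trans
        (mul_le_mul hkn ((norm_pzp_le hP _).trans (norm_le_of_nonneg_le hRpos.le hG hGR'))
          (norm_nonneg _) hRpos.le)) hkn (norm_nonneg _) (by positivity))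
    have h2 : ‖p * C.r q2 * p‖ ≤ 499999999 * R ^ 6 :=
      (norm_pzp_le hP _).trans ((C.norm_r_le _).trans hq2b)
    have h3 : R ^ 3 ≤ R ^ 6 := pow_le_pow_right₀ hR (by norm_num)
    nlinarith
  have hwc : 0 ≤ wtConst R := by unfold wtConst ptBound; positivity
  have hpp : ‖p * p‖ ≤ 1 := (norm_mul_le _ _).trans
    (mul_le_one₀ (norm_p_le hP) (norm_nonneg _) (norm_p_le hP))
  have hA3b : ‖A3‖ ≤ η ^ 3 * (2 * R ^ 7 + wtConst R) := by
    refine (norm_add_le _ _).trans ?_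
    rw [mul_add, norm_smul, Real.norm_of_nonneg (by positivity)]
    exact add_le_add hG'i (mul_le_of_le_one_right (by positivity) hpp)
  have hn1 : C.n2sq A1 ≤ C.ig ((a * ρ) * (a * ρ)) := by
    rw [hA1, show -(p * C.r (a * ρ) * p) = p * C.r (-(a * ρ)) * p by
      rw [C.r_neg]; noncomm_ring]
    refine (C.n2sq_conj_p_le hP _).trans ?_
    rw [n2sq, C.star_r, ← C.r_mul, neg_mul_neg]
    rfl
  have hnΔ : 1 / σ / 2 * C.n2sq Δ ≤ η ^ 2 * (R0 * C.ig ((a * ρ) * (a * ρ)))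
      + η ^ 3 * (R * (500000000 * R ^ 6 + (2 * R ^ 7 + wtConst R)) ^ 2) := by
    set B := η ^ 2 • A2 + A3
    have hB : ‖B‖ ≤ η ^ 2 * (500000000 * R ^ 6 + (2 * R ^ 7 + wtConst R)) := by
      refine (norm_add_le _ _).trans ?_
      rw [mul_add, norm_smul, Real.norm_of_nonneg (sq_nonneg η)]
      refine add_le_add (mul_le_mul_of_nonneg_left hA2b (sq_nonneg η)) (hA3b.trans ?_)
      exact mul_le_mul_of_nonneg_right (pow_le_pow_of_le_one hη.le hη' (by norm_num))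
        (by positivity)
    have hB2 : C.n2sq B ≤ η ^ 3 * (500000000 * R ^ 6 + (2 * R ^ 7 + wtConst R)) ^ 2 := by
      refine (C.n2sq_le_norm_sq B).trans ((pow_le_pow_left₀ (norm_nonneg _) hB 2).trans ?_)
      rw [mul_pow, ← pow_mul]
      exact mul_le_mul_of_nonneg_right (pow_le_pow_of_le_one hη.le hη' (by norm_num))
        (sq_nonneg _)
    have hA1' : C.n2sq (η • A1) = η ^ 2 * C.n2sq A1 := by
      simp [n2sq, C.tr_smul, smul_smul, sq]
    have hsum : C.n2sq Δ ≤ 2 * C.n2sq (η • A1) + 2 * C.n2sq B := by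
      rw [show Δ = η • A1 + B by simp only [hΔ, B]; abel]
      exact C.n2sq_add_two_le _ _
    have hs0 : 0 ≤ 1 / σ := by have := hP.σ_pos; positivity
    have hB0 : 0 ≤ C.n2sq B := C.tr_nonneg (star_mul_self_nonneg _)
    have h10 : 0 ≤ C.n2sq A1 := C.tr_nonneg (star_mul_self_nonneg _)
    calc 1 / σ / 2 * C.n2sq Δ ≤ 1 / σ * (η ^ 2 * C.n2sq A1) + 1 / σ * C.n2sq B := by
          rw [← hA1']
          nlinarith [mul_le_mul_of_nonneg_left hsum hs0]
      _ ≤ R0 * (η ^ 2 * C.ig ((a * ρ) * (a * ρ)))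
          + R * (η ^ 3 * (500000000 * R ^ 6 + (2 * R ^ 7 + wtConst R)) ^ 2) :=
        add_le_add (mul_le_mul hσ (mul_le_mul_of_nonneg_left hn1 (sq_nonneg _))
            (by positivity) (by linarith))
          (mul_le_mul (hσ.trans hRR) hB2 hB0 (by linarith))
      _ = _ := by ring
  have htG : ν * C.tr (G' : M) = ν * C.tr (G : M) + η * (ν * C.tr ((G : M) * (p * C.r k * p) * G))
      := by rw [hG'v, C.tr_add, C.tr_smul]; ring
  have hA2t : C.tr (W * A2) = C.loss p σ l a e b G k + C.ig (q2 * V) := by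
    rw [hA2, mul_add, C.tr_add, C.tr_dmat_conj hP.p_nonneg, loss, ← hWdef, ← hVdef]
    congr 1
    rw [← mul_assoc, ← mul_assoc, C.tr_cycle, C.tr_comm _ (p * W * p)]
    simp only [mul_assoc]
  have hV := fun x => C.dens_bounds (a := a) (e := e) (b := b) hP hG x
  have hZn : 0 ≤ p * (C.r k * cG p G * C.r k) * p :=
    conjugate_nonneg_of_nonneg
      ((C.r_isSelfAdjoint k).conjugate_nonneg (conjugate_nonneg_of_nonneg hG hP.p_nonneg))
      hP.p_nonneg
  have hR3 : R ≤ R ^ 3 := le_self_pow₀ hR (by norm_num)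
  have hZR : ‖p * (C.r k * cG p G * C.r k) * p‖ ≤ R ^ 3 := by
    refine (norm_pzp_le hP _).trans ?_
    have hkn : ‖C.r k‖ ≤ R := (C.norm_r_le k).trans hk
    rw [pow_three', mul_assoc, mul_assoc]
    exact (norm_mul_le _ _).trans (mul_le_mul hkn ((norm_mul_le _ _).trans (mul_le_mul
      ((norm_pzp_le hP _).trans (norm_le_of_nonneg_le hRpos.le hG hGR')) hkn (norm_nonneg _)
        hRpos.le)) (norm_nonneg _) hRpos.le)
  have hst := C.stationary hP h hG (one_le_pow₀ (n := 3) hR) ((hσ.trans hRR).trans hR3)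
    (hGR'.trans (algebraMap_mono M hR3)) hZn hZR ht ht1 hmin
  set Q := C.Er (p * ((G : M) * (p * (C.r k * cG p G * C.r k) * p) * G) * p) with hQ
  have hWZ : C.tr (W * (p * (C.r k * cG p G * C.r k) * p)) = C.loss p σ l a e b G k := by
    rw [loss, ← hWdef, ← mul_assoc, ← mul_assoc, C.tr_cycle, C.tr_comm _ (p * W * p)]
    simp only [mul_assoc]
  rw [← hγdef, ← hVdef, ← hWdef, hWZ, show 200 * (R ^ 3) ^ 13 * t = 200 * R ^ 39 * t by ring]
    at hst
  have hpt := C.q2Fn_mul_dens_le (σ := σ) (l := l) hP h hhi hG hR0 hGR (h0 := h0) hka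
  rw [← hq2def, ← hγdef, ← hVdef, ← hQ] at hpt
  have hig := C.ig_mono hpt
  rw [C.ig_add, C.ig_sub, C.ig_smul, C.ig_smul, C.ig_smul] at hig
  have hρ2 : C.ig ((a * ρ) * (a * ρ)) ≤ 16000000 * C.ig ((a * h0) * (a * h0)) := by
    rw [← C.ig_smul]
    refine C.ig_mono (ContinuousMap.le_def.2 fun x => ?_)
    simp only [hρdef, ContinuousMap.mul_apply, ContinuousMap.smul_apply, smul_eq_mul, φbc_apply]
    have hb2 : φb (b x) (γ x) * φb (b x) (γ x) ≤ 4000 * 4000 :=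
      mul_le_mul (φb_le _ _) (φb_le _ _) (φb_pos _ _).le (by norm_num)
    have := mul_le_mul_of_nonneg_right hb2 (mul_self_nonneg (a x * h0 x))
    linarith
  have hH0 : 0 ≤ C.ig ((a * h0) * (a * h0)) :=
    C.ig_nonneg (ContinuousMap.le_def.2 fun x => by simpa using mul_self_nonneg (a x * h0 x))
  have hquad : C.tr (W * A2) + R0 * C.ig ((a * ρ) * (a * ρ))
      ≤ 3 / 2 * C.loss p σ l a e b G k - 33 / 20 * C.ig (k * k * V * sqc b γ)
        + resConst R0 * C.ig ((a * h0) * (a * h0)) + ζ / t + 200 * R ^ 39 * t := by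
    rw [hA2t]
    have := mul_le_mul_of_nonneg_left hρ2 (by linarith : 0 ≤ R0)
    have h1 : 0 ≤ ζ / t := div_nonneg hζ ht.le
    have h2 : 0 ≤ 200 * R ^ 39 * t := by positivity
    have h3 : 0 ≤ R0 * C.ig ((a * h0) * (a * h0)) := mul_nonneg (by linarith) hH0
    unfold resConst
    linarith
  have hquad' := mul_le_mul_of_nonneg_left hquad (sq_nonneg η)
  have hl1 : C.lin p σ l ν a e b G k h0
      = C.tr (W * A1) + ν * C.tr ((G : M) * (p * C.r k * p) * G) := by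
    rw [lin, ← hWdef, ← hγdef, hA1, hρdef, mul_assoc a]
  unfold pot colConst
  rw [hl1]

  have hW' : cfc (f' u0 σ l) (C.mat p a e b G) = W := rfl
  rw [hW'] at h2
  linarith [mul_le_mul_of_nonneg_left hA3b (by norm_num : (0:ℝ) ≤ 3)]

end Core

end Vale.Agent.P078.Tracial
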