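import Vale.Agent.P078.Tracial.StepColour
import Vale.Agent.P078.Tracial.Signs
import Vale.Agent.P078.Tracial.Cov

/-! An approximate minimiser has a small unassigned set. -/

namespace Vale.Agent.P078.Tracial

set_option linter.unusedSectionVars false

open Filter Topology ComplexOrder Scalar

/-- The bound on the coefficients of the constraint. -/
noncomputable def coefBound (l R0 : ℝ) : ℝ :=
  3 + R0 + (√(l / 400))⁻¹ + 8 * R0 ^ 4

variable {M X : Type*} [CStarAlgebra M] [PartialOrder M] [StarOrderedRing M]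
variable [TopologicalSpace X] [CompactSpace X] [T2Space X] [TotallyDisconnectedSpace X]

namespace Core

variable (C : Core M X) {p : M} {σ l ν : ℝ} {r : ℕ}

/-- The scale of the noise of one colour. -/
noncomputable def muFn (p : M) (σ l : ℝ) (hl : 0 < l) (a e b : C(X, ℝ)) (G : Mˣ) : C(X, ℝ) :=
  a * isqrtC (C.dens p σ l a e b G * sqc b (C.gam p G)) (l / 400) (by linarith)

/-- The data of the step at a state. -/
noncomputable def stepData (p : M) (σ l : ℝ) (hl : 0 < l) (s : Config M X r) :
    StepData M X r where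
  act := s.act
  U := s.U
  μ c := C.muFn p σ l hl (s.act c) (s.ass c) (s.b c) (s.G c)
  m c := C.mFn p (s.act c) (s.b c) (s.G c)
  n c := C.nFn p (s.act c) (s.b c) (s.G c)
  G c := cG p (s.G c)
  W c := p * C.dmat p σ l (s.act c) (s.ass c) (s.b c) (s.G c) * p

theorem stepData_μ (p : M) (σ l : ℝ) (hl : 0 < l) (s : Config M X r) (c : Fin r) :
    (C.stepData p σ l hl s).μ c = C.muFn p σ l hl (s.act c) (s.ass c) (s.b c) (s.G c) := by
  rw [stepData]

theorem mul_act_eq {f : C(X, ℝ)} {a : C(X, ℝ)} (ha : ∀ x, a x = 0 ∨ a x = 1)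
    (h : ∀ x, a x = 0 → f x = 0) : f * a = f := by
  ext x
  rcases ha x with h' | h' <;> simp [h', h x]

theorem stepData_ok (hP : Par p σ l ν) {s : Config M X r} (hs : s.Ok) (hcl : s.Clean) {R0 : ℝ}
    (hR0 : 1 ≤ R0) (hGR : ∀ c, (s.G c : M) ≤ algebraMap ℝ M R0) :
    (C.stepData p σ l hP.l_pos s).Ok (coefBound l R0) where
  act_01 := hs.act_01
  U_01 := hs.U_01
  act_le := hs.act_le
  μ_act c := mul_act_eq (hs.act_01 c) fun x h => by simp only [stepData] at h; simp [stepData, muFn, h]
  m_act c := mul_act_eq (hs.act_01 c) fun x h => by simp only [stepData] at h; simp [stepData, mFn, h]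
  n_act c := mul_act_eq (hs.act_01 c) fun x h => by simp only [stepData] at h; simp [stepData, nFn, h]
  bdd c := by
    have hs0 : 0 ≤ (√(l / 400))⁻¹ := by positivity
    have h4 : 2 * R0 ^ 3 ≤ 8 * R0 ^ 4 := by
      linarith [pow_le_pow_right₀ hR0 (by norm_num : 3 ≤ 4), pow_nonneg (zero_le_one.trans hR0) 4]
    have h40 : 0 ≤ 8 * R0 ^ 4 := by positivity
    have hN : 0 ≤ coefBound l R0 := by unfold coefBound; linarith
    have hγ : ∀ x, 0 ≤ C.gam p (s.G c) x ∧ C.gam p (s.G c) x ≤ R0 := fun x =>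
      ⟨ContinuousMap.le_def.1 (C.gam_nonneg hP.p_nonneg (hs.G_nonneg c)) x,
        C.gam_le hP (hs.G_nonneg c) (by linarith) (hGR c) x⟩
    have hi : ∀ x, s.act c x = 1 → 0 ≤ (φb (s.b c x) (C.gam p (s.G c) x))⁻¹ ∧
        (φb (s.b c x) (C.gam p (s.G c) x))⁻¹ ≤ 2 * R0 ^ 3 := fun x h =>
      ⟨inv_nonneg.2 (φb_pos _ _).le,
        inv_φb_le (hs.b_act c x h) (hcl.high c x h) hR0 (hγ x).1 (hγ x).2⟩
    refine ⟨?_, ?_, ?_, ?_, ?_⟩
    · refine le_trans (norm_le_of_abs (by positivity) fun x => ?_)
        (show (√(l / 400))⁻¹ ≤ coefBound l R0 by unfold coefBound; linarith)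
      have := abs_apply_le (norm_isqrtC_le (C.dens p σ l (s.act c) (s.ass c) (s.b c) (s.G c)
        * sqc (s.b c) (C.gam p (s.G c))) (by linarith [hP.l_pos] : 0 < l / 400)) x
      rcases hs.act_01 c x with h | h
      · simp [stepData, muFn, h]; positivity
      · simpa [stepData, muFn, h] using this
    · refine norm_le_of_abs hN fun x => ?_
      rcases hs.act_01 c x with h | h
      · simp [stepData, mFn, h, hN]
      · simp [stepData, mFn, h, abs_of_nonneg (φb_pos _ _).le]
        unfold coefBound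
        linarith [(hi x h).2]
    · refine norm_le_of_abs hN fun x => ?_
      rcases hs.act_01 c x with h | h
      · simp [stepData, nFn, h, hN]
      · have h1 := φγ_nonneg (s.b c x) (hγ x).1
        have h2 := mul_le_mul (φγ_le (s.b c x) (hγ x).1 (hγ x).2) (hi x h).2 (hi x h).1
          (by linarith)
        simp [stepData, nFn, h, abs_of_nonneg (φb_pos _ _).le, abs_of_nonneg h1]
        have h5 : 4 * R0 * (2 * R0 ^ 3) = 8 * R0 ^ 4 := by ring
        unfold coefBound
        linarith
    · refine ((norm_pzp_le hP _).trans (norm_le_of_nonneg_le (by linarith)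
        (hs.G_nonneg c) (hGR c))).trans ?_
      unfold coefBound; linarith
    · refine ((norm_pzp_le hP _).trans (C.dmat_norm_le hP)).trans ?_
      unfold coefBound; linarith
  G_nonneg c := conjugate_nonneg_of_nonneg (hs.G_nonneg c) hP.p_nonneg
  W_nonneg c := conjugate_nonneg_of_nonneg
    (cfc_nonneg fun t _ => hP.l_pos.le.trans (le_f' hP.σ_pos t)) hP.p_nonneg

theorem lossB_parallelogram (d : StepData M X r) (c : Fin r) (v w : C(X, ℝ)) :
    C.lossB d c (v + w) + C.lossB d c (v - w) = 2 * C.lossB d c v + 2 * C.lossB d c w := by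
  simp only [lossB, mul_add, mul_sub, C.r_add, C.r_sub, add_mul, sub_mul, C.tr_add, C.tr_sub]
  ring

theorem constr_add (d : StepData M X r) (v w : Fin r → C(X, ℝ)) :
    C.constr d (v + w) = C.constr d v + C.constr d w := by
  simp only [constr, Pi.add_apply, mul_add, C.K_add, ← Finset.sum_add_distrib]
  exact Finset.sum_congr rfl fun c _ => by abel

theorem constr_neg (d : StepData M X r) (v : Fin r → C(X, ℝ)) :
    C.constr d (-v) = -C.constr d v := by
  have h0 : C.constr d 0 = 0 := by
    have := C.constr_add d 0 0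
    simpa using this
  have h := C.constr_add d v (-v)
  rw [add_neg_cancel, h0] at h
  exact eq_neg_of_add_eq_zero_right h.symm

/-- The quadratic form controlling the second order change. -/
noncomputable def quad (d : StepData M X r) (K : ℝ) (v : Fin r → C(X, ℝ)) : ℝ :=
  (∑ c, (3 / 2 * C.lossB d c (v c) - 33 / 20 * C.ig (v c * v c)))
    + K * C.ig (C.constr d v * C.constr d v)

theorem quad_parallelogram (d : StepData M X r) (K : ℝ) (v w : Fin r → C(X, ℝ)) :
    C.quad d K (v + w) + C.quad d K (v - w) = 2 * C.quad d K v + 2 * C.quad d K w := by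
  have hsq : ∀ f g : C(X, ℝ), C.ig ((f + g) * (f + g)) + C.ig ((f - g) * (f - g))
      = 2 * C.ig (f * f) + 2 * C.ig (g * g) := fun f g => by
    rw [← C.ig_add, ← C.ig_smul, ← C.ig_smul, ← C.ig_add]
    congr 1
    ext x
    simp
    ring
  have hsum : (∑ c, (3 / 2 * C.lossB d c ((v + w) c) - 33 / 20 * C.ig ((v + w) c * (v + w) c)))
      + (∑ c, (3 / 2 * C.lossB d c ((v - w) c) - 33 / 20 * C.ig ((v - w) c * (v - w) c)))
      = 2 * (∑ c, (3 / 2 * C.lossB d c (v c) - 33 / 20 * C.ig (v c * v c)))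
        + 2 * (∑ c, (3 / 2 * C.lossB d c (w c) - 33 / 20 * C.ig (w c * w c))) := by
    rw [Finset.mul_sum, Finset.mul_sum, ← Finset.sum_add_distrib, ← Finset.sum_add_distrib]
    refine Finset.sum_congr rfl fun c _ => ?_
    have h1 := C.lossB_parallelogram d c (v c) (w c)
    have h2 := hsq (v c) (w c)
    simp only [Pi.add_apply, Pi.sub_apply]
    linarith
  have h3 := hsq (C.constr d v) (C.constr d w)
  have hcs : C.constr d (v - w) = C.constr d v - C.constr d w := by
    rw [sub_eq_add_neg, C.constr_add, C.constr_neg, ← sub_eq_add_neg]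
  unfold quad
  rw [C.constr_add, hcs]
  linear_combination hsum + K * h3

theorem norm_constr_le (d : StepData M X r) {N B : ℝ} (hd : d.Ok N) (hN : 0 ≤ N)
    (v : Fin r → C(X, ℝ)) (hv : ∀ c, ‖v c‖ ≤ B) :
    ‖C.constr d v‖ ≤ r * (N * (N * B) + N * (N ^ 2 * (N * B))) := by
  refine (norm_sum_le _ _).trans ((Finset.sum_le_sum fun c _ => ?_).trans_eq
    (by rw [Finset.sum_const, Finset.card_univ, Fintype.card_fin, nsmul_eq_mul]))
  obtain ⟨hμ, hm, hn, hG, -⟩ := hd.bdd c
  have hk : ‖d.μ c * v c‖ ≤ N * B :=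
    (norm_mul_le _ _).trans (mul_le_mul hμ (hv c) (norm_nonneg _) hN)
  refine (norm_sub_le _ _).trans (add_le_add ?_ ?_)
  · exact (norm_mul_le _ _).trans (mul_le_mul hm hk (norm_nonneg _) hN)
  · refine (norm_mul_le _ _).trans (mul_le_mul hn ((C.norm_K_le _ _).trans ?_) (norm_nonneg _) hN)
    exact mul_le_mul (pow_le_pow_left₀ (norm_nonneg _) hG 2) hk (norm_nonneg _) (sq_nonneg N)

/-- At an approximate minimiser the quadratic form is almost nonnegative. -/
theorem quad_ge (hP : Par p σ l ν) {s : Config M X r} (hs : s.Ok) (hcl : s.Clean)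
    {R0 R B : ℝ} (hR0 : 1 ≤ R0) (hσ : 1 / σ ≤ R0)
    (hG : ∀ c, algebraMap ℝ M (1 / R0) ≤ (s.G c : M) ∧ (s.G c : M) ≤ algebraMap ℝ M R0)
    {ζ : ℝ} (hζ : 0 ≤ ζ) (hmin : ∀ t : Config M X r, t.Ok →
      C.Psi p σ l ν s ≤ C.Psi p σ l ν t + ζ)
    (hRR : R0 ≤ R) (hR1 : coefBound l R0 * B ≤ R)
    (hR2 : r * (coefBound l R0 * (coefBound l R0 * B)
      + coefBound l R0 * (coefBound l R0 ^ 2 * (coefBound l R0 * B))) ≤ R)
    {η : ℝ} (hη : 0 < η) (hη1 : η ≤ 1 / (50000000 * R ^ 7)) {τ : ℝ} (hτ : 0 < τ) (hτ1 : τ ≤ 1)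
    (w : Fin r → C(X, ℝ)) (hw : ∀ c, s.act c * w c = w c) (hwB : ∀ c, ‖w c‖ ≤ B) :
    0 ≤ ζ + η ^ 2 * (C.quad (C.stepData p σ l hP.l_pos s) (resConst R0 * r) w
        + r * (ζ / τ + 200 * R ^ 39 * τ)) + η ^ 3 * (r * colConst R) := by
  classical
  set d := C.stepData p σ l hP.l_pos s with hd
  have hR : 1 ≤ R := hR0.trans hRR
  have hdOk := C.stepData_ok hP hs hcl hR0 fun c => (hG c).2
  have hN : 0 ≤ coefBound l R0 := by unfold coefBound; positivity
  -- the resolvent of one colour alone
  have hmin1 : ∀ c (G' : Mˣ), 0 ≤ (G' : M) →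
      C.pot p σ l ν (s.act c) (s.ass c) (s.b c) (s.G c)
        ≤ C.pot p σ l ν (s.act c) (s.ass c) (s.b c) G' + ζ := fun c G' hG' => by
    set t : Config M X r := ⟨s.ass, s.act, s.b, Function.update s.G c G'⟩ with ht
    have htok : t.Ok := ⟨hs.ass_01, hs.act_01, hs.U_01, hs.act_le, hs.b_sum, hs.b_supp,
      hs.b_drop, hs.b_act, fun c' => by
        by_cases h : c' = c
        · subst h; simpa [ht] using hG'
        · simpa [ht, Function.update_of_ne h] using hs.G_nonneg c'⟩
    have h1 := hmin t htok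
    have e : C.Psi p σ l ν t - C.pot p σ l ν (s.act c) (s.ass c) (s.b c) G'
        = C.Psi p σ l ν s - C.pot p σ l ν (s.act c) (s.ass c) (s.b c) (s.G c) := by
      unfold Psi
      rw [← Finset.add_sum_erase _ _ (Finset.mem_univ c),
        ← Finset.add_sum_erase _ _ (Finset.mem_univ c)]
      have : ∀ c' ∈ Finset.univ.erase c, t.G c' = s.G c' := fun c' h => by
        simp [ht, Function.update_of_ne (Finset.ne_of_mem_erase h)]
      rw [Finset.sum_congr rfl (fun c' h => by rw [this c' h] :
        ∀ c' ∈ Finset.univ.erase c, C.pot p σ l ν (t.act c') (t.ass c') (t.b c') (t.G c')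
          = C.pot p σ l ν (s.act c') (s.ass c') (s.b c') (s.G c'))]
      simp [ht]
    linarith
  set atot : C(X, ℝ) := ∑ c, s.act c with hatot
  set ia : C(X, ℝ) := ⟨fun x => (max (atot x) 1)⁻¹,
    Continuous.inv₀ (by fun_prop) fun x => (lt_max_of_lt_right one_pos).ne'⟩ with hia
  set res := C.constr d w with hres
  set h0 : C(X, ℝ) := res * ia with hh0
  set k : Fin r → C(X, ℝ) := fun c => d.μ c * w c with hk
  have hresb : ‖res‖ ≤ R := (C.norm_constr_le d hdOk hN w hwB).trans hR2
  have hkb : ∀ c, ‖k c‖ ≤ R := fun c =>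
    (norm_mul_le _ _).trans ((mul_le_mul (hdOk.bdd c).1 (hwB c) (norm_nonneg _) hN).trans hR1)
  have hia1 : ∀ x, 0 ≤ ia x ∧ ia x ≤ 1 := fun x =>
    ⟨inv_nonneg.2 (zero_le_one.trans (le_max_right _ _)),
      inv_le_one_of_one_le₀ (le_max_right _ _)⟩
  have hh0b : ‖h0‖ ≤ R := norm_le_of_abs (by linarith) fun x => by
    rw [hh0, ContinuousMap.mul_apply, abs_mul, abs_of_nonneg (hia1 x).1]
    calc |res x| * ia x ≤ R * 1 :=
          mul_le_mul (abs_apply_le hresb x) (hia1 x).2 (hia1 x).1 (by linarith)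
      _ = R := mul_one R
  have hka : ∀ c, k c * s.act c = k c := fun c => by
    rw [hk, mul_assoc, mul_comm (w c), hw]
  -- the two opposite moves
  have hmove : ∀ sg : ℝ, sg = 1 ∨ sg = -1 →
      0 ≤ ζ + sg * (η * ∑ c, C.lin p σ l ν (s.act c) (s.ass c) (s.b c) (s.G c) (k c) h0)
        + η ^ 2 * (C.quad d (resConst R0 * r) w + r * (ζ / τ + 200 * R ^ 39 * τ))
        + η ^ 3 * (r * colConst R) := by
    intro sg hsg
    have hkb' : ∀ c, ‖sg • k c‖ ≤ R := fun c => by
      rcases hsg with h | h <;> simp [h, hkb c]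
    have hhb' : ‖sg • h0‖ ≤ R := by rcases hsg with h | h <;> simp [h, hh0b]
    have hstep := fun c => C.colour_step hP (hs.col c) (hcl.low c) (hcl.high c) (hs.G_nonneg c)
      hR0 hRR hσ (hG c).1 (hG c).2 (hkb' c) hhb'
      (show sg • k c * s.act c = sg • k c by rw [smul_mul_assoc, hka c])
      hη hη1 hτ hτ1 hζ (hmin1 c)
    choose hnew G' hG'0 hpot using hstep
    set D : Fin r → C(X, ℝ) := fun c =>
      C.dir p (s.act c) (s.b c) (s.G c) (sg • k c) (sg • h0) with hD
    have hDoff : ∀ c x, s.act c x = 0 → D c x = 0 := fun c x h => by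
      simp [hD, dir, mFn, nFn, h]
    have hDsum : ∑ c, D c = 0 := by
      ext x
      have hr1 : ∑ c, ((d.m c * (d.μ c * w c)) x - (d.n c * C.K (d.G c) (d.μ c * w c)) x)
          = res x := by
        simp [hres, constr]
      have he : ∑ c, D c x = sg * (res x - atot x * h0 x) := by
        rw [← hr1, mul_sub, hatot]
        simp only [ContinuousMap.coe_sum, Finset.sum_apply]
        rw [Finset.sum_mul, Finset.mul_sum, Finset.mul_sum, ← Finset.sum_sub_distrib]
        refine Finset.sum_congr rfl fun c _ => ?_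
        simp only [hD, dir, C.K_smul, ContinuousMap.sub_apply, ContinuousMap.mul_apply,
          ContinuousMap.smul_apply, smul_eq_mul, hd, stepData, hk]
        ring
      simp only [ContinuousMap.coe_sum, Finset.sum_apply, ContinuousMap.zero_apply]
      rw [he]
      by_cases hex : ∃ c, s.act c x = 1
      · obtain ⟨c0, hc0⟩ := hex
        have hnn : ∀ c ∈ (Finset.univ : Finset (Fin r)), 0 ≤ s.act c x := fun c _ => by
          rcases hs.act_01 c x with h | h <;> simp [h]
        have h1 : 1 ≤ atot x := by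
          rw [hatot]
          simp only [ContinuousMap.coe_sum, Finset.sum_apply]
          calc (1 : ℝ) = s.act c0 x := hc0.symm
            _ ≤ _ := Finset.single_le_sum hnn (Finset.mem_univ c0)
        simp only [hh0, hia, ContinuousMap.mul_apply, ContinuousMap.coe_mk, max_eq_left h1]
        field_simp
        ring
      · have hall : ∀ c, s.act c x = 0 := fun c =>
          (hs.act_01 c x).resolve_right fun h => hex ⟨c, h⟩
        have hr0 : res x = 0 := by
          rw [← hr1]
          exact Finset.sum_eq_zero fun c _ => by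
            simp [hd, stepData, mFn, nFn, hall c]
        simp [hh0, hr0]
    set t : Config M X r := ⟨s.ass, s.act, fun c => s.b c + η • D c, G'⟩ with ht
    have htok : t.Ok := ⟨hs.ass_01, hs.act_01, hs.U_01, hs.act_le, by
        show ∑ c, (s.b c + η • D c) = s.U
        rw [Finset.sum_add_distrib, ← Finset.smul_sum, hDsum, smul_zero, add_zero, hs.b_sum],
      fun c x h => by
        have ha : s.act c x = 0 := by
          have h1 := hs.act_le c x
          have h2 : s.U x = 0 := h
          rcases hs.act_01 c x with ha | ha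
          · exact ha
          · linarith
        simp [ht, hDoff c x ha, hs.b_supp c x h],
      fun c x h => by
        simpa [ht, hDoff c x h] using hs.b_drop c x h,
      fun c x h => by simpa [ht] using hnew c x h, hG'0⟩
    have hlin : ∀ c, C.lin p σ l ν (s.act c) (s.ass c) (s.b c) (s.G c) (sg • k c) (sg • h0)
        = sg * C.lin p σ l ν (s.act c) (s.ass c) (s.b c) (s.G c) (k c) h0 := fun c => by
      simp only [lin, mul_smul_comm, smul_mul_assoc, C.r_smul, mul_neg,
        ← smul_neg, C.tr_smul, C.tr_neg]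
      ring
    have hsg2 : sg * sg = 1 := by rcases hsg with h | h <;> simp [h]
    have hquad : ∀ c, 3 / 2 * C.loss p σ l (s.act c) (s.ass c) (s.b c) (s.G c) (sg • k c)
        - 33 / 20 * C.ig (sg • k c * (sg • k c) * C.dens p σ l (s.act c) (s.ass c) (s.b c) (s.G c)
            * sqc (s.b c) (C.gam p (s.G c)))
        + resConst R0 * C.ig (s.act c * (sg • h0) * (s.act c * (sg • h0)))
        ≤ 3 / 2 * C.lossB d c (w c) - 33 / 20 * C.ig (w c * w c)
          + resConst R0 * C.ig (res * res) := fun c => by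
      have e1 : C.loss p σ l (s.act c) (s.ass c) (s.b c) (s.G c) (sg • k c)
          = C.lossB d c (w c) := by
        simp only [loss, lossB, C.r_smul, smul_mul_assoc, mul_smul_comm, smul_smul, hsg2,
          one_smul, hd, stepData, hk]
      have e2 : sg • k c * (sg • k c) * C.dens p σ l (s.act c) (s.ass c) (s.b c) (s.G c)
          * sqc (s.b c) (C.gam p (s.G c)) = w c * w c := by
        ext x
        have hwx := congrArg (fun f : C(X, ℝ) => f x) (hw c)
        simp only [ContinuousMap.mul_apply] at hwx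
        simp only [ContinuousMap.mul_apply, ContinuousMap.smul_apply, smul_eq_mul, hk, hd,
          stepData, muFn]
        rcases hs.act_01 c x with ha | ha
        · rw [ha, zero_mul] at hwx
          rw [← hwx]; ring
        · set V := C.dens p σ l (s.act c) (s.ass c) (s.b c) (s.G c)
          set S := sqc (s.b c) (C.gam p (s.G c))
          have hV := (C.dens_bounds (a := s.act c) (e := s.ass c) (b := s.b c) hP
            (hs.G_nonneg c) x).1
          have hS : 7 / 10 ≤ S x := sqrt_half_gt (le_max_right _ _)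
          have hl := hP.l_pos
          have hVS : l / 400 ≤ (V * S) x := by
            rw [ContinuousMap.mul_apply]
            nlinarith [mul_le_mul hV hS (by norm_num) (le_trans (by linarith) hV)]
          have hne : V x * S x ≠ 0 := by
            rw [← ContinuousMap.mul_apply]; linarith
          have hi := isqrtC_sq (f := V * S) (by linarith : 0 < l / 400) hVS
          rw [ContinuousMap.mul_apply] at hi
          calc sg * (s.act c x * isqrtC (V * S) (l / 400) _ x * w c x)
              * (sg * (s.act c x * isqrtC (V * S) (l / 400) _ x * w c x)) * V x * S x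
              = (sg * sg) * (s.act c x * s.act c x)
                * (isqrtC (V * S) (l / 400) (by linarith) x ^ 2 * (V x * S x))
                * (w c x * w c x) := by ring
            _ = w c x * w c x := by rw [hi, hsg2, ha, inv_mul_cancel₀ hne]; ring
      have e3 : C.ig (s.act c * (sg • h0) * (s.act c * (sg • h0))) ≤ C.ig (res * res) := by
        refine C.ig_mono (ContinuousMap.le_def.2 fun x => ?_)
        simp only [ContinuousMap.mul_apply, ContinuousMap.smul_apply, smul_eq_mul, hh0]
        have h1 := hia1 x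
        have hi2 : ia x * ia x ≤ 1 := mul_le_one₀ h1.2 h1.1 h1.2
        rcases hs.act_01 c x with ha | ha <;> rw [ha]
        · simpa using mul_self_nonneg (res x)
        · calc 1 * (sg * (res x * ia x)) * (1 * (sg * (res x * ia x)))
              = (sg * sg) * (ia x * ia x) * (res x * res x) := by ring
            _ ≤ res x * res x := by
              rw [hsg2, one_mul]
              exact mul_le_of_le_one_left (mul_self_nonneg _) hi2
      rw [e1, e2]
      have hR00 : 0 ≤ resConst R0 := by unfold resConst; linarith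
      linarith [mul_le_mul_of_nonneg_left e3 hR00]
    have hbound : ∀ c, C.pot p σ l ν (t.act c) (t.ass c) (t.b c) (t.G c)
        ≤ C.pot p σ l ν (s.act c) (s.ass c) (s.b c) (s.G c)
          + sg * (η * C.lin p σ l ν (s.act c) (s.ass c) (s.b c) (s.G c) (k c) h0)
          + η ^ 2 * ((3 / 2 * C.lossB d c (w c) - 33 / 20 * C.ig (w c * w c))
              + (resConst R0 * C.ig (res * res) + (ζ / τ + 200 * R ^ 39 * τ)))
          + η ^ 3 * colConst R := fun c => by
      have h1 := hpot c
      have h2 := mul_le_mul_of_nonneg_left (hquad c) (sq_nonneg η)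
      rw [hlin c] at h1
      simp only [ht, hD]
      linarith
    have h3 := hmin t htok
    have h4 : C.Psi p σ l ν t ≤ _ := Finset.sum_le_sum fun c _ => hbound c
    rw [Finset.sum_add_distrib, Finset.sum_add_distrib, Finset.sum_add_distrib,
      ← Finset.mul_sum, ← Finset.mul_sum, ← Finset.mul_sum, Finset.sum_add_distrib,
      Finset.sum_const, Finset.sum_const, Finset.card_univ, Fintype.card_fin, nsmul_eq_mul,
      nsmul_eq_mul] at h4
    change C.Psi p σ l ν t ≤ C.Psi p σ l ν s + _ + _ + _ at h4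
    unfold quad
    linarith
  have h1 := hmove 1 (Or.inl rfl)
  have h2 := hmove (-1) (Or.inr rfl)
  linarith

end Core

namespace Core

/-- The main term of the loss is at most the active mass. -/
theorem loss_main_le (C : Core M X) {p : M} {σ l ν : ℝ} {r : ℕ} (hP : Par p σ l ν)
    {s : Config M X r} (hs : s.Ok) :
    ∑ c, C.ig ((C.stepData p σ l hP.l_pos s).μ c ^ 2 * (C.stepData p σ l hP.l_pos s).act c
        * C.Er ((C.stepData p σ l hP.l_pos s).G c) * C.Er ((C.stepData p σ l hP.l_pos s).W c))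
      ≤ ∑ c, C.ig ((C.stepData p σ l hP.l_pos s).act c) := by
  have hl := hP.l_pos
  set d := C.stepData p σ l hP.l_pos s with hd
  refine Finset.sum_le_sum fun c _ => C.ig_mono (ContinuousMap.le_def.2 fun x => ?_)
  set V := C.dens p σ l (s.act c) (s.ass c) (s.b c) (s.G c) with hVd
  set S := sqc (s.b c) (C.gam p (s.G c)) with hSd
  have eG : C.Er (d.G c) = C.gam p (s.G c) := rfl
  have eW : C.Er (d.W c) = V := rfl
  have eA : d.act c = s.act c := rfl
  have eμ : d.μ c = C.muFn p σ l hP.l_pos (s.act c) (s.ass c) (s.b c) (s.G c) := by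
    rw [hd]; exact Core.stepData_μ C _ _ _ _ _ _
  rw [Core.muFn] at eμ
  rw [eG, eW, eA, eμ]
  simp only [ContinuousMap.mul_apply, ContinuousMap.pow_apply]
  rcases hs.act_01 c x with ha | ha
  · simp [ha]
  · simp only [ha, one_mul, mul_one]
    have hb := hs.b_act c x ha
    have hV := (C.dens_bounds (a := s.act c) (e := s.ass c) (b := s.b c) hP
      (hs.G_nonneg c) x).1
    have hS : 7 / 10 ≤ S x := sqrt_half_gt (le_max_right _ _)
    have hV0 : 0 < V x := lt_of_lt_of_le (by linarith) hV
    have hVS : l / 400 ≤ (V * S) x := by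
      rw [ContinuousMap.mul_apply]
      nlinarith [mul_le_mul hV hS (by norm_num) hV0.le]
    have hγS : C.gam p (s.G c) x ≤ S x := by
      rw [hSd, sqc_eq hb]; exact sqrt_arg_ge hb
    have hi := isqrtC_sq (f := V * S) (by linarith : 0 < l / 400) hVS
    rw [ContinuousMap.mul_apply] at hi
    rw [hi, mul_assoc, inv_mul_le_one₀ (mul_pos hV0 (by linarith))]
    rw [mul_comm (C.gam p (s.G c) x)]
    exact mul_le_mul_of_nonneg_left hγS hV0.le

/-- Many colours are active on the unassigned set. -/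
theorem many_active_ig (C : Core M X) {r : ℕ} {s : Config M X r} (hs : s.Ok) (hcl : s.Clean) :
    24 * C.ig s.U ≤ ∑ c, C.ig (s.act c) := by
  rw [← C.ig_smul, ← C.ig_sum]
  refine C.ig_mono (ContinuousMap.le_def.2 fun x => ?_)
  simpa using hs.many_active hcl x

/-- The average of the quadratic form over the orthogonal noise. -/
theorem sum_quad_le (C : Core M X) {p : M} {σ l ν : ℝ} {r : ℕ} (hP : Par p σ l ν)
    {s : Config M X r} (hs : s.Ok) (hcl : s.Clean) {K ε' : ℝ} (hK : 0 ≤ K) {π : DiscreteQuotient X}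
    {P : (Fin r → C(X, ℝ)) →ₗ[ℝ] (Fin r → C(X, ℝ))}
    (hloss : (∑ c, ∑ i : π, ∑ c', C.lossB (C.stepData p σ l hP.l_pos s) c'
        (P (unitVec π c i) c'))
      ≤ (∑ c, C.ig ((C.stepData p σ l hP.l_pos s).μ c ^ 2 * (C.stepData p σ l hP.l_pos s).act c
          * C.Er ((C.stepData p σ l hP.l_pos s).G c)
          * C.Er ((C.stepData p σ l hP.l_pos s).W c))) + ε')
    (hmass : (∑ c, C.ig ((C.stepData p σ l hP.l_pos s).act c)) - C.ig s.U - ε'
      ≤ (∑ c, ∑ i : π, ∑ c', C.ig (P (unitVec π c i) c' ^ 2)))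
    (hres : (∑ c, ∑ i : π, C.ig (C.constr (C.stepData p σ l hP.l_pos s)
      (P (unitVec π c i)) ^ 2)) ≤ ε') :
    ∑ ci : Fin r × π, C.quad (C.stepData p σ l hP.l_pos s) K (P (unitVec π ci.1 ci.2))
      ≤ -(39 / 20) * C.ig s.U + (4 + K) * ε' := by
  have hmain := C.loss_main_le hP hs
  have hmany := C.many_active_ig hs hcl
  have hact : ∀ c, (C.stepData p σ l hP.l_pos s).act c = s.act c := fun c => by rw [stepData]
  simp only [hact] at hmain hmass hloss
  have hε : 0 ≤ ε' := le_trans (Finset.sum_nonneg fun c _ => Finset.sum_nonneg fun i _ =>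
    C.ig_nonneg (ContinuousMap.le_def.2 fun x => by simpa using sq_nonneg _)) hres
  set d := C.stepData p σ l hP.l_pos s
  simp only [quad, ← sq, Fintype.sum_prod_type, Finset.sum_add_distrib, Finset.sum_sub_distrib,
    ← Finset.mul_sum]
  linarith [mul_le_mul_of_nonneg_left hres hK]

theorem mul_div_succ_le {a k ε : ℝ} (ha : 0 ≤ a) (hk : 0 < k) (hε : 0 ≤ ε) :
    a * (ε / (k * a + 1)) ≤ ε / k := by
  rw [← mul_div_assoc, div_le_div_iff₀ (by positivity) hk]
  nlinarith

/-- The arithmetic at the end of the step. -/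
theorem final_arith {ε U η ζ q A B : ℝ} (hη : 0 < η) (hε : 0 < ε)
    (hkey : 0 ≤ ζ + η ^ 2 * (q + A) + η ^ 3 * B) (hq : q ≤ -(39 / 20) * U + ε / 4)
    (hA : A ≤ ε / 8 + ε / 4) (hB : η * B ≤ ε / 4) (hζ : ζ ≤ η ^ 2 * (ε / 8)) : U ≤ ε := by
  have h : η ^ 2 * (39 / 20 * U) ≤ η ^ 2 * ε := by
    nlinarith [mul_le_mul_of_nonneg_left hq (sq_nonneg η),
      mul_le_mul_of_nonneg_left hA (sq_nonneg η), mul_le_mul_of_nonneg_left hB (sq_nonneg η)]
  nlinarith [le_of_mul_le_mul_left h (pow_pos hη 2)]

end Core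

theorem U_small (C : Core M X) {σ l ν g Λ : ℝ} (hσ : 0 < σ) (hl : 0 < l) (hg : 0 < g)
    (hgΛ : g ≤ Λ) {ε : ℝ} (hε : 0 < ε) (r : ℕ) :
    ∃ ζ > 0, ∀ (p : M) (s : Config M X r), Par p σ l ν → s.Ok → s.Clean →
      (∀ c, algebraMap ℝ M g ≤ (s.G c : M) ∧ (s.G c : M) ≤ algebraMap ℝ M Λ) →
      (∀ t : Config M X r, t.Ok → C.Psi p σ l ν s ≤ C.Psi p σ l ν t + ζ) →
      C.ig s.U ≤ ε := by
  classical
  set R0 := 1 + Λ + 1 / g + 1 / σ with hR0def
  have hg' : 0 < 1 / g := by positivity
  have hσ' : 0 < 1 / σ := by positivity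
  have hR0 : 1 ≤ R0 := by linarith
  set N := coefBound l R0 with hNdef
  have hN : 0 ≤ N := by rw [hNdef, coefBound]; positivity
  set K := resConst R0 * r with hK
  have hK0 : 0 ≤ K := mul_nonneg (by unfold resConst; linarith) (by positivity)
  set ε' := ε / (4 * (4 + K)) with hε'
  have hε'0 : 0 < ε' := by positivity
  obtain ⟨Cst, hCst, hcov⟩ := C.exists_cov r ε' N hε'0
  set R := R0 + N * Cst + r * (N * (N * Cst) + N * (N ^ 2 * (N * Cst))) with hRdef
  have hb1 : 0 ≤ N * Cst := by positivity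
  have hb2 : 0 ≤ (r : ℝ) * (N * (N * Cst) + N * (N ^ 2 * (N * Cst))) := by positivity
  have hRR : R0 ≤ R := by linarith
  have hR : 1 ≤ R := hR0.trans hRR
  have hc3 : 0 ≤ colConst R := by
    unfold colConst wtConst ptBound; positivity
  set η := min (1 / (50000000 * R ^ 7)) (ε / (4 * (r * colConst R) + 1)) with hη
  have hη0 : 0 < η := lt_min (by positivity) (by positivity)
  set τ := min 1 (ε / (4 * (r * (200 * R ^ 39)) + 1)) with hτ
  have hτ0 : 0 < τ := lt_min one_pos (by positivity)
  set ζ := min (ε * τ / (8 * r + 1)) (ε * η ^ 2 / 8) with hζ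
  have hζ0 : 0 < ζ := lt_min (by positivity) (by positivity)
  refine ⟨ζ, hζ0, fun p s hP hs hcl hG hmin => ?_⟩
  have hG' : ∀ c, algebraMap ℝ M (1 / R0) ≤ (s.G c : M)
      ∧ (s.G c : M) ≤ algebraMap ℝ M R0 := fun c => by
    refine ⟨le_trans (algebraMap_mono M ?_) (hG c).1,
      (hG c).2.trans (algebraMap_mono M (by linarith))⟩
    calc 1 / R0 ≤ 1 / (1 / g) := one_div_le_one_div_of_le hg' (by linarith)
      _ = g := one_div_one_div g
  set d := C.stepData p σ l hP.l_pos s with hd
  obtain ⟨P, hPact, hPn, π₀, hπ₀⟩ := hcov d (C.stepData_ok hP hs hcl hR0 fun c => (hG' c).2)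
  obtain ⟨hloss, hmass, hres⟩ := hπ₀ π₀ le_rfl
  set e : Fin r × π₀ → (Fin r → C(X, ℝ)) := fun ci => P (Core.unitVec π₀ ci.1 ci.2) with he
  obtain ⟨sg, hsg, hle⟩ := exists_signs (C.quad d K) (C.quad_parallelogram d K) e Finset.univ
  set u : Fin r → C(X, ℝ) := ∑ ci : Fin r × π₀, sg ci • Core.unitVec π₀ ci.1 ci.2 with hu
  have hv : ∑ ci, sg ci • e ci = P u := by simp only [he, hu, map_sum, map_smul]
  have hu1 : ‖u‖ ≤ 1 := by
    refine (pi_norm_le_iff_of_nonneg zero_le_one).2 fun c => norm_le_of_abs zero_le_one fun x => ?_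
    have : u c x = sg (c, π₀.proj x) := by
      simp only [hu, Finset.sum_apply, Pi.smul_apply, Core.unitVec, ContinuousMap.coe_sum,
        ContinuousMap.smul_apply, smul_eq_mul]
      rw [Finset.sum_eq_single (c, π₀.proj x)]
      · simp [cellFn_apply]
      · rintro ⟨c', i⟩ _ hne
        by_cases hc : c = c'
        · subst hc
          have : π₀.proj x ≠ i := fun h => hne (by rw [h])
          simp [cellFn_apply, this]
        · simp [hc]
      · simp
    rcases hsg (c, π₀.proj x) with h | h <;> simp [this, h]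
  rw [hv] at hle
  have hwB : ∀ c, ‖P u c‖ ≤ Cst := fun c =>
    (norm_le_pi_norm _ c).trans ((hPn u).trans (mul_le_of_le_one_right hCst hu1))
  have hkey := C.quad_ge (R := R) hP hs hcl hR0 (by linarith) hG' hζ0.le hmin hRR
    (by rw [← hNdef]; linarith) (by rw [← hNdef]; linarith) hη0 (min_le_left _ _) hτ0
    (min_le_left _ _) (P u) (fun c => hPact u c) hwB
  rw [← hd, ← hK] at hkey
  have havg : ∑ ci, C.quad d K (e ci) ≤ -(39 / 20) * C.ig s.U + (4 + K) * ε' :=
    C.sum_quad_le hP hs hcl hK0 hloss hmass hres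
  have hq := hle.trans havg
  have h1 : (4 + K) * ε' = ε / 4 := by rw [hε']; field_simp
  have hr0 : (0 : ℝ) ≤ r := Nat.cast_nonneg r
  have hR39 : (0 : ℝ) ≤ r * (200 * R ^ 39) :=
    mul_nonneg hr0 (mul_nonneg (by norm_num) (pow_nonneg (zero_le_one.trans hR) 39))
  have h2 : (r : ℝ) * (ζ / τ) ≤ ε / 8 := by
    refine le_trans (mul_le_mul_of_nonneg_left ?_ hr0) (Core.mul_div_succ_le hr0 (by norm_num) hε.le)
    rw [div_le_iff₀ hτ0, div_mul_eq_mul_div]
    exact min_le_left _ _
  have h3 : (r : ℝ) * (200 * R ^ 39 * τ) ≤ ε / 4 := by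
    rw [← mul_assoc]
    exact le_trans (mul_le_mul_of_nonneg_left (min_le_right _ _) hR39)
      (Core.mul_div_succ_le hR39 (by norm_num) hε.le)
  have h4 : η * ((r : ℝ) * colConst R) ≤ ε / 4 := by
    rw [mul_comm]
    exact le_trans (mul_le_mul_of_nonneg_left (min_le_right _ _) (mul_nonneg hr0 hc3))
      (Core.mul_div_succ_le (mul_nonneg hr0 hc3) (by norm_num) hε.le)
  have h5 : ζ ≤ η ^ 2 * (ε / 8) := (min_le_right _ _).trans_eq (by ring)
  rw [h1] at hq
  exact Core.final_arith hη0 hε hkey hq ((mul_add (r : ℝ) _ _).trans_le (add_le_add h2 h3)) h4 h5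

end Vale.Agent.P078.Tracial
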