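import Vale.Agent.P078.Tracial.Start
import Vale.Agent.P078.Tracial.Step
import Vale.Agent.P078.Tracial.Iterate

/-! The one-sided bound, and the number of colours of the iteration. -/

namespace Vale.Agent.P078.Tracial

open Filter Topology ComplexOrder Scalar

variable {M : Type*} [CStarAlgebra M] [PartialOrder M] [StarOrderedRing M]

/-- The square root of the compression satisfies the hypotheses on the parameters. -/
theorem par_sqrt {x : M} (hx : IsSelfAdjoint x) (hx1 : ‖x‖ ≤ 1) {σ l ν : ℝ} (hσ : 0 < σ)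
    (hl : 0 < l) (hl1 : l ≤ 1) (hν : 0 < ν) :
    Par (CFC.sqrt ((1 / 2 : ℝ) • (1 + (99 / 100 : ℝ) • x))) σ l ν ∧
      CFC.sqrt ((1 / 2 : ℝ) • (1 + (99 / 100 : ℝ) • x)) *
        CFC.sqrt ((1 / 2 : ℝ) • (1 + (99 / 100 : ℝ) • x)) =
      (1 / 2 : ℝ) • (1 + (99 / 100 : ℝ) • x) := by
  have hub : x ≤ (1 : ℝ) • (1 : M) := by
    refine (IsSelfAdjoint.le_algebraMap_norm_self hx).trans ?_
    rw [Algebra.algebraMap_eq_smul_one]
    exact smul_le_smul_of_nonneg_right hx1 zero_le_one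
  have hlb : (-1 : ℝ) • (1 : M) ≤ x := by
    refine le_trans ?_ (IsSelfAdjoint.neg_algebraMap_norm_le_self hx)
    rw [Algebra.algebraMap_eq_smul_one, ← neg_smul]
    exact smul_le_smul_of_nonneg_right (neg_le_neg hx1) zero_le_one
  set T := (1 / 2 : ℝ) • (1 + (99 / 100 : ℝ) • x)
  have hlow : algebraMap ℝ M (1 / 200) ≤ T := by
    rw [Algebra.algebraMap_eq_smul_one]
    calc (1 / 200 : ℝ) • (1 : M)
        = (1 / 2 : ℝ) • (1 + (99 / 100 : ℝ) • ((-1 : ℝ) • (1 : M))) := by module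
      _ ≤ T := smul_le_smul_of_nonneg_left (add_le_add le_rfl
          (smul_le_smul_of_nonneg_left hlb (by norm_num))) (by norm_num)
  have hhigh : T ≤ 1 :=
    calc T ≤ (1 / 2 : ℝ) • (1 + (99 / 100 : ℝ) • ((1 : ℝ) • (1 : M))) :=
          smul_le_smul_of_nonneg_left (add_le_add le_rfl
            (smul_le_smul_of_nonneg_left hub (by norm_num))) (by norm_num)
      _ = (199 / 200 : ℝ) • (1 : M) := by module
      _ ≤ (1 : ℝ) • (1 : M) := smul_le_smul_of_nonneg_right (by norm_num) zero_le_one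
      _ = 1 := one_smul ℝ 1
  have hT0 : 0 ≤ T := by
    refine le_trans ?_ hlow
    rw [Algebra.algebraMap_eq_smul_one]
    exact smul_nonneg (by norm_num) zero_le_one
  have hpp : CFC.sqrt T * CFC.sqrt T = T := CFC.sqrt_mul_sqrt_self T hT0
  exact ⟨⟨CFC.sqrt_nonneg T, hpp.le.trans hhigh, hlow.trans hpp.ge, hσ, hl, hl1, hν⟩, hpp⟩

/-- One paving with at least two million colours pushes the upper bound below `87 / 100`. -/
theorem oneSided.{u, v} {r : ℕ} (hr : 2000000 ≤ r) : OneSided.{u, v} (87 / 100) r := by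
  intro δ hδ
  have hr0 : 0 < r := lt_of_lt_of_le (by norm_num) hr
  have hrR : (0 : ℝ) < r := by exact_mod_cast hr0
  set η := δ / (5 * (r : ℝ) ^ 2) with hη
  have hη0 : 0 < η := by positivity
  set t := min 1 (η / (24 * r)) with ht
  have ht0 : 0 < t := lt_min one_pos (by positivity)
  have ht1 : t ≤ 1 := min_le_left _ _
  have hg : 0 < t / 7 := by positivity
  have hgΛ : t / 7 ≤ 3 / t := by
    rw [div_le_div_iff₀ (by norm_num) ht0]
    nlinarith
  refine ⟨t ^ 2, by positivity, fun M X _ _ _ _ _ _ _ C x hx hx1 hE => ?_⟩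
  obtain ⟨ζ, hζ, hU⟩ := U_small C (σ := t) (l := t) (ν := t) ht0 ht0 hg hgΛ
    (show 0 < η / 6 by positivity) r
  obtain ⟨hP, hpp⟩ := par_sqrt hx hx1 (σ := t) (l := t) (ν := t) ht0 ht0 ht1 ht0
  set p := CFC.sqrt ((1 / 2 : ℝ) • (1 + (99 / 100 : ℝ) • x))
  obtain ⟨s₀, hs₀, hstart, hmin⟩ := C.exists_near_min hP (start M X r) (start_ok hr0) hζ
  obtain ⟨s, hs, hcl, hb, hle⟩ := C.exists_improve hP hg hgΛ
    (by
      rw [div_le_iff₀ (by positivity), div_pow, ← mul_div_assoc, le_div_iff₀ (by positivity)]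
      nlinarith)
    (by
      rw [div_pow, div_div_eq_mul_div, le_div_iff₀ (by positivity)]
      nlinarith) s₀ hs₀
  have hUle : C.ig s.U ≤ η / 6 :=
    hU p s hP hs hcl hb fun u hu => hle.trans (hmin u hu)
  have h1 := C.Psi_start_le hP hr hpp
  have h2 : Real.sqrt (C.n2sq (C.r (C.Er x))) ≤ t := by
    rw [← Real.sqrt_sq ht0.le]
    exact Real.sqrt_le_sqrt hE
  have h3 : C.Psi p t t t (start M X r) ≤ η / 2 := by
    refine h1.trans ?_
    have h4 : t * (24 * r) ≤ η := by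
      rw [← le_div_iff₀ (by positivity)]; exact min_le_right _ _
    have h5 : t + t * u0 + 6 * Real.sqrt (C.n2sq (C.r (C.Er x))) + 2 * t ≤ 10 * t := by
      have : t * u0 ≤ t := by
        refine mul_le_of_le_one_right ht0.le ?_
        norm_num [u0]
      linarith
    have h6 := mul_le_mul_of_nonneg_left h5 hrR.le
    nlinarith
  obtain ⟨P, hP01, hPsum, hPb⟩ := C.exists_paving_of_state hP hx hpp hr0 hs (η := η)
    (by linarith [hle.trans hstart])
  refine ⟨P, hP01, hPsum, hPb.trans (le_of_eq ?_)⟩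
  rw [hη, mul_div_cancel₀ δ (by positivity)]

/-- Polynomially many colours suffice for the iteration. -/
theorem exists_depth {c R : ℝ} (hc : 0 < c) (hc1 : c < 1) (hR : 1 ≤ R) :
    ∃ (C : ℝ) (K : ℕ), 0 < C ∧ ∀ ε : ℝ, 0 < ε → ε ≤ 1 →
      ∃ k : ℕ, 2 * c ^ k ≤ ε / 2 ∧ R ^ k ≤ C * (1 / ε) ^ K := by
  classical
  obtain ⟨K, hK⟩ := pow_unbounded_of_one_lt R ((one_lt_inv₀ hc).2 hc1)
  refine ⟨R * 4 ^ K, K, by positivity, fun ε hε hε1 => ?_⟩
  have hex : ∃ k : ℕ, 2 * c ^ k ≤ ε / 2 := by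
    obtain ⟨k, hk⟩ := exists_pow_lt_of_lt_one (show 0 < ε / 4 by positivity) hc1
    exact ⟨k, by linarith⟩
  refine ⟨Nat.find hex, Nat.find_spec hex, ?_⟩
  have hne : Nat.find hex ≠ 0 := fun h => by
    have := Nat.find_spec hex
    rw [h, pow_zero] at this
    linarith
  obtain ⟨j, hj⟩ := Nat.exists_eq_succ_of_ne_zero hne
  have hjlt : ε / 2 < 2 * c ^ j := not_le.1 (Nat.find_min hex (by omega))
  have h1 : (c⁻¹) ^ j ≤ 4 * (1 / ε) := by
    rw [inv_pow, mul_one_div, inv_le_iff_one_le_mul₀ (by positivity), div_mul_eq_mul_div,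
      one_le_div hε]
    linarith
  rw [hj, pow_succ]
  calc R ^ j * R ≤ ((c⁻¹) ^ K) ^ j * R := by gcongr
    _ = ((c⁻¹) ^ j) ^ K * R := by rw [← pow_mul, ← pow_mul, mul_comm K j]
    _ ≤ (4 * (1 / ε)) ^ K * R := by gcongr
    _ = R * 4 ^ K * (1 / ε) ^ K := by rw [mul_pow]; ring

end Vale.Agent.P078.Tracial
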