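import Vale.Agent.P078.Tracial.Main
import Vale.Agent.P078.Tracial.Semifinite

/-! Polynomial so-paving over every masa of every semifinite von Neumann algebra. -/

namespace Vale.Agent.P078.Tracial

/-- Polynomially many pieces so-pave every self-adjoint element over every masa of every von
Neumann algebra with a faithful normal semifinite trace, given by vectors. -/
theorem soPavableIn_semifinite_polynomial :
    ∃ (C : ℝ) (K : ℕ), 0 < C ∧ ∀ ε : ℝ, 0 < ε → ε ≤ 1 → ∃ n : ℕ, (n : ℝ) ≤ C * (1 / ε) ^ K ∧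
      ∀ (H : Type) [NormedAddCommGroup H] [InnerProductSpace ℂ H] [CompleteSpace H]
        (M : VonNeumannAlgebra H) (A : StarSubalgebra ℂ (H →L[ℂ] H)),
        (∀ a ∈ A, a ∈ M) → (∀ x ∈ M, (∀ a ∈ A, a * x = x * a) → x ∈ A) →
        (∀ a ∈ A, ∀ b ∈ A, a * b = b * a) →
        ∀ (I : Type) (ξ : I → H), SemifiniteTrace M ξ →
        ∀ x ∈ M, IsSelfAdjoint x → SoPavableIn M A x ε n := by
  have hR : (1 : ℝ) ≤ ((2000000 * 2000000 : ℕ) : ℝ) := Nat.one_le_cast.2 (by norm_num)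
  obtain ⟨C, K, hC, hk⟩ := exists_depth (c := 87 / 100) (by norm_num) (by norm_num) hR
  refine ⟨C + 2, K + 1, by linarith, fun ε hε hε1 => ?_⟩
  obtain ⟨k, hk1, hk2⟩ := hk ε hε hε1
  refine ⟨(2000000 * 2000000) ^ k + (⌊1 / ε⌋₊ + 1), ?_,
    fun H _ _ _ M A h1 h2 h3 I ξ hτ x hx hxs =>
      soPavableIn_of_paving_semifinite M A h1 h2 h3 hτ hε
        (pavingConclusion_of_oneSided (by norm_num) (oneSided le_rfl) k hk1) hx hxs⟩
  have he : 1 ≤ 1 / ε := one_le_one_div hε hε1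
  have h1 : (⌊1 / ε⌋₊ : ℝ) ≤ 1 / ε := Nat.floor_le (by linarith)
  have h2 : (1 / ε) ^ K ≤ (1 / ε) ^ (K + 1) := pow_le_pow_right₀ he (Nat.le_succ K)
  have h3 : 1 / ε ≤ (1 / ε) ^ (K + 1) := le_self_pow₀ he (Nat.succ_ne_zero K)
  have h4 : C * (1 / ε) ^ K ≤ C * (1 / ε) ^ (K + 1) := mul_le_mul_of_nonneg_left h2 hC.le
  push_cast at hk2 ⊢
  linarith

end Vale.Agent.P078.Tracial
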