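import Vale.Agent.P078.Tracial.FromVNAux

/-! The two-norm of a semifinite trace given by vectors. -/

namespace Vale.Agent.P078.Tracial

open scoped InnerProductSpace
open Filter Topology

variable {H : Type*} [NormedAddCommGroup H] [InnerProductSpace ℂ H] [CompleteSpace H]

/-- `x` has finite two-norm for the weight given by the vectors `ξ`. -/
def HSMem {I : Type*} (ξ : I → H) (x : H →L[ℂ] H) : Prop :=
  Summable fun i => ‖x (ξ i)‖ ^ 2

/-- A faithful normal semifinite trace, given by its vectors: the value at `star x * x` is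
`∑ i, ‖x (ξ i)‖ ^ 2`. -/
structure SemifiniteTrace (M : VonNeumannAlgebra H) {I : Type*} (ξ : I → H) : Prop where
  tracial : ∀ x ∈ M, HSMem ξ x →
    HasSum (fun i => ‖(star x) (ξ i)‖ ^ 2) (∑' i, ‖x (ξ i)‖ ^ 2)
  faithful : ∀ x ∈ M, (∀ i, x (ξ i) = 0) → x = 0
  semifinite : ∀ (F : Finset H) (δ : ℝ), 0 < δ →
    ∃ q ∈ M, IsStarProjection q ∧ HSMem ξ q ∧ ∀ v ∈ F, ‖v - q v‖ < δ

section Basic

variable {I : Type*} {ξ : I → H} {a b : H →L[ℂ] H}

omit [CompleteSpace H] in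
lemma HSMem.mul_left (ha : HSMem ξ a) (b : H →L[ℂ] H) : HSMem ξ (b * a) := by
  refine Summable.of_nonneg_of_le (fun i => sq_nonneg _) (fun i => ?_)
    (Summable.mul_left (‖b‖ ^ 2) ha)
  rw [← mul_pow]
  exact pow_le_pow_left₀ (norm_nonneg _) (b.le_opNorm _) 2

omit [CompleteSpace H] in
lemma HSMem.add (ha : HSMem ξ a) (hb : HSMem ξ b) : HSMem ξ (a + b) := by
  refine Summable.of_nonneg_of_le (fun i => sq_nonneg _) (fun i => ?_)
    (Summable.mul_left 2 (Summable.add ha hb))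
  rw [_root_.add_apply]
  have h1 := norm_add_le (a (ξ i)) (b (ξ i))
  have h2 := sq_nonneg (‖a (ξ i)‖ - ‖b (ξ i)‖)
  nlinarith [norm_nonneg (a (ξ i) + b (ξ i))]

omit [CompleteSpace H] in
lemma HSMem.smul (ha : HSMem ξ a) (c : ℂ) : HSMem ξ (c • a) := by
  refine (Summable.mul_left (‖c‖ ^ 2) ha).congr fun i => ?_
  rw [_root_.smul_apply, norm_smul, mul_pow]

omit [CompleteSpace H] in
lemma HSMem.sub (ha : HSMem ξ a) (hb : HSMem ξ b) : HSMem ξ (a - b) := by
  have := ha.add (hb.smul (-1))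
  simpa [sub_eq_add_neg] using this

omit [CompleteSpace H] in
lemma hsMem_zero : HSMem ξ (0 : H →L[ℂ] H) := by simp [HSMem]

omit [CompleteSpace H] in
lemma hsMem_sum {κ : Type*} (t : Finset κ) {f : κ → (H →L[ℂ] H)}
    (h : ∀ k ∈ t, HSMem ξ (f k)) : HSMem ξ (∑ k ∈ t, f k) :=
  Finset.sum_induction _ (HSMem ξ) (fun _ _ => HSMem.add) hsMem_zero h

variable {M : VonNeumannAlgebra H}

lemma HSMem.star (hτ : SemifiniteTrace M ξ) (haM : a ∈ M) (ha : HSMem ξ a) :
    HSMem ξ (Star.star a) :=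
  (hτ.tracial a haM ha).summable

lemma HSMem.mul_right (hτ : SemifiniteTrace M ξ) (haM : a ∈ M) (ha : HSMem ξ a)
    (hbM : b ∈ M) : HSMem ξ (a * b) := by
  have h := HSMem.star hτ (mul_mem (star_mem hbM) (star_mem haM))
    ((HSMem.star hτ haM ha).mul_left (Star.star b))
  simpa using h

open Classical in
/-- The vector of an operator of finite two-norm. -/
noncomputable def hv (ξ : I → H) (a : H →L[ℂ] H) : lp (fun _ : I => H) 2 :=
  if h : Memℓp (fun i => a (ξ i)) 2 then ⟨_, h⟩ else 0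

omit [CompleteSpace H] in
lemma HSMem.memℓp (ha : HSMem ξ a) : Memℓp (fun i => a (ξ i)) 2 := by
  refine memℓp_gen ?_
  simp only [ENNReal.toReal_ofNat, Real.rpow_two]
  exact ha

omit [CompleteSpace H] in
lemma hv_apply (ha : HSMem ξ a) (i : I) : hv ξ a i = a (ξ i) := by
  rw [hv, dif_pos ha.memℓp]

omit [CompleteSpace H] in
lemma hv_add (ha : HSMem ξ a) (hb : HSMem ξ b) : hv ξ (a + b) = hv ξ a + hv ξ b := by
  apply lp.ext; funext i
  simp [hv_apply, ha, hb, ha.add hb, _root_.add_apply]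

omit [CompleteSpace H] in
lemma hv_sub (ha : HSMem ξ a) (hb : HSMem ξ b) : hv ξ (a - b) = hv ξ a - hv ξ b := by
  apply lp.ext; funext i
  simp [hv_apply, ha, hb, ha.sub hb, _root_.sub_apply]

omit [CompleteSpace H] in
lemma hv_smul (ha : HSMem ξ a) (c : ℂ) : hv ξ (c • a) = c • hv ξ a := by
  apply lp.ext; funext i
  simp [hv_apply, ha, ha.smul c, _root_.smul_apply]

omit [CompleteSpace H] in
lemma hv_zero : hv ξ (0 : H →L[ℂ] H) = 0 := by
  apply lp.ext; funext i
  simp [hv_apply, hsMem_zero]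

omit [CompleteSpace H] in
lemma hv_sum {κ : Type*} (t : Finset κ) {f : κ → (H →L[ℂ] H)}
    (h : ∀ k, HSMem ξ (f k)) : hv ξ (∑ k ∈ t, f k) = ∑ k ∈ t, hv ξ (f k) := by
  classical
  induction t using Finset.induction with
  | empty => simp [hv_zero]
  | insert k t hk ih =>
    rw [Finset.sum_insert hk, Finset.sum_insert hk, hv_add (h k) (hsMem_sum t fun k _ => h k), ih]

omit [CompleteSpace H] in
lemma norm_hv_sq (ha : HSMem ξ a) : ‖hv ξ a‖ ^ 2 = ∑' i, ‖a (ξ i)‖ ^ 2 := by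
  have := lp.norm_rpow_eq_tsum (p := 2) (by norm_num) (hv ξ a)
  simpa [hv_apply ha] using this

omit [CompleteSpace H] in
lemma norm_hv_mul_left_le (ha : HSMem ξ a) (b : H →L[ℂ] H) :
    ‖hv ξ (b * a)‖ ≤ ‖b‖ * ‖hv ξ a‖ := by
  refine (pow_le_pow_iff_left₀ (norm_nonneg _) (by positivity) two_ne_zero).1 ?_
  rw [mul_pow, norm_hv_sq ha, norm_hv_sq (ha.mul_left b), ← tsum_mul_left]
  refine Summable.tsum_le_tsum (fun i => ?_) (ha.mul_left b) (Summable.mul_left _ ha)
  rw [← mul_pow]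
  exact pow_le_pow_left₀ (norm_nonneg _) (b.le_opNorm _) 2

lemma norm_hv_star (hτ : SemifiniteTrace M ξ) (haM : a ∈ M) (ha : HSMem ξ a) :
    ‖hv ξ (Star.star a)‖ = ‖hv ξ a‖ := by
  rw [← pow_left_inj₀ (norm_nonneg _) (norm_nonneg _) two_ne_zero,
    norm_hv_sq (ha.star hτ haM), norm_hv_sq ha]
  exact (hτ.tracial a haM ha).tsum_eq

lemma norm_hv_mul_right_le (hτ : SemifiniteTrace M ξ) (haM : a ∈ M) (ha : HSMem ξ a)
    (hbM : b ∈ M) : ‖hv ξ (a * b)‖ ≤ ‖b‖ * ‖hv ξ a‖ := by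
  rw [← norm_hv_star hτ (mul_mem haM hbM) (ha.mul_right hτ haM hbM), star_mul,
    ← norm_hv_star hτ haM ha]
  refine (norm_hv_mul_left_le (ha.star hτ haM) _).trans (le_of_eq ?_)
  rw [norm_star]

/-- Tracial symmetry. -/
lemma inner_hv_star (hτ : SemifiniteTrace M ξ) (haM : a ∈ M) (ha : HSMem ξ a)
    (hbM : b ∈ M) (hb : HSMem ξ b) :
    ⟪hv ξ (Star.star a), hv ξ (Star.star b)⟫_ℂ = ⟪hv ξ b, hv ξ a⟫_ℂ := by
  have hsM : ∀ {x : H →L[ℂ] H} (c : ℂ), x ∈ M → c • x ∈ M := fun c hx =>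
    SMulMemClass.smul_mem (s := M.toStarSubalgebra) c hx
  have key : ∀ c : ℂ, ‖hv ξ a + c • hv ξ b‖ =
      ‖hv ξ (Star.star a) + starRingEnd ℂ c • hv ξ (Star.star b)‖ := fun c => by
    rw [← hv_smul hb, ← hv_add ha (hb.smul c), ← hv_smul (hb.star hτ hbM),
      ← hv_add (ha.star hτ haM) ((hb.star hτ hbM).smul _),
      ← norm_hv_star hτ (add_mem haM (hsM c hbM)) (ha.add (hb.smul c)), star_add, star_smul]
    rfl
  have h1 := key 1
  have h2 := key (-1)
  have h3 := key Complex.I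
  have h4 := key (-Complex.I)
  simp only [map_one, map_neg, Complex.conj_I, one_smul, neg_smul, neg_neg, ← sub_eq_add_neg]
    at h1 h2 h3 h4
  rw [← inner_conj_symm (hv ξ b), inner_eq_sum_norm_sq_div_four (hv ξ a),
    inner_eq_sum_norm_sq_div_four (hv ξ (Star.star a))]
  simp only [RCLike.I_to_complex, h1, h2, h3, h4]
  simp [← Complex.ofReal_pow, Complex.conj_I, map_ofNat]
  ring

/-- Moving a left factor. -/
lemma inner_hv_mul_left (ha : HSMem ξ a) (hb : HSMem ξ b) (c : H →L[ℂ] H) :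
    ⟪hv ξ (c * a), hv ξ b⟫_ℂ = ⟪hv ξ a, hv ξ (Star.star c * b)⟫_ℂ := by
  rw [lp.inner_eq_tsum, lp.inner_eq_tsum]
  refine tsum_congr fun i => ?_
  rw [hv_apply (ha.mul_left c), hv_apply hb, hv_apply ha, hv_apply (hb.mul_left _),
    op_mul_apply, op_mul_apply, ContinuousLinearMap.star_eq_adjoint,
    ContinuousLinearMap.adjoint_inner_right]

/-- Moving a right factor. -/
lemma inner_hv_mul_right (hτ : SemifiniteTrace M ξ) (haM : a ∈ M) (ha : HSMem ξ a)
    (hbM : b ∈ M) (hb : HSMem ξ b) {c : H →L[ℂ] H} (hcM : c ∈ M) :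
    ⟪hv ξ (a * c), hv ξ b⟫_ℂ = ⟪hv ξ a, hv ξ (b * Star.star c)⟫_ℂ := by
  rw [← inner_hv_star hτ hbM hb (mul_mem haM hcM) (ha.mul_right hτ haM hcM),
    ← inner_hv_star hτ (mul_mem hbM (star_mem hcM)) (hb.mul_right hτ hbM (star_mem hcM)) haM ha,
    star_mul, star_mul, star_star, inner_hv_mul_left (hb.star hτ hbM) (ha.star hτ haM) c]

end Basic

/-- Projections of small weight are small on every vector. -/
lemma exists_small_weight {M : VonNeumannAlgebra H} {I : Type*} {ξ : I → H}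
    (hτ : SemifiniteTrace M ξ) (F : Finset H) {δ : ℝ} (hδ : 0 < δ) :
    ∃ η > 0, ∀ s ∈ M, IsStarProjection s → HSMem ξ s → ‖hv ξ s‖ ^ 2 ≤ η →
      ∀ v ∈ F, ‖s v‖ < δ := by
  classical
  have one : ∀ v : H, ∃ η > 0, ∀ s ∈ M, IsStarProjection s → HSMem ξ s → ‖hv ξ s‖ ^ 2 ≤ η →
      ‖s v‖ < δ := by
    intro v
    by_contra hcon
    push Not at hcon
    choose s hsM hsp hsf hsm hsv using fun n : ℕ => hcon (1 / (n + 1)) (by positivity)
    let U : Ultrafilter ℕ := Ultrafilter.of atTop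
    have hU : (U : Filter ℕ) ≤ atTop := Ultrafilter.of_le _
    obtain ⟨E, -, hE⟩ := exists_weakLimit U s (C := 1) (fun n => (hsp n).norm_le)
    have hEM : E ∈ M := vn_mem_of_weakLimit hE hsM
    have h0 : ∀ m, E (ξ m) = 0 := fun m => by
      refine ext_inner_right ℂ fun w => ?_
      rw [inner_zero_left]
      refine tendsto_nhds_unique (hE (ξ m) w) (Tendsto.mono_left ?_ hU)
      have hn : Tendsto (fun n => s n (ξ m)) atTop (𝓝 0) := by
        rw [tendsto_zero_iff_norm_tendsto_zero]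
        refine squeeze_zero (fun n => norm_nonneg _) (fun n => ?_) tendsto_sqrt_one_div'
        refine Real.le_sqrt_of_sq_le ?_
        refine le_trans ?_ (hsm n)
        rw [norm_hv_sq (hsf n)]
        exact Summable.le_tsum (hsf n) m fun j _ => sq_nonneg _
      have := Filter.Tendsto.inner (𝕜 := ℂ) hn (tendsto_const_nhds (x := w))
      simpa using this
    have hE0 := hτ.faithful E hEM h0
    have h1 := (Complex.continuous_re.tendsto _).comp (hE v v)
    rw [hE0] at h1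
    simp only [Function.comp_def, zero_apply, inner_zero_left, Complex.zero_re] at h1
    have h2 : δ ^ 2 ≤ 0 := by
      refine ge_of_tendsto h1 (Eventually.of_forall fun n => ?_)
      have : ⟪s n v, v⟫_ℂ = ⟪s n v, s n v⟫_ℂ := by
        rw [sa_inner (hsp n).isSelfAdjoint, sa_inner (hsp n).isSelfAdjoint,
          proj_apply_apply (hsp n)]
      rw [this, inner_self_eq_norm_sq_to_K]
      refine le_trans (pow_le_pow_left₀ hδ.le (hsv n) 2) (le_of_eq ?_)
      simp [← Complex.ofReal_pow]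
    nlinarith
  choose η hη0 hη using one
  induction F using Finset.induction with
  | empty => exact ⟨1, one_pos, fun s _ _ _ _ v hv => absurd hv (Finset.notMem_empty v)⟩
  | insert w F _ ih =>
    obtain ⟨a, ha, ha'⟩ := ih
    refine ⟨min a (η w), lt_min ha (hη0 w), fun s h1 h2 h3 h4 v hv => ?_⟩
    rcases Finset.mem_insert.1 hv with rfl | hv
    · exact hη v s h1 h2 h3 (h4.trans (min_le_right _ _))
    · exact ha' s h1 h2 h3 (h4.trans (min_le_left _ _)) v hv
where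
  tendsto_sqrt_one_div' : Tendsto (fun n : ℕ => Real.sqrt (1 / ((n:ℝ) + 1))) atTop (𝓝 0) := by
    have := (Real.continuous_sqrt.tendsto 0).comp tendsto_one_div_add_atTop_nhds_zero_nat
    rw [Real.sqrt_zero] at this
    exact this

end Vale.Agent.P078.Tracial
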