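import Vale.Agent.P078.Tracial.Clean

/-! The quantities of one colour used in the step. -/

namespace Vale.Agent.P078.Tracial

set_option linter.unusedSectionVars false

open Filter Topology ComplexOrder Scalar

variable {M X : Type*} [CStarAlgebra M] [PartialOrder M] [StarOrderedRing M]
variable [TopologicalSpace X] [CompactSpace X] [T2Space X] [TotallyDisconnectedSpace X]

/-- The derivative of the weight in the resolvent, on functions. -/
noncomputable def φγc (b γ : C(X, ℝ)) : C(X, ℝ) :=
  ⟨fun x => φγ (b x) (γ x), continuous_φγ.comp ((map_continuous b).prodMk (map_continuous γ))⟩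

@[simp] theorem φγc_apply (b γ : C(X, ℝ)) (x : X) : φγc b γ x = φγ (b x) (γ x) := rfl

theorem continuous_φb_comp (b γ : C(X, ℝ)) : Continuous fun x => φb (b x) (γ x) := by
  unfold φb
  exact (continuous_F'_max.comp ((map_continuous b).prodMk (map_continuous γ))).div_const α

/-- The derivative of the weight in the budget, on functions. -/
noncomputable def φbc (b γ : C(X, ℝ)) : C(X, ℝ) :=
  ⟨fun x => φb (b x) (γ x), continuous_φb_comp b γ⟩

@[simp] theorem φbc_apply (b γ : C(X, ℝ)) (x : X) : φbc b γ x = φb (b x) (γ x) := rfl

namespace Core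

variable (C : Core M X)

/-- The derivative of the barrier at the matrix of one colour. -/
noncomputable def dmat (p : M) (σ l : ℝ) (a e b : C(X, ℝ)) (G : Mˣ) : M :=
  cfc (f' u0 σ l) (C.mat p a e b G)

/-- The density of the derivative of the barrier. -/
noncomputable def dens (p : M) (σ l : ℝ) (a e b : C(X, ℝ)) (G : Mˣ) : C(X, ℝ) :=
  C.Er (p * C.dmat p σ l a e b G * p)

end Core

end Vale.Agent.P078.Tracial
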